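import Mathlib
import Crest.Prelude.Def_LinCircuit

set_option autoImplicit false

namespace Crest.Agent.H8DF

open Crest.FourierCircuit Finset

/-- Values available after a list of gates. -/
def vals {n : ℕ} (gs : List LGate) (x : Fin n → ℂ) : List ℂ :=
  gs.foldl (fun avail g => avail ++ [g.value avail]) (List.ofFn x ++ [0])

theorem foldl_prefix (gs : List LGate) : ∀ l : List ℂ, ∃ r : List ℂ, r.length = gs.length ∧
    gs.foldl (fun avail g => avail ++ [g.value avail]) l = l ++ r := by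
  induction gs with
  | nil => exact fun l => ⟨[], rfl, by simp⟩
  | cons g gs ih =>
    intro l
    obtain ⟨r, hr, h⟩ := ih (l ++ [g.value l])
    exact ⟨g.value l :: r, by simp [hr], by simp [h]⟩

theorem vals_length {n : ℕ} (gs : List LGate) (x : Fin n → ℂ) :
    (vals gs x).length = n + 1 + gs.length := by
  obtain ⟨r, hr, h⟩ := foldl_prefix gs (List.ofFn x ++ [0])
  rw [vals, h]; simp [hr]; omega

theorem vals_append {n : ℕ} (gs gs' : List LGate) (x : Fin n → ℂ) :
    ∃ r, vals (gs ++ gs') x = vals gs x ++ r := by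
  obtain ⟨r, -, h⟩ := foldl_prefix gs' (vals gs x)
  exact ⟨r, by rw [vals, List.foldl_append]; exact h⟩

/-- The function `u` of the input is available after the gates `gs`. -/
def Avail {n : ℕ} (gs : List LGate) (u : (Fin n → ℂ) → ℂ) : Prop :=
  ∃ j < n + 1 + gs.length, ∀ x, (vals gs x).getD j 0 = u x

theorem Avail.append {n : ℕ} {gs : List LGate} {u : (Fin n → ℂ) → ℂ} (h : Avail gs u)
    (gs' : List LGate) : Avail (gs ++ gs') u := by
  obtain ⟨j, hj, h⟩ := h
  refine ⟨j, by simp; omega, fun x => ?_⟩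
  obtain ⟨r, hr⟩ := vals_append gs gs' x
  rw [hr, List.getD_append _ _ _ _ (by rw [vals_length]; exact hj), h]

theorem avail_zero {n : ℕ} (gs : List LGate) : Avail (n := n) gs (fun _ => 0) := by
  have : Avail (n := n) [] (fun _ => 0) := ⟨n, by simp, fun x => by
    simp [vals, List.getD_eq_getElem?_getD]⟩
  simpa using this.append gs

theorem avail_input {n : ℕ} (k : Fin n) : Avail (n := n) [] (fun x => x k) :=
  ⟨k, by simp, fun x => by
    simp [vals, List.getD_eq_getElem?_getD]⟩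

theorem avail_gate {n : ℕ} (gs : List LGate) (g : LGate) :
    Avail (n := n) (gs ++ [g]) (fun x => g.value (vals gs x)) := by
  refine ⟨n + 1 + gs.length, by simp, fun x => ?_⟩
  have : vals (gs ++ [g]) x = vals gs x ++ [g.value (vals gs x)] := by
    simp [vals, List.foldl_append]
  rw [this, ← vals_length gs x]
  simp [List.getD_eq_getElem?_getD]

/-- The map `f` can be evaluated with at most `s` gates. -/
def Cost {α β : Type} (s : ℕ) (f : (α → ℂ) → β → ℂ) : Prop :=
  ∀ (n : ℕ) (gs : List LGate) (x : (Fin n → ℂ) → α → ℂ), (∀ a, Avail gs (fun v => x v a)) →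
    ∃ gs' : List LGate, gs'.length ≤ s ∧ ∀ b, Avail (gs ++ gs') (fun v => f (x v) b)

theorem Cost.circuit {n s : ℕ} {A : Matrix (Fin n) (Fin n) ℂ} (h : Cost s A.mulVec) :
    ∃ P : LinCircuit n, P.Computes A ∧ P.size ≤ s := by
  obtain ⟨gs, h1, h2⟩ := h n [] (fun v => v) avail_input
  simp only [List.nil_append] at h2
  choose j _ hj using h2
  exact ⟨⟨gs, j⟩, fun x k => hj k x, h1⟩

theorem Cost.mono {α β : Type} {s t : ℕ} {f : (α → ℂ) → β → ℂ} (h : Cost s f) (hst : s ≤ t) :
    Cost t f := fun n gs x hx => by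
  obtain ⟨gs', h1, h2⟩ := h n gs x hx
  exact ⟨gs', h1.trans hst, h2⟩

theorem Cost.comp {α β γ : Type} {s t : ℕ} {f : (α → ℂ) → β → ℂ} {g : (β → ℂ) → γ → ℂ}
    (hf : Cost s f) (hg : Cost t g) : Cost (s + t) (fun x => g (f x)) := fun n gs x hx => by
  obtain ⟨gs', h1, h2⟩ := hf n gs x hx
  obtain ⟨gs'', h3, h4⟩ := hg n (gs ++ gs') (fun v => f (x v)) h2
  exact ⟨gs' ++ gs'', by simp; omega, by simpa using h4⟩

/-- Outputs that are inputs or zero are free. -/
theorem cost_free {α β : Type} (f : (α → ℂ) → β → ℂ)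
    (h : ∀ b, (∃ a, ∀ x, f x b = x a) ∨ ∀ x, f x b = 0) : Cost 0 f := fun n gs x hx => by
  refine ⟨[], le_rfl, fun b => ?_⟩
  rw [List.append_nil]
  rcases h b with ⟨a, ha⟩ | h0
  · simpa only [ha] using hx a
  · simpa only [h0] using avail_zero gs

theorem cost_sel {α β : Type} (π : β → α) : Cost 0 (fun (x : α → ℂ) b => x (π b)) :=
  cost_free _ fun b => Or.inl ⟨π b, fun _ => rfl⟩

theorem Cost.pre {α α' β : Type} {s : ℕ} {f : (α → ℂ) → β → ℂ} (h : Cost s f) (π : α → α') :
    Cost s (fun (x : α' → ℂ) => f (fun a => x (π a))) := by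
  simpa using (cost_sel π).comp h

/-- Every output of `g` is an output of `f`. -/
theorem Cost.post {α β β' : Type} {s : ℕ} {f : (α → ℂ) → β → ℂ} (h : Cost s f)
    (g : (α → ℂ) → β' → ℂ) (hg : ∀ b', ∃ b, ∀ x, g x b' = f x b) : Cost s g := by
  choose π hπ using hg
  have := h.comp (cost_sel π)
  have hg : g = fun x b => f x (π b) := funext fun x => funext fun b => hπ b x
  rw [hg]
  exact this

theorem Cost.congr {α β : Type} {s : ℕ} {f g : (α → ℂ) → β → ℂ} (h : Cost s f)
    (hfg : ∀ x b, g x b = f x b) : Cost s g :=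
  h.post g fun b => ⟨b, fun x => hfg x b⟩

theorem Cost.pair {α β γ : Type} {s t : ℕ} {f : (α → ℂ) → β → ℂ} {g : (α → ℂ) → γ → ℂ}
    (hf : Cost s f) (hg : Cost t g) : Cost (s + t) (fun x => Sum.elim (f x) (g x)) :=
  fun n gs x hx => by
  obtain ⟨gs', h1, h2⟩ := hf n gs x hx
  obtain ⟨gs'', h3, h4⟩ := hg n (gs ++ gs') x (fun a => (hx a).append gs')
  refine ⟨gs' ++ gs'', by simp; omega, fun b => ?_⟩
  rw [← List.append_assoc]
  cases b with
  | inl b => exact (h2 b).append gs''
  | inr c => exact h4 c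

theorem cost_sigma {α ι : Type} [Fintype ι] {β : ι → Type} (s : ι → ℕ)
    (f : ∀ i, (α → ℂ) → β i → ℂ) (h : ∀ i, Cost (s i) (f i)) :
    Cost (∑ i, s i) (fun x (p : Σ i, β i) => f p.1 x p.2) := by
  classical
  intro n gs x hx
  have key : ∀ S : Finset ι, ∃ gs' : List LGate, gs'.length ≤ ∑ i ∈ S, s i ∧
      ∀ i ∈ S, ∀ b, Avail (gs ++ gs') (fun v => f i (x v) b) := by
    intro S
    induction S using Finset.induction_on with
    | empty => exact ⟨[], by simp, by simp⟩
    | insert i S hi ih =>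
      obtain ⟨gs', h1, h2⟩ := ih
      obtain ⟨gs'', h3, h4⟩ := h i n (gs ++ gs') x (fun a => (hx a).append gs')
      refine ⟨gs' ++ gs'', by rw [Finset.sum_insert hi]; simp; omega, fun j hj b => ?_⟩
      rw [← List.append_assoc]
      rcases Finset.mem_insert.1 hj with rfl | hj
      · exact h4 b
      · exact (h2 j hj b).append gs''
  obtain ⟨gs', h1, h2⟩ := key univ
  exact ⟨gs', h1, fun p => h2 p.1 (Finset.mem_univ _) p.2⟩

theorem cost_prod {α ι β : Type} [Fintype ι] (s : ι → ℕ)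
    (f : ι → (α → ℂ) → β → ℂ) (h : ∀ i, Cost (s i) (f i)) :
    Cost (∑ i, s i) (fun x (p : ι × β) => f p.1 x p.2) :=
  (cost_sigma (β := fun _ => β) s f h).post _ fun p => ⟨⟨p.1, p.2⟩, fun _ => rfl⟩

theorem cost_pointwise {α β : Type} [Fintype β] (s : ℕ) (f : (α → ℂ) → β → ℂ)
    (h : ∀ b, Cost s (fun x (_ : Unit) => f x b)) : Cost (Fintype.card β * s) f := by
  have := (cost_prod (fun _ => s) (fun b x (_ : Unit) => f x b) h).post f
    fun b => ⟨(b, ()), fun _ => rfl⟩
  simpa using this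

theorem cost_lincomb {α ι : Type} (S : Finset ι) (c : ι → ℂ) (π : ι → α) :
    Cost (2 * S.card) (fun (x : α → ℂ) (_ : Unit) => ∑ i ∈ S, c i * x (π i)) := by
  classical
  intro n gs x hx
  induction S using Finset.induction_on with
  | empty => exact ⟨[], by simp, fun _ => by simpa using avail_zero gs⟩
  | insert i S hi ih =>
    obtain ⟨gs', h1, h2⟩ := ih
    obtain ⟨j, hj, hj'⟩ := (hx (π i)).append gs'
    have h3 := avail_gate (n := n) (gs ++ gs') (LGate.smul (c i) j)
    obtain ⟨k, hk, hk'⟩ := h3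
    obtain ⟨l, hl, hl'⟩ := (h2 ()).append [LGate.smul (c i) j]
    have h4 := avail_gate (n := n) (gs ++ gs' ++ [LGate.smul (c i) j]) (LGate.add k l)
    refine ⟨gs' ++ [LGate.smul (c i) j] ++ [LGate.add k l],
      by rw [Finset.card_insert_of_notMem hi]; simp; omega, fun _ => ?_⟩
    rw [← List.append_assoc, ← List.append_assoc]
    convert h4 using 2
    beta_reduce
    rw [Finset.sum_insert hi, LGate.value, hk', hl']
    beta_reduce
    rw [LGate.value, hj']

theorem cost_diag {α : Type} [Fintype α] (c : α → ℂ) :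
    Cost (Fintype.card α * 2) (fun (x : α → ℂ) a => c a * x a) :=
  cost_pointwise 2 _ fun a => by simpa using cost_lincomb {()} (fun _ => c a) (fun _ => a)

/-- Apply `f` to each array of a batch. -/
def batch (ι : Type) {α β : Type} (f : (α → ℂ) → β → ℂ) (x : ι × α → ℂ) (p : ι × β) : ℂ :=
  f (fun a => x (p.1, a)) p.2

theorem Cost.batch {α β : Type} (ι : Type) [Fintype ι] {s : ℕ} {f : (α → ℂ) → β → ℂ}
    (h : Cost s f) : Cost (Fintype.card ι * s) (batch ι f) := by
  have := cost_prod (fun _ : ι => s) (fun i (x : ι × α → ℂ) => f (fun a => x (i, a)))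
    fun i => h.pre (fun a => (i, a))
  simp only [Finset.sum_const, Finset.card_univ, smul_eq_mul] at this
  exact this

theorem Cost.batch_equiv {α β ι ι' : Type} {s : ℕ} {f : (α → ℂ) → β → ℂ}
    (h : Cost s (H8DF.batch ι f)) (e : ι ≃ ι') : Cost s (H8DF.batch ι' f) :=
  (h.pre (fun p => (e p.1, p.2))).post _ fun p => ⟨(e.symm p.1, p.2), fun x => by
    simp [H8DF.batch]⟩

theorem Cost.batch_prod {α β ι : Type} (κ : Type) [Fintype κ] {s : ℕ} {f : (α → ℂ) → β → ℂ}
    (h : Cost s (H8DF.batch ι f)) : Cost (Fintype.card κ * s) (H8DF.batch (κ × ι) f) :=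
  ((h.batch κ).pre (fun p => ((p.1, p.2.1), p.2.2))).post _
    fun p => ⟨(p.1.1, (p.1.2, p.2)), fun _ => rfl⟩

theorem Cost.batch_sum {α β ι κ : Type} {s t : ℕ} {f : (α → ℂ) → β → ℂ}
    (h : Cost s (H8DF.batch ι f)) (h' : Cost t (H8DF.batch κ f)) :
    Cost (s + t) (H8DF.batch (ι ⊕ κ) f) :=
  ((h.pre (fun p => (Sum.inl p.1, p.2))).pair (h'.pre (fun p => (Sum.inr p.1, p.2)))).post _
    fun p => by
      obtain ⟨i | i, b⟩ := p
      · exact ⟨Sum.inl (i, b), fun _ => rfl⟩
      · exact ⟨Sum.inr (i, b), fun _ => rfl⟩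

end Crest.Agent.H8DF
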