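import Crest.Agent.H8.DftA

set_option autoImplicit false

namespace Crest.Agent.H8DF

open Crest.FourierCircuit Finset

/-- `g'` extends `g` by at most `s` gates. -/
def Ext (g : List LGate) (s : ℕ) (g' : List LGate) : Prop :=
  ∃ r : List LGate, r.length ≤ s ∧ g' = g ++ r

theorem Ext.refl (g : List LGate) : Ext g 0 g := ⟨[], le_rfl, by simp⟩

theorem Ext.trans {g g' g'' : List LGate} {s t : ℕ} (h : Ext g s g') (h' : Ext g' t g'') :
    Ext g (s + t) g'' := by
  obtain ⟨r, h1, rfl⟩ := h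
  obtain ⟨r', h2, rfl⟩ := h'
  exact ⟨r ++ r', by simp; omega, by simp⟩

theorem Ext.mono {g g' : List LGate} {s t : ℕ} (h : Ext g s g') (hst : s ≤ t) : Ext g t g' := by
  obtain ⟨r, h1, rfl⟩ := h
  exact ⟨r, h1.trans hst, rfl⟩

theorem ext_all {ι : Type} [Fintype ι] (s : ℕ) (Q : ι → List LGate → Prop) (g : List LGate)
    (hQ : ∀ i g' t g'', Ext g' t g'' → Q i g' → Q i g'')
    (h : ∀ i t g', Ext g t g' → ∃ g'', Ext g' s g'' ∧ Q i g'') :
    ∃ g', Ext g (Fintype.card ι * s) g' ∧ ∀ i, Q i g' := by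
  classical
  have key : ∀ S : Finset ι, ∃ g', Ext g (S.card * s) g' ∧ ∀ i ∈ S, Q i g' := by
    intro S
    induction S using Finset.induction_on with
    | empty => exact ⟨g, by simpa using Ext.refl g, by simp⟩
    | insert i S hi ih =>
      obtain ⟨g', h1, h2⟩ := ih
      obtain ⟨g'', h3, h4⟩ := h i _ g' h1
      refine ⟨g'', by rw [Finset.card_insert_of_notMem hi, add_mul, one_mul]; exact h1.trans h3,
        fun j hj => ?_⟩
      rcases Finset.mem_insert.1 hj with rfl | hj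
      · exact h4
      · exact hQ _ _ _ _ h3 (h2 j hj)
  obtain ⟨g', h1, h2⟩ := key univ
  exact ⟨g', h1, fun i => h2 i (Finset.mem_univ _)⟩

/-- An abstract machine: `A g γ u` says that the virtual array `u` is available in frame `γ`. -/
structure Mach (Γ M : Type) [AddCommGroup Γ] [AddCommGroup M] [Module ℂ M] where
  A : List LGate → Γ → M → Prop
  Rk : ℕ → Γ → Prop
  N : ℕ
  keep : ∀ {g s g' γ u}, Ext g s g' → A g γ u → A g' γ u
  move : ∀ {g s γ γ' u}, Rk s (γ' - γ) → A g γ u → ∃ g', Ext g s g' ∧ A g' γ' u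
  axpy : ∀ {g γ u v} (c : ℂ), A g γ u → A g γ v → ∃ g', Ext g N g' ∧ A g' γ (u + c • v)
  zero : ∀ g γ, A g γ 0
  rk_zero : Rk 0 0
  rk_add : ∀ {s t γ γ'}, Rk s γ → Rk t γ' → Rk (s + t) (γ + γ')
  rk_mono : ∀ {s t γ}, Rk s γ → s ≤ t → Rk t γ

namespace Mach

variable {Γ M : Type} [AddCommGroup Γ] [AddCommGroup M] [Module ℂ M] (m : Mach Γ M)

theorem rk_sum {ι : Type} (S : Finset ι) (f : ι → Γ) (ρ : ℕ) (h : ∀ i ∈ S, m.Rk ρ (f i)) :
    m.Rk (S.card * ρ) (∑ i ∈ S, f i) := by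
  classical
  induction S using Finset.induction_on with
  | empty => simpa using m.rk_zero
  | insert i S hi ih =>
    rw [Finset.sum_insert hi, Finset.card_insert_of_notMem hi, add_comm S.card, add_mul, one_mul]
    exact m.rk_add (h i (by simp)) (ih fun j hj => h j (by simp [hj]))

theorem moveAll {ι : Type} [Fintype ι] {g : List LGate} {s : ℕ} {γ : ι → Γ} (γ' : ι → Γ)
    {u : ι → M} (h : ∀ i, m.A g (γ i) (u i)) (hr : ∀ i, m.Rk s (γ' i - γ i)) :
    ∃ g', Ext g (Fintype.card ι * s) g' ∧ ∀ i, m.A g' (γ' i) (u i) :=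
  ext_all s (fun i g' => m.A g' (γ' i) (u i)) g (fun _ _ _ _ e h => m.keep e h)
    fun i _ _ e => m.move (hr i) (m.keep e (h i))

theorem lin {κ : Type} (S : Finset κ) {g : List LGate} {γ : Γ} {u : M} (c : κ → ℂ) (v : κ → M)
    (hu : m.A g γ u) (hv : ∀ k ∈ S, c k ≠ 0 → m.A g γ (v k)) :
    ∃ g', Ext g (S.card * m.N) g' ∧ m.A g' γ (u + ∑ k ∈ S, c k • v k) := by
  classical
  induction S using Finset.induction_on with
  | empty => exact ⟨g, by simpa using Ext.refl g, by simpa using hu⟩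
  | insert k S hk ih =>
    obtain ⟨g', h1, h2⟩ := ih fun j hj => hv j (by simp [hj])
    rw [Finset.sum_insert hk, Finset.card_insert_of_notMem hk, add_mul, one_mul]
    by_cases hc : c k = 0
    · exact ⟨g', h1.mono (by omega), by simpa [hc] using h2⟩
    · obtain ⟨g'', h3, h4⟩ := m.axpy (c k) h2 (m.keep h1 (hv k (by simp) hc))
      refine ⟨g'', h1.trans h3, ?_⟩
      convert h4 using 1
      abel

theorem linAll {ι κ : Type} [Fintype ι] [Fintype κ] {g : List LGate} {γ : ι → Γ} {u : ι → M}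
    (c : ι → κ → ℂ) (v : ι → κ → M) (hu : ∀ i, m.A g (γ i) (u i))
    (hv : ∀ i k, c i k ≠ 0 → m.A g (γ i) (v i k)) :
    ∃ g', Ext g (Fintype.card ι * (Fintype.card κ * m.N)) g' ∧
      ∀ i, m.A g' (γ i) (u i + ∑ k, c i k • v i k) :=
  ext_all _ (fun i g' => m.A g' (γ i) (u i + ∑ k, c i k • v i k)) g
    (fun _ _ _ _ e h => m.keep e h)
    fun i _ _ e => m.lin univ (c i) (v i) (m.keep e (hu i)) fun k _ hc => m.keep e (hv i k hc)

theorem axpyAll {ι : Type} [Fintype ι] {g : List LGate} {γ : ι → Γ} {u : ι → M}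
    (c : ι → ℂ) (v : ι → M) (hu : ∀ i, m.A g (γ i) (u i))
    (hv : ∀ i, c i ≠ 0 → m.A g (γ i) (v i)) :
    ∃ g', Ext g (Fintype.card ι * m.N) g' ∧ ∀ i, m.A g' (γ i) (u i + c i • v i) := by
  simpa using m.linAll (κ := Unit) (fun i _ => c i) (fun i _ => v i) hu fun i _ => hv i

/-- Data of a local network. -/
structure Loc (T C : Type) [Fintype T] [Fintype C] [DecidableEq T] where
  E : Γ
  l : T → Γ
  μ : T → T → Γ
  σ : ℕ
  a₀ : ℕ
  a₁ : ℕ
  a₂ : ℕ
  Nm : T → T → ℂ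
  α : C → T → ℂ
  β : T → C → ℂ
  hl : ∀ t, m.Rk σ (l t)
  hμ : ∀ s t, m.Rk σ (μ s t)
  h₀ : m.Rk a₀ E
  h₀' : m.Rk a₀ (-E)
  h₁ : ∀ t, m.Rk a₁ (E - l t)
  h₂ : ∀ s t, m.Rk a₂ (E - l t - μ s t)
  hN : ∀ s t, Nm s t ≠ 0 → μ s t = l s
  hI₁ : ∀ s t, Nm s t + ∑ i, β t i * α i s = if s = t then 1 else 0
  hI₂ : ∀ s t, Nm s t + ∑ i, β s i * α i t = if s = t then 1 else 0

variable {T C : Type} [Fintype T] [Fintype C] [DecidableEq T]

/-- The cost of a local network. -/
def Loc.cost (L : m.Loc T C) : ℕ :=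
  2 * Fintype.card T * L.a₁ + Fintype.card T ^ 2 * (2 * L.σ + L.a₂) + Fintype.card C * L.a₀ +
    (4 * Fintype.card T ^ 2 + 2 * Fintype.card T * Fintype.card C) * m.N

theorem loc1 (L : m.Loc T C) (B : Γ) (x y : T → M) (z : T × T → M) (g : List LGate)
    (hx : ∀ t, m.A g B (x t)) (hy : ∀ t, m.A g (B + L.l t) (y t)) (hz : ∀ p, m.A g B (z p)) :
    ∃ g', Ext g L.cost g' ∧ (∀ t, m.A g' (B + L.E - L.l t) (x t)) ∧
      (∀ t, m.A g' (B + L.E) (y t + x t)) ∧ ∀ p, m.A g' (B + L.E) (z p) := by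
  obtain ⟨g1, e1, z1⟩ := m.axpyAll (fun p : T × T => L.Nm p.1 p.2) (fun p => x p.1) hz
    fun p _ => hx p.1
  obtain ⟨g2, e2, w1⟩ := m.linAll (γ := fun _ => B) (fun (i : C) (s : T) => L.α i s)
    (fun _ s => x s) (fun _ => m.zero g1 B) fun _ s _ => m.keep e1 (hx s)
  obtain ⟨g3, e3, z2⟩ := m.moveAll (s := L.σ) (fun p : T × T => B + L.l p.2)
    (fun p => m.keep e2 (z1 p)) fun p => by simpa using L.hl p.2
  obtain ⟨g4, e4, y1⟩ := m.linAll (fun (_ : T) (_ : T) => (1 : ℂ))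
    (fun t s => z (s, t) + L.Nm s t • x s)
    (fun t => m.keep ((e1.trans e2).trans e3) (hy t)) fun t s _ => z2 (s, t)
  obtain ⟨g5, e5, y2⟩ := m.moveAll (s := L.a₁) (fun _ : T => B + L.E) y1
    fun t => by simpa using L.h₁ t
  obtain ⟨g6, e6, w2⟩ := m.moveAll (s := L.a₀) (fun _ : C => B + L.E)
    (fun i => m.keep ((e3.trans e4).trans e5) (w1 i)) fun _ => by simpa using L.h₀
  obtain ⟨g7, e7, y3⟩ := m.linAll (fun (t : T) (i : C) => L.β t i)
    (fun _ i => 0 + ∑ s, L.α i s • x s) (fun t => m.keep e6 (y2 t)) fun _ i _ => w2 i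
  obtain ⟨g8, e8, z3⟩ := m.moveAll (s := L.a₂) (fun p : T × T => B + L.E - L.μ p.1 p.2)
    (fun p => m.keep (((e4.trans e5).trans e6).trans e7) (z2 p))
    fun p => by convert L.h₂ p.1 p.2 using 1; abel
  obtain ⟨g9, e9, x1⟩ := m.moveAll (s := L.a₁) (fun t : T => B + L.E - L.l t)
    (fun t => m.keep (((((((e1.trans e2).trans e3).trans e4).trans e5).trans e6).trans e7).trans
      e8) (hx t))
    fun t => by convert L.h₁ t using 1; abel
  obtain ⟨g10, e10, z4⟩ := m.axpyAll (fun p : T × T => -L.Nm p.1 p.2) (fun p => x p.1)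
    (fun p => m.keep e9 (z3 p)) fun p hp => by
      rw [L.hN p.1 p.2 (by simpa using hp)]; exact x1 p.1
  obtain ⟨g11, e11, z5⟩ := m.moveAll (s := L.σ) (fun _ : T × T => B + L.E) z4
    fun p => by simpa using L.hμ p.1 p.2
  have z6 : ∀ p, m.A g11 (B + L.E) (z p) := fun p => by simpa using z5 p
  obtain ⟨g12, e12, y4⟩ := m.linAll (fun (_ : T) (_ : T) => (-1 : ℂ)) (fun t s => z (s, t))
    (fun t => m.keep (((e8.trans e9).trans e10).trans e11) (y3 t)) fun t s _ => z6 (s, t)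
  refine ⟨g12, (((((((((((e1.trans e2).trans e3).trans e4).trans e5).trans e6).trans e7).trans
    e8).trans e9).trans e10).trans e11).trans e12).mono (le_of_eq ?_),
    fun t => m.keep ((e10.trans e11).trans e12) (x1 t), fun t => ?_, fun p => m.keep e12 (z6 p)⟩
  · simp only [Loc.cost, Fintype.card_prod]; ring
  · convert y4 t using 1
    have : x t = ∑ s, (L.Nm s t + ∑ i, L.β t i * L.α i s) • x s := by
      simp [L.hI₁]
    rw [this]
    simp only [one_smul, zero_add, neg_smul, Finset.sum_add_distrib, Finset.sum_neg_distrib,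
      add_smul, Finset.sum_smul, Finset.smul_sum, smul_smul]
    rw [Finset.sum_comm (f := fun s i => (L.β t i * L.α i s) • x s)]
    abel

theorem loc2 (L : m.Loc T C) (B : Γ) (x y : T → M) (z : T × T → M) (g : List LGate)
    (hx : ∀ t, m.A g B (x t)) (hy : ∀ t, m.A g (B + L.l t) (y t)) (hz : ∀ p, m.A g B (z p)) :
    ∃ g', Ext g L.cost g' ∧ (∀ t, m.A g' (B + L.E - L.l t) (x t - y t)) ∧
      (∀ t, m.A g' (B + L.E) (y t)) ∧ ∀ p, m.A g' (B + L.E) (z p) := by
  obtain ⟨g1, e1, x1⟩ := m.linAll (fun (s : T) (t : T) => L.Nm s t) (fun s t => z (s, t)) hx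
    fun s t _ => hz (s, t)
  obtain ⟨g2, e2, z1⟩ := m.moveAll (s := L.σ) (fun p : T × T => B + L.l p.2)
    (fun p => m.keep e1 (hz p)) fun p => by simpa using L.hl p.2
  obtain ⟨g3, e3, z2⟩ := m.axpyAll (fun _ : T × T => (1 : ℂ)) (fun p => y p.2) z1
    fun p _ => m.keep (e1.trans e2) (hy p.2)
  obtain ⟨g4, e4, y1⟩ := m.moveAll (s := L.a₁) (fun _ : T => B + L.E)
    (fun t => m.keep ((e1.trans e2).trans e3) (hy t)) fun t => by simpa using L.h₁ t
  obtain ⟨g5, e5, w1⟩ := m.linAll (γ := fun _ => B + L.E) (fun (i : C) (t : T) => L.α i t)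
    (fun _ t => y t) (fun _ => m.zero g4 _) fun _ t _ => y1 t
  obtain ⟨g6, e6, w2⟩ := m.moveAll (s := L.a₀) (fun _ : C => B) w1
    fun _ => by simpa using L.h₀'
  obtain ⟨g7, e7, x2⟩ := m.linAll (fun (s : T) (i : C) => -L.β s i)
    (fun _ i => 0 + ∑ t, L.α i t • y t)
    (fun s => m.keep ((((e2.trans e3).trans e4).trans e5).trans e6) (x1 s)) fun _ i _ => w2 i
  obtain ⟨g8, e8, x3⟩ := m.moveAll (s := L.a₁) (fun t : T => B + L.E - L.l t) x2
    fun t => by convert L.h₁ t using 1; abel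
  obtain ⟨g9, e9, z3⟩ := m.moveAll (s := L.a₂) (fun p : T × T => B + L.E - L.μ p.1 p.2)
    (fun p => m.keep ((((e4.trans e5).trans e6).trans e7).trans e8) (z2 p))
    fun p => by convert L.h₂ p.1 p.2 using 1; abel
  obtain ⟨g10, e10, x4⟩ := m.linAll (fun (s : T) (t : T) => -L.Nm s t)
    (fun s t => z (s, t) + (1 : ℂ) • y t) (fun s => m.keep e9 (x3 s)) fun s t hp => by
      rw [← L.hN s t (by simpa using hp)]; exact z3 (s, t)
  obtain ⟨g11, e11, z4⟩ := m.moveAll (s := L.σ) (fun _ : T × T => B + L.E)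
    (fun p => m.keep e10 (z3 p)) fun p => by simpa using L.hμ p.1 p.2
  obtain ⟨g12, e12, z5⟩ := m.axpyAll (fun _ : T × T => (-1 : ℂ)) (fun p => y p.2) z4
    fun p _ => m.keep ((((((e5.trans e6).trans e7).trans e8).trans e9).trans e10).trans e11)
      (y1 p.2)
  refine ⟨g12, (((((((((((e1.trans e2).trans e3).trans e4).trans e5).trans e6).trans e7).trans
    e8).trans e9).trans e10).trans e11).trans e12).mono (le_of_eq ?_),
    fun s => ?_, fun t => m.keep (((((((e5.trans e6).trans e7).trans e8).trans e9).trans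
      e10).trans e11).trans e12) (y1 t), fun p => by simpa using z5 p⟩
  · simp only [Loc.cost, Fintype.card_prod]; ring
  · convert m.keep (e11.trans e12) (x4 s) using 1
    have : y s = ∑ t, (L.Nm s t + ∑ i, L.β s i * L.α i t) • y t := by
      simp [L.hI₂]
    rw [this]
    simp only [one_smul, zero_add, neg_smul, Finset.sum_add_distrib, Finset.sum_neg_distrib,
      add_smul, Finset.sum_smul, Finset.smul_sum, smul_smul, smul_add, neg_mul]
    rw [Finset.sum_comm (f := fun t i => (L.β s i * L.α i t) • y t)]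
    abel

end Mach

end Crest.Agent.H8DF
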