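import Crest.Agent.H8.DftB

set_option autoImplicit false

namespace Crest.Agent.H8DF

open Crest.FourierCircuit Finset

section geometry

variable {Γ : Type} [AddCommGroup Γ] {η : Type} [DecidableEq η]

/-- Invariance under the change of basis attached to a four-element block. -/
def Inv4 (Θ : Finset η → Γ) : Prop :=
  ∀ Q : Finset η, Q.card = 4 → ∑ x ∈ Q, Θ {x} = ∑ x ∈ Q, Θ (Q.erase x)

theorem Inv4.sub {Θ Θ' : Finset η → Γ} (h : Inv4 Θ) (h' : Inv4 Θ') :
    Inv4 (fun w => Θ w - Θ' w) := fun Q hQ => by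
  simp only [Finset.sum_sub_distrib, h Q hQ, h' Q hQ]

theorem Inv4.sum {ι : Type} (S : Finset ι) {Θ : ι → Finset η → Γ} (h : ∀ i, Inv4 (Θ i)) :
    Inv4 (fun w => ∑ i ∈ S, Θ i w) := fun Q hQ => by
  rw [Finset.sum_comm, Finset.sum_comm (s := Q)]
  exact Finset.sum_congr rfl fun i _ => h i Q hQ

variable [Fintype η]

theorem Inv4.change {Θ : Finset η → Γ} (h : Inv4 Θ) {Q : Finset η} (hQ : Q.card = 4) (f : η → Γ)
    (hf : ∀ x ∈ Q, f x = Θ {x}) :
    ∑ x, f x = ∑ x, if x ∈ Q then Θ (Q.erase x) else f x := by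
  rw [← Finset.sum_add_sum_compl Q, ← Finset.sum_add_sum_compl Q]
  congr 1
  · rw [Finset.sum_congr rfl hf, h Q hQ]
    exact Finset.sum_congr rfl fun x hx => by simp [hx]
  · exact Finset.sum_congr rfl fun x hx => by simp [Finset.mem_compl.1 hx]

theorem exists_notMem_of_card {S : Finset η} (h : S.card < Fintype.card η) : ∃ a, a ∉ S := by
  by_contra hh
  push Not at hh
  rw [Finset.eq_univ_of_forall hh, Finset.card_univ] at h
  exact lt_irrefl _ h

variable {M : Type} [AddCommGroup M] [Module ℂ M] (m : Mach Γ M)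

theorem Mach.rk_basis (f : η → Γ) {ρ : ℕ} (hf : ∀ x, m.Rk ρ (f x)) (D : Finset η) :
    m.Rk ((Fintype.card η - D.card) * ρ) (∑ x, f x - ∑ x ∈ D, f x) := by
  rw [← Finset.sum_add_sum_compl D, add_sub_cancel_left, ← Finset.card_compl]
  exact m.rk_sum _ _ _ fun x _ => hf x

theorem Mach.rk_one (hc : Fintype.card η = 12) {Θ : Finset η → Γ} (h : Inv4 Θ) {ρ : ℕ}
    (hr : ∀ w, m.Rk ρ (Θ w)) {S : Finset η} (hS : S.card = 3) :
    m.Rk (11 * ρ) (∑ x, Θ {x} - Θ S) := by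
  obtain ⟨a, ha⟩ := exists_notMem_of_card (S := S) (by omega)
  have hQ : (insert a S).card = 4 := by rw [Finset.card_insert_of_notMem ha, hS]
  rw [h.change hQ _ fun _ _ => rfl]
  have := m.rk_basis (fun x => if x ∈ insert a S then Θ ((insert a S).erase x) else Θ {x})
    (fun x => by split_ifs <;> exact hr _) {a}
  simpa [hc, Finset.erase_insert ha] using this

theorem Mach.rk_two (hc : Fintype.card η = 12) {Θ : Finset η → Γ} (h : Inv4 Θ) {ρ : ℕ}
    (hr : ∀ w, m.Rk ρ (Θ w)) {S T : Finset η} (hS : S.card = 3) (hT : T.card = 3)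
    (hST : (S ∩ T).card = 0 ∨ (S ∩ T).card = 2) :
    m.Rk (10 * ρ) (∑ x, Θ {x} - Θ T - Θ S) := by
  have hU := Finset.card_union_add_card_inter S T
  rcases hST with h0 | h2
  · obtain ⟨a, ha⟩ := exists_notMem_of_card (S := S ∪ T) (by omega)
    obtain ⟨b, hb⟩ := exists_notMem_of_card (S := insert a (S ∪ T))
      (by rw [Finset.card_insert_of_notMem ha]; omega)
    simp only [Finset.mem_insert, Finset.mem_union, not_or] at ha hb
    have hd : ∀ x, x ∈ S → x ∉ T := fun x hx hx' => by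
      have : x ∈ S ∩ T := Finset.mem_inter.2 ⟨hx, hx'⟩
      rw [Finset.card_eq_zero.1 h0] at this
      simp at this
    have hQ : (insert a S).card = 4 := by rw [Finset.card_insert_of_notMem ha.1, hS]
    have hQ' : (insert b T).card = 4 := by rw [Finset.card_insert_of_notMem hb.2.2, hT]
    rw [h.change hQ _ fun _ _ => rfl, h.change hQ' _ fun x hx => if_neg ?_]
    · have := m.rk_basis (fun x => if x ∈ insert b T then Θ ((insert b T).erase x) else
        if x ∈ insert a S then Θ ((insert a S).erase x) else Θ {x})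
        (fun x => by split_ifs <;> exact hr _) {b, a}
      rw [Finset.sum_pair hb.1, Finset.card_pair hb.1] at this
      have hab : a ≠ b := fun e => hb.1 e.symm
      simpa [hc, Finset.erase_insert ha.1, Finset.erase_insert hb.2.2, hab, ha.2, sub_sub]
        using this
    · simp only [Finset.mem_insert, not_or] at hx ⊢
      rcases hx with rfl | hx
      · exact ⟨hb.1, hb.2.1⟩
      · exact ⟨fun e => ha.2 (e ▸ hx), fun hx' => hd x hx' hx⟩
  · have hQ : (S ∪ T).card = 4 := by omega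
    obtain ⟨a, ha, ha'⟩ := Finset.exists_eq_insert_iff.2
      ⟨(Finset.subset_union_left : S ⊆ S ∪ T), by omega⟩
    obtain ⟨b, hb, hb'⟩ := Finset.exists_eq_insert_iff.2
      ⟨(Finset.subset_union_right : T ⊆ S ∪ T), by omega⟩
    have hea : (S ∪ T).erase a = S := by rw [← ha', Finset.erase_insert ha]
    have heb : (S ∪ T).erase b = T := by rw [← hb', Finset.erase_insert hb]
    have hab : b ≠ a := fun e => by
      subst e
      have : S = T := hea.symm.trans heb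
      subst this
      rw [Finset.inter_self] at h2
      omega
    have ham : a ∈ S ∪ T := by rw [← ha']; simp
    have hbm : b ∈ S ∪ T := by rw [← hb']; simp
    rw [h.change hQ _ fun _ _ => rfl]
    have := m.rk_basis (fun x => if x ∈ S ∪ T then Θ ((S ∪ T).erase x) else Θ {x})
      (fun x => by split_ifs <;> exact hr _) {b, a}
    rw [Finset.sum_pair hab, Finset.card_pair hab, if_pos ham, if_pos hbm, hea, heb, hc] at this
    simpa only [sub_sub] using this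

end geometry

/-- Three-element subsets. -/
abbrev Tr (η : Type) := {S : Finset η // S.card = 3}

section loc

variable {η : Type} [DecidableEq η] [Fintype η]

noncomputable def nm (s t : Tr η) : ℂ :=
  if (s.1 ∩ t.1).card = 0 then 1 / 2 else if (s.1 ∩ t.1).card = 2 then -1 / 2 else 0

noncomputable def al (i : η) (s : Tr η) : ℂ := if i ∈ s.1 then 1 else 0

noncomputable def be (t : Tr η) (i : η) : ℂ := ((if i ∈ t.1 then 1 else 0) - 1 / 3) / 2

theorem sum_be_al (s t : Tr η) : ∑ i, be t i * al i s = (((s.1 ∩ t.1).card : ℂ) - 1) / 2 := by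
  have h1 : ∀ i, be t i * al i s =
      (if i ∈ s.1 ∩ t.1 then 1 else 0) / 2 - (if i ∈ s.1 then 1 else 0) / 6 := fun i => by
    by_cases h : i ∈ s.1 <;> by_cases h' : i ∈ t.1 <;> simp [be, al, h, h'] <;> norm_num
  simp only [h1, Finset.sum_sub_distrib, ← Finset.sum_div, Finset.sum_boole, Finset.filter_mem_eq_inter,
    Finset.univ_inter, s.2]
  push_cast
  ring

omit [Fintype η] in
theorem nm_id (s t : Tr η) :
    nm s t + (((s.1 ∩ t.1).card : ℂ) - 1) / 2 = if s = t then 1 else 0 := by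
  have h1 : (s.1 ∩ t.1).card ≤ 3 :=
    (Finset.card_le_card Finset.inter_subset_left).trans s.2.le
  by_cases h : s = t
  · subst h
    simp [nm, s.2]; norm_num
  · have h3 : (s.1 ∩ t.1).card ≠ 3 := fun h3 => by
      have e1 : s.1 ∩ t.1 = s.1 :=
        Finset.eq_of_subset_of_card_le Finset.inter_subset_left (by rw [h3, s.2])
      have e2 : s.1 ∩ t.1 = t.1 :=
        Finset.eq_of_subset_of_card_le Finset.inter_subset_right (by rw [h3, t.2])
      exact h (Subtype.ext (e1.symm.trans e2))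
    rw [if_neg h, nm]
    generalize (s.1 ∩ t.1).card = k at *
    interval_cases k <;> norm_num at *

theorem exists_disj (hc : Fintype.card η = 12) (t : Tr η) : ∃ s : Tr η, (s.1 ∩ t.1).card = 0 := by
  obtain ⟨S, h1, h2⟩ := Finset.exists_subset_card_eq (s := t.1ᶜ) (n := 3)
    (by rw [Finset.card_compl, hc, t.2]; norm_num)
  refine ⟨⟨S, h2⟩, Finset.card_eq_zero.2 (Finset.eq_empty_of_forall_notMem fun x hx => ?_)⟩
  rw [Finset.mem_inter] at hx
  exact Finset.mem_compl.1 (h1 hx.1) hx.2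

omit [DecidableEq η] in
theorem card_Tr (hc : Fintype.card η = 12) : Fintype.card (Tr η) = 220 := by
  rw [Fintype.card_finset_len, hc]; decide

variable {Γ M : Type} [AddCommGroup Γ] [AddCommGroup M] [Module ℂ M] (m : Mach Γ M)

theorem Mach.exists_loc (hc : Fintype.card η = 12) {Θ : Finset η → Γ} (h : Inv4 Θ) {σ : ℕ}
    (hr : ∀ w, m.Rk σ (Θ w)) (hr' : ∀ w, m.Rk σ (-Θ w)) :
    ∃ L : m.Loc (Tr η) η, L.E = ∑ x, Θ {x} ∧ (∀ t, L.l t = Θ t.1) ∧
      L.cost = (440 * 11 + 220 ^ 2 * 12 + 144) * σ + (4 * 220 ^ 2 + 440 * 12) * m.N := by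
  classical
  choose d hd using exists_disj hc
  refine ⟨⟨∑ x, Θ {x}, fun t => Θ t.1, fun s t => Θ (if nm s t = 0 then d t else s).1, σ, 12 * σ,
    11 * σ, 10 * σ, nm, al, be, fun _ => hr _, fun _ _ => hr _, ?_, ?_,
    fun t => m.rk_one hc h hr t.2, fun s t => m.rk_two hc h hr (if nm s t = 0 then d t else s).2 t.2 ?_,
    fun s t hn => by rw [if_neg hn], fun s t => by rw [sum_be_al, nm_id],
    fun s t => by rw [sum_be_al, Finset.inter_comm, nm_id]⟩, rfl, fun _ => rfl, ?_⟩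
  · simpa [hc] using m.rk_sum univ (fun x => Θ {x}) σ fun _ _ => hr _
  · simpa [hc] using m.rk_sum univ (fun x => -Θ {x}) σ fun _ _ => hr' _
  · split_ifs with hn
    · exact Or.inl (hd t)
    · by_contra hh
      push Not at hh
      exact hn (by rw [nm, if_neg hh.1, if_neg hh.2])
  · simp only [Mach.Loc.cost, card_Tr hc, hc]; ring

theorem Mach.stage1 (hc : Fintype.card η = 12) {ι : Type} [Fintype ι] (Θ : ι → Finset η → Γ)
    (h : ∀ i, Inv4 (Θ i)) {σ : ℕ} (hr : ∀ i w, m.Rk σ (Θ i w)) (hr' : ∀ i w, m.Rk σ (-Θ i w))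
    (B : ι → Γ) (x y : ι → Tr η → M) (z : ι → Tr η × Tr η → M) {g : List LGate}
    (hx : ∀ i t, m.A g (B i) (x i t)) (hy : ∀ i t, m.A g (B i + Θ i t.1) (y i t))
    (hz : ∀ i p, m.A g (B i) (z i p)) :
    ∃ g', Ext g (Fintype.card ι *
        ((440 * 11 + 220 ^ 2 * 12 + 144) * σ + (4 * 220 ^ 2 + 440 * 12) * m.N)) g' ∧
      ∀ i, (∀ t, m.A g' (B i + ∑ a, Θ i {a} - Θ i t.1) (x i t)) ∧
        (∀ t, m.A g' (B i + ∑ a, Θ i {a}) (y i t + x i t)) ∧
        ∀ p, m.A g' (B i + ∑ a, Θ i {a}) (z i p) := by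
  refine ext_all _ _ g (fun i _ _ _ e hq => ⟨fun t => m.keep e (hq.1 t),
    fun t => m.keep e (hq.2.1 t), fun p => m.keep e (hq.2.2 p)⟩) fun i _ g' e => ?_
  obtain ⟨L, h1, h2, h3⟩ := m.exists_loc hc (h i) (hr i) (hr' i)
  have := m.loc1 L (B i) (x i) (y i) (z i) g' (fun t => m.keep e (hx i t))
    (fun t => by rw [h2]; exact m.keep e (hy i t)) fun p => m.keep e (hz i p)
  simpa only [h1, h2, h3] using this

theorem Mach.stage2 (hc : Fintype.card η = 12) {ι : Type} [Fintype ι] (Θ : ι → Finset η → Γ)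
    (h : ∀ i, Inv4 (Θ i)) {σ : ℕ} (hr : ∀ i w, m.Rk σ (Θ i w)) (hr' : ∀ i w, m.Rk σ (-Θ i w))
    (B : ι → Γ) (x y : ι → Tr η → M) (z : ι → Tr η × Tr η → M) {g : List LGate}
    (hx : ∀ i t, m.A g (B i) (x i t)) (hy : ∀ i t, m.A g (B i + Θ i t.1) (y i t))
    (hz : ∀ i p, m.A g (B i) (z i p)) :
    ∃ g', Ext g (Fintype.card ι *
        ((440 * 11 + 220 ^ 2 * 12 + 144) * σ + (4 * 220 ^ 2 + 440 * 12) * m.N)) g' ∧
      ∀ i, (∀ t, m.A g' (B i + ∑ a, Θ i {a} - Θ i t.1) (x i t - y i t)) ∧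
        (∀ t, m.A g' (B i + ∑ a, Θ i {a}) (y i t)) ∧
        ∀ p, m.A g' (B i + ∑ a, Θ i {a}) (z i p) := by
  refine ext_all _ _ g (fun i _ _ _ e hq => ⟨fun t => m.keep e (hq.1 t),
    fun t => m.keep e (hq.2.1 t), fun p => m.keep e (hq.2.2 p)⟩) fun i _ g' e => ?_
  obtain ⟨L, h1, h2, h3⟩ := m.exists_loc hc (h i) (hr i) (hr' i)
  have := m.loc2 L (B i) (x i) (y i) (z i) g' (fun t => m.keep e (hx i t))
    (fun t => by rw [h2]; exact m.keep e (hy i t)) fun p => m.keep e (hz i p)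
  simpa only [h1, h2, h3] using this

theorem Mach.rk_sq (hc : Fintype.card η = 12) (Φ : Finset η → Finset η → Γ)
    (h1 : ∀ B, Inv4 (fun A => Φ A B)) (h2 : ∀ A, Inv4 (Φ A)) {σ : ℕ}
    (hr : ∀ A B, m.Rk σ (Φ A B)) (s t : Tr η) :
    m.Rk (143 * σ) (∑ x, ∑ y, Φ {x} {y} - Φ s.1 t.1) := by
  have a := m.rk_sum univ (fun x => ∑ y, Φ {x} {y} - Φ {x} t.1) (11 * σ)
    fun x _ => m.rk_one hc (h2 {x}) (hr _) t.2
  have b := m.rk_one hc (h1 t.1) (fun w => hr w _) s.2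
  have := m.rk_add a b
  rw [Finset.card_univ, hc, Finset.sum_sub_distrib] at this
  convert this using 1
  · ring
  · abel

/-- The three-stage network. -/
theorem Mach.net (hc : Fintype.card η = 12) (cc : Finset η → Finset η → Finset η → Γ)
    (h1 : ∀ B C, Inv4 (fun A => cc A B C)) (h2 : ∀ A C, Inv4 (fun B => cc A B C))
    (h3 : ∀ A B, Inv4 (cc A B)) {σ : ℕ} (hr : ∀ A B C, m.Rk σ (cc A B C))
    (hr' : ∀ A B C, m.Rk σ (-cc A B C))
    (x y : Tr η × Tr η × Tr η → M) (z₁ z₂ z₃ : (Tr η × Tr η) × (Tr η × Tr η) → M)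
    {g : List LGate} (hx : ∀ i, m.A g 0 (x i))
    (hy : ∀ i, m.A g (cc i.1.1 i.2.1.1 i.2.2.1) (y i))
    (hz₁ : ∀ p, m.A g 0 (z₁ p)) (hz₂ : ∀ p, m.A g 0 (z₂ p)) (hz₃ : ∀ p, m.A g 0 (z₃ p)) :
    ∃ g', Ext g ((2 * 220 ^ 3 * 1727 + 3 * 220 ^ 4 * 1728 + 3 * 220 ^ 2 * 144) * σ +
        (3 * 220 ^ 2 * (4 * 220 ^ 2 + 440 * 12) + 220 ^ 3) * m.N) g' ∧
      (∀ i, m.A g' (∑ a, ∑ b, ∑ c, cc {a} {b} {c}) (x i)) ∧
      (∀ i, m.A g' (∑ a, ∑ b, ∑ c, cc {a} {b} {c} - cc i.1.1 i.2.1.1 i.2.2.1) (y i)) ∧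
      (∀ p, m.A g' (∑ a, ∑ b, ∑ c, cc {a} {b} {c}) (z₁ p)) ∧
      (∀ p, m.A g' (∑ a, ∑ b, ∑ c, cc {a} {b} {c}) (z₂ p)) ∧
      (∀ p, m.A g' (∑ a, ∑ b, ∑ c, cc {a} {b} {c}) (z₃ p)) := by
  set F := ∑ a, ∑ b, ∑ c, cc {a} {b} {c} with hF
  have hF' : F = ∑ c, ∑ a, ∑ b, cc {a} {b} {c} := by
    rw [hF, Finset.sum_comm (f := fun c a => ∑ b, cc {a} {b} {c})]
    exact Finset.sum_congr rfl fun a _ => Finset.sum_comm
  -- rank facts
  have r1 : ∀ s t : Tr η, m.Rk (12 * (143 * σ)) (F - ∑ a, cc {a} s.1 t.1) := fun s t => by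
    have := m.rk_sum univ (fun a => ∑ b, ∑ c, cc {a} {b} {c} - cc {a} s.1 t.1) _
      fun a _ => m.rk_sq hc (cc {a}) (h2 _) (h3 _) (hr _) s t
    rwa [Finset.card_univ, hc, Finset.sum_sub_distrib] at this
  have r3 : ∀ s t : Tr η, m.Rk (12 * (143 * σ)) (F - ∑ c, cc s.1 t.1 {c}) := fun s t => by
    have := m.rk_sum univ (fun c => ∑ a, ∑ b, cc {a} {b} {c} - cc s.1 t.1 {c}) _
      fun c _ => m.rk_sq hc (fun A B => cc A B {c}) (fun B => h1 B _) (fun A => h2 A _)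
        (fun _ _ => hr _ _ _) s t
    rwa [Finset.card_univ, hc, Finset.sum_sub_distrib, ← hF'] at this
  have r2 : ∀ s t : Tr η, m.Rk (12 * (11 * σ))
      (∑ a, ∑ b, cc {a} {b} t.1 - ∑ b, cc s.1 {b} t.1) := fun s t => by
    have := m.rk_sum univ (fun b => ∑ a, cc {a} {b} t.1 - cc s.1 {b} t.1) _
      fun b _ => m.rk_one hc (h1 {b} t.1) (fun _ => hr _ _ _) s.2
    rwa [Finset.card_univ, hc, Finset.sum_sub_distrib, Finset.sum_comm] at this
  have r2' : ∀ t : Tr η, m.Rk (12 * (12 * (11 * σ))) (F - ∑ a, ∑ b, cc {a} {b} t.1) := fun t => by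
    have := m.rk_sum univ (fun a => ∑ b, (∑ c, cc {a} {b} {c} - cc {a} {b} t.1)) (12 * (11 * σ))
      fun a _ => by
        have := m.rk_sum univ (fun b => ∑ c, cc {a} {b} {c} - cc {a} {b} t.1) _
          fun b _ => m.rk_one hc (h3 {a} {b}) (fun _ => hr _ _ _) t.2
        rwa [Finset.card_univ, hc] at this
    simpa only [Finset.card_univ, hc, Finset.sum_sub_distrib] using this
  have r12 : ∀ r s t : Tr η, m.Rk (11 * (11 * σ))
      (∑ a, ∑ b, cc {a} {b} t.1 - ∑ a, cc {a} s.1 t.1 -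
        (∑ b, cc r.1 {b} t.1 - cc r.1 s.1 t.1)) := fun r s t => by
    have := m.rk_one hc ((Inv4.sum univ fun b => h1 {b} t.1).sub (h1 s.1 t.1))
      (fun w => m.rk_one hc (h2 w t.1) (fun _ => hr _ _ _) s.2) r.2
    rwa [Finset.sum_sub_distrib] at this
  have r23 : ∀ r s t : Tr η, m.Rk (11 * (143 * σ))
      (F - ∑ c, cc r.1 s.1 {c} - (∑ a, ∑ b, cc {a} {b} t.1 - cc r.1 s.1 t.1)) := fun r s t => by
    have := m.rk_one hc ((Inv4.sum univ fun a => Inv4.sum univ fun b => h3 {a} {b}).sub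
      (h3 r.1 s.1)) (fun w => m.rk_sq hc (fun A B => cc A B w) (fun B => h1 B _) (fun A => h2 A _)
        (fun _ _ => hr _ _ _) r s) t.2
    rwa [Finset.sum_sub_distrib, ← hF'] at this
  -- stage 1
  obtain ⟨g1, e1, s1⟩ := m.stage1 hc (fun (i : Tr η × Tr η) w => cc w i.1.1 i.2.1)
    (fun i => h1 _ _) (fun _ _ => hr _ _ _) (fun _ _ => hr' _ _ _) (fun _ => 0)
    (fun i t => x (t, i)) (fun i t => y (t, i)) (fun i p => z₁ (i, p)) (fun i t => hx _)
    (fun i t => by simpa using hy (t, i)) fun i p => hz₁ _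
  obtain ⟨g2, e2, z1⟩ := m.moveAll (u := z₁) (fun _ => F) (fun p => (s1 p.1).2.2 p.2)
    fun p => by simpa using r1 p.1.1 p.1.2
  obtain ⟨g3, e3, x1⟩ := m.moveAll (u := x)
    (fun i => ∑ a, ∑ b, cc {a} {b} i.2.2.1 - ∑ b, cc i.1.1 {b} i.2.2.1)
    (fun i => m.keep e2 ((s1 i.2).1 i.1))
    fun i => by convert r12 i.1 i.2.1 i.2.2 using 1; abel
  obtain ⟨g4, e4, y1⟩ := m.moveAll (u := fun i => y i + x i)
    (fun i => ∑ a, ∑ b, cc {a} {b} i.2.2.1 - ∑ b, cc i.1.1 {b} i.2.2.1 + cc i.1.1 i.2.1.1 i.2.2.1)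
    (fun i => m.keep (e2.trans e3) ((s1 i.2).2.1 i.1))
    fun i => by convert r12 i.1 i.2.1 i.2.2 using 1; abel
  obtain ⟨g5, e5, z2⟩ := m.moveAll (u := z₂)
    (fun p => ∑ a, ∑ b, cc {a} {b} p.1.2.1 - ∑ b, cc p.1.1.1 {b} p.1.2.1)
    (fun p => m.keep (((e1.trans e2).trans e3).trans e4) (hz₂ p))
    fun p => by simpa using r2 p.1.1 p.1.2
  -- stage 2
  obtain ⟨g6, e6, s2⟩ := m.stage2 hc (fun (i : Tr η × Tr η) w => cc i.1.1 w i.2.1)
    (fun i => h2 _ _) (fun _ _ => hr _ _ _) (fun _ _ => hr' _ _ _)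
    (fun i => ∑ a, ∑ b, cc {a} {b} i.2.1 - ∑ b, cc i.1.1 {b} i.2.1)
    (fun i t => x (i.1, t, i.2)) (fun i t => y (i.1, t, i.2) + x (i.1, t, i.2))
    (fun i p => z₂ (i, p)) (fun i t => m.keep (e4.trans e5) (x1 (i.1, t, i.2)))
    (fun i t => m.keep e5 (y1 (i.1, t, i.2))) fun i p => z2 (i, p)
  obtain ⟨g7, e7, z2'⟩ := m.moveAll (u := z₂) (fun _ => F) (fun p => (s2 p.1).2.2 p.2)
    fun p => by simpa using r2' p.1.2
  obtain ⟨g8, e8, x2⟩ := m.moveAll (u := fun i => x i - (y i + x i))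
    (fun i => F - ∑ c, cc i.1.1 i.2.1.1 {c})
    (fun i => m.keep e7 ((s2 (i.1, i.2.2)).1 i.2.1))
    fun i => by convert r23 i.1 i.2.1 i.2.2 using 1; abel
  obtain ⟨g9, e9, y2⟩ := m.moveAll (u := fun i => y i + x i)
    (fun i => F - ∑ c, cc i.1.1 i.2.1.1 {c} + cc i.1.1 i.2.1.1 i.2.2.1)
    (fun i => m.keep (e7.trans e8) ((s2 (i.1, i.2.2)).2.1 i.2.1))
    fun i => by convert r23 i.1 i.2.1 i.2.2 using 1; abel
  obtain ⟨g10, e10, z3⟩ := m.moveAll (u := z₃) (fun p => F - ∑ c, cc p.1.1.1 p.1.2.1 {c})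
    (fun p => m.keep ((((((((e1.trans e2).trans e3).trans e4).trans e5).trans e6).trans e7).trans
      e8).trans e9) (hz₃ p))
    fun p => by simpa using r3 p.1.1 p.1.2
  -- stage 3
  obtain ⟨g11, e11, s3⟩ := m.stage1 hc (fun (i : Tr η × Tr η) w => cc i.1.1 i.2.1 w)
    (fun i => h3 _ _) (fun _ _ => hr _ _ _) (fun _ _ => hr' _ _ _)
    (fun i => F - ∑ c, cc i.1.1 i.2.1 {c})
    (fun i t => x (i.1, i.2, t) - (y (i.1, i.2, t) + x (i.1, i.2, t)))
    (fun i t => y (i.1, i.2, t) + x (i.1, i.2, t))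
    (fun i p => z₃ (i, p)) (fun i t => m.keep (e9.trans e10) (x2 (i.1, i.2, t)))
    (fun i t => m.keep e10 (y2 (i.1, i.2, t))) fun i p => z3 (i, p)
  obtain ⟨g12, e12, y3⟩ := m.axpyAll
    (γ := fun i : Tr η × Tr η × Tr η => F - cc i.1.1 i.2.1.1 i.2.2.1) (fun _ => (-1 : ℂ))
    (fun i => x i - (y i + x i)) (fun _ => m.zero g11 _)
    fun i _ => by simpa using (s3 (i.1, i.2.1)).1 i.2.2
  refine ⟨g12, (((((((((((e1.trans e2).trans e3).trans e4).trans e5).trans e6).trans e7).trans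
    e8).trans e9).trans e10).trans e11).trans e12).mono (le_of_eq ?_),
    fun i => by simpa using m.keep e12 ((s3 (i.1, i.2.1)).2.1 i.2.2),
    fun i => by simpa using y3 i,
    fun p => m.keep (((((((((e3.trans e4).trans e5).trans e6).trans e7).trans
      e8).trans e9).trans e10).trans e11).trans e12) (z1 p),
    fun p => m.keep ((((e8.trans e9).trans e10).trans e11).trans e12) (z2' p),
    fun p => by simpa using m.keep e12 ((s3 p.1).2.2 p.2)⟩
  simp only [Fintype.card_prod, card_Tr hc]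
  ring

end loc

end Crest.Agent.H8DF
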