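import Crest.Agent.H8.DftC

set_option autoImplicit false

namespace Crest.Agent.H8DF

open Crest.FourierCircuit Finset

noncomputable def ca : ℂ := (1 + Complex.I) / 2
noncomputable def cb : ℂ := (1 - Complex.I) / 2
noncomputable def cf (e : ZMod 2) : ℂ := if e = 0 then ca else cb

/-- Tensor power of the square root of the swap. -/
noncomputable def Cm (κ : Type) [Fintype κ] : Matrix (κ → ZMod 2) (κ → ZMod 2) ℂ :=
  fun s t => ∏ j, cf (s j + t j)

theorem ca_add_cb : ca + cb = 1 := by rw [ca, cb]; ring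

theorem cb_eq : cb = -Complex.I * ca := by
  rw [ca, cb]; linear_combination (1 / 2 : ℂ) * Complex.I_mul_I

theorem ca_sq : ca * ca * (-2 * Complex.I) = 1 := by
  rw [ca]; linear_combination (-1 - Complex.I / 2) * Complex.I_mul_I

abbrev RA (κ : Type) := AddMonoidAlgebra ℂ (κ → ZMod 2)

section alg

variable {κ : Type}

noncomputable def tau (u : κ → ZMod 2) : RA κ := AddMonoidAlgebra.single u 1

noncomputable def cr (u : κ → ZMod 2) : RA κ :=
  AddMonoidAlgebra.single 0 ca + AddMonoidAlgebra.single u cb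

theorem add_self2 (u : κ → ZMod 2) : u + u = 0 := funext fun j => CharTwo.add_self_eq_zero (u j)

theorem neg_self2 (u : κ → ZMod 2) : -u = u := neg_eq_of_add_eq_zero_left (add_self2 u)

theorem tau_mul (u v : κ → ZMod 2) : tau u * tau v = tau (u + v) := by
  simp [tau, AddMonoidAlgebra.single_mul_single]

theorem tau_zero : tau (0 : κ → ZMod 2) = 1 := rfl

theorem tau_sq (u : κ → ZMod 2) : tau u * tau u = 1 := by rw [tau_mul, add_self2, tau_zero]

theorem cr_eq (u : κ → ZMod 2) :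
    cr u = algebraMap ℂ (RA κ) ca * (1 - algebraMap ℂ (RA κ) Complex.I * tau u) := by
  rw [mul_sub, ← mul_assoc, ← map_mul, mul_one, cr, cb_eq, tau]
  simp [AddMonoidAlgebra.single_mul_single, sub_eq_add_neg, mul_comm]

theorem algI_sq : algebraMap ℂ (RA κ) Complex.I * algebraMap ℂ (RA κ) Complex.I = -1 := by
  rw [← map_mul, Complex.I_mul_I, map_neg, map_one]

theorem cr_sq (u : κ → ZMod 2) : cr u * cr u = tau u := by
  have h := congrArg (algebraMap ℂ (RA κ)) ca_sq
  simp only [map_mul, map_neg, map_ofNat, map_one] at h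
  rw [cr_eq]
  linear_combination tau u * h + algebraMap ℂ (RA κ) ca ^ 2 * tau u ^ 2 * algI_sq -
    algebraMap ℂ (RA κ) ca ^ 2 * tau_sq u

theorem cr_zero : cr (0 : κ → ZMod 2) = 1 := by
  rw [cr, ← AddMonoidAlgebra.single_add, ca_add_cb]; rfl

theorem four_ring {R : Type} [CommRing R] (ι t1 t2 t3 t4 : R) (hι : ι * ι = -1)
    (h1 : t1 * t1 = 1) (h2 : t2 * t2 = 1) (h3 : t3 * t3 = 1) (h4 : t4 * t4 = 1) :
    (1 - ι * (t2 * t3 * t4)) * (1 - ι * (t1 * t3 * t4)) * (1 - ι * (t1 * t2 * t4)) *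
      (1 - ι * (t1 * t2 * t3)) =
      t1 * t2 * t3 * t4 * ((1 - ι * t1) * (1 - ι * t2) * (1 - ι * t3) * (1 - ι * t4)) := by
  obtain ⟨s, hs⟩ : ∃ s, s = t1 * t2 * t3 * t4 := ⟨_, rfl⟩
  have e1 : t2 * t3 * t4 = s * t1 := by rw [hs]; linear_combination (-t2 * t3 * t4) * h1
  have e2 : t1 * t3 * t4 = s * t2 := by rw [hs]; linear_combination (-t1 * t3 * t4) * h2
  have e3 : t1 * t2 * t4 = s * t3 := by rw [hs]; linear_combination (-t1 * t2 * t4) * h3
  have e4 : t1 * t2 * t3 = s * t4 := by rw [hs]; linear_combination (-t1 * t2 * t3) * h4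
  have hs2 : s * s = 1 := by
    rw [hs]
    linear_combination (t2 * t3 * t4) ^ 2 * h1 + (t3 * t4) ^ 2 * h2 + t4 ^ 2 * h3 + h4
  have he : s * (t1 * t2 + t1 * t3 + t1 * t4 + t2 * t3 + t2 * t4 + t3 * t4) =
      t1 * t2 + t1 * t3 + t1 * t4 + t2 * t3 + t2 * t4 + t3 * t4 := by
    linear_combination -t2 * e1 - t3 * e1 - t4 * e1 - t3 * e2 - t4 * e2 - t4 * e3 +
      t3 * t4 * h2 + t2 * t4 * h3 + t2 * t3 * h4 + t1 * t4 * h3 + t1 * t3 * h4 + t1 * t2 * h4
  rw [← hs, e1, e2, e3, e4]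
  linear_combination ι ^ 2 * s * he -
    ι ^ 3 * s * (t1 * t2 * t3 + t1 * t2 * t4 + t1 * t3 * t4 + t2 * t3 * t4) * hs2 -
    ι ^ 4 * (s ^ 4 - s) * hs + (ι ^ 2 - 1) * (s ^ 5 - s ^ 2) * hι + (s * (s ^ 2 + 1) - 1) * hs2

theorem cr_four (w1 w2 w3 w4 : κ → ZMod 2) :
    cr (w2 + w3 + w4) * cr (w1 + w3 + w4) * cr (w1 + w2 + w4) * cr (w1 + w2 + w3) =
      tau (w1 + w2 + w3 + w4) * (cr w1 * cr w2 * cr w3 * cr w4) := by
  simp only [cr_eq, ← tau_mul]
  linear_combination algebraMap ℂ (RA κ) ca ^ 4 * four_ring _ _ _ _ _ algI_sq (tau_sq w1)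
    (tau_sq w2) (tau_sq w3) (tau_sq w4)

noncomputable def cu (u : κ → ZMod 2) : (RA κ)ˣ :=
  ⟨cr u, cr u * tau u, by rw [← mul_assoc, cr_sq, tau_sq],
    by rw [mul_comm, ← mul_assoc, cr_sq, tau_sq]⟩

/-- Translations. -/
def TT (κ : Type) : Subgroup (RA κ)ˣ where
  carrier := {e | ∃ u, (e : RA κ) = tau u}
  mul_mem' := by
    rintro a b ⟨u, hu⟩ ⟨v, hv⟩
    exact ⟨u + v, by rw [Units.val_mul, hu, hv, tau_mul]⟩
  one_mem' := ⟨0, rfl⟩
  inv_mem' := by
    rintro a ⟨u, hu⟩
    exact ⟨u, Units.inv_eq_of_mul_eq_one_right (by rw [hu, tau_sq])⟩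

/-- The group of frames. -/
def Gam (κ : Type) : Type := Additive ((RA κ)ˣ ⧸ TT κ)

noncomputable instance (κ : Type) : AddCommGroup (Gam κ) :=
  inferInstanceAs (AddCommGroup (Additive ((RA κ)ˣ ⧸ TT κ)))

noncomputable def cls (e : (RA κ)ˣ) : Gam κ := Additive.ofMul (QuotientGroup.mk e)

theorem cls_mul (e e' : (RA κ)ˣ) : cls (e * e') = cls e + cls e' := rfl

theorem cls_one : cls (1 : (RA κ)ˣ) = 0 := rfl

theorem cls_inv (e : (RA κ)ˣ) : cls e⁻¹ = -cls e := rfl

theorem cls_prod {ι : Type} (S : Finset ι) (e : ι → (RA κ)ˣ) :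
    cls (∏ i ∈ S, e i) = ∑ i ∈ S, cls (e i) := by
  classical
  induction S using Finset.induction_on with
  | empty => simp [cls_one]
  | insert i S hi ih => rw [Finset.prod_insert hi, Finset.sum_insert hi, cls_mul, ih]

theorem cls_surj (γ : Gam κ) : ∃ e, cls e = γ := by
  obtain ⟨e, he⟩ := QuotientGroup.mk_surjective
    (Additive.toMul (show Additive ((RA κ)ˣ ⧸ TT κ) from γ))
  exact ⟨e, by rw [cls, he]; rfl⟩

theorem cls_eq {e e' : (RA κ)ˣ} :
    cls e = cls e' ↔ ∃ u : κ → ZMod 2, (e' : RA κ) = tau u * (e : RA κ) := by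
  refine (Additive.ofMul.injective.eq_iff.trans QuotientGroup.eq).trans
    (exists_congr fun u => ?_)
  rw [Units.val_mul, Units.inv_mul_eq_iff_eq_mul, mul_comm]

theorem cls_cu_add_self (u : κ → ZMod 2) : cls (cu u) + cls (cu u) = 0 := by
  rw [← cls_mul, ← cls_one, eq_comm, cls_eq]
  exact ⟨u, by rw [Units.val_mul, Units.val_one, mul_one]; exact cr_sq u⟩

theorem cls_four {η : Type} [DecidableEq η] (w : η → κ → ZMod 2) {Q : Finset η}
    (hQ : Q.card = 4) : ∑ x ∈ Q, cls (cu (w x)) = ∑ x ∈ Q, cls (cu (∑ y ∈ Q.erase x, w y)) := by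
  obtain ⟨a, b, c, d, hab, hac, had, hbc, hbd, hcd, rfl⟩ := Finset.card_eq_four.1 hQ
  have hs : ∀ F : η → κ → ZMod 2, ∑ x ∈ ({a, b, c, d} : Finset η), F x = F a + F b + F c + F d :=
    fun F => by
      rw [Finset.sum_insert (by simp [hab, hac, had]), Finset.sum_insert (by simp [hbc, hbd]),
        Finset.sum_pair hcd]; abel
  have hs' : ∀ F : η → Gam κ, ∑ x ∈ ({a, b, c, d} : Finset η), F x = F a + F b + F c + F d :=
    fun F => by
      rw [Finset.sum_insert (by simp [hab, hac, had]), Finset.sum_insert (by simp [hbc, hbd]),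
        Finset.sum_pair hcd]; abel
  rw [hs', hs', Finset.sum_erase_eq_sub (by simp), Finset.sum_erase_eq_sub (by simp),
    Finset.sum_erase_eq_sub (by simp), Finset.sum_erase_eq_sub (by simp), hs]
  simp only [← cls_mul, cls_eq]
  refine ⟨w a + w b + w c + w d, ?_⟩
  have := cr_four (w a) (w b) (w c) (w d)
  rw [show w a + w b + w c + w d - w a = w b + w c + w d by abel,
    show w a + w b + w c + w d - w b = w a + w c + w d by abel,
    show w a + w b + w c + w d - w c = w a + w b + w d by abel,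
    show w a + w b + w c + w d - w d = w a + w b + w c by abel]
  exact this

/-- The additive map sending the basis vectors to `b`. -/
def hom {ι : Type} [Fintype ι] (b : ι → κ → ZMod 2) : (ι → ZMod 2) →+ (κ → ZMod 2) where
  toFun s := ∑ j, s j • b j
  map_zero' := by simp
  map_add' s t := by simp [add_smul, Finset.sum_add_distrib]

theorem cr_sum (u : κ → ZMod 2) :
    cr u = ∑ e : ZMod 2, AddMonoidAlgebra.single (e • u) (cf e) := by
  have : (univ : Finset (ZMod 2)) = {0, 1} := by decide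
  rw [this, Finset.sum_pair (by decide), cr]
  simp [cf]

theorem coeff_prod_cr {ι : Type} [Fintype ι] [DecidableEq ι] (b : ι → κ → ZMod 2) (x : RA κ)
    (y : κ → ZMod 2) :
    ((∏ j, cr (b j)) * x).coeff y = ∑ s : ι → ZMod 2, (∏ j, cf (s j)) * x.coeff (hom b s + y) := by
  simp only [cr_sum]
  rw [Finset.prod_univ_sum, Fintype.piFinset_univ, Finset.sum_mul, AddMonoidAlgebra.coeff_sum,
    Finset.sum_apply']
  refine Finset.sum_congr rfl fun s _ => ?_
  rw [AddMonoidAlgebra.prod_single, AddMonoidAlgebra.coeff_single_mul_apply, neg_self2]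
  rfl

variable [Fintype κ]

noncomputable def ofF (x : (κ → ZMod 2) → ℂ) : RA κ :=
  AddMonoidAlgebra.ofCoeff (Finsupp.equivFunOnFinite.symm x)

theorem ofF_coeff (x : (κ → ZMod 2) → ℂ) (y : κ → ZMod 2) : (ofF x).coeff y = x y := rfl

theorem ofF_of_coeff (z : RA κ) : ofF (fun y => z.coeff y) = z := by ext; rfl

/-- Cost of multiplication by an element of the group algebra. -/
def CostR (s : ℕ) (e : RA κ) : Prop := Cost s (fun x y => (e * ofF x).coeff y)

theorem CostR.mul {s t : ℕ} {e e' : RA κ} (h : CostR s e) (h' : CostR t e') :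
    CostR (s + t) (e' * e) :=
  (Cost.comp h h').congr fun x y => by simp only [ofF_of_coeff, mul_assoc]

theorem costR_tau (u : κ → ZMod 2) : CostR 0 (tau u) :=
  cost_free _ fun y => Or.inl ⟨-u + y, fun x => by
    rw [tau, AddMonoidAlgebra.coeff_single_mul_apply, one_mul, ofF_coeff]⟩

theorem CostR.of_cls {s : ℕ} {e e' : (RA κ)ˣ} (h : CostR s (e : RA κ)) (he : cls e' = cls e) :
    CostR s (e' : RA κ) := by
  obtain ⟨u, hu⟩ := cls_eq.1 he.symm
  rw [hu]
  exact h.mul (costR_tau u)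

theorem costR_prod [DecidableEq κ] {ι Q : Type} [Fintype ι] [DecidableEq ι] [Fintype Q]
    (b : ι → κ → ZMod 2) (hb : Function.Injective (hom b))
    (hQ : Fintype.card Q * 2 ^ Fintype.card ι = 2 ^ Fintype.card κ) {s : ℕ}
    (h : Cost s (batch Q (Cm ι).mulVec)) : CostR s (∏ j, cr (b j)) := by
  classical
  have hc : Fintype.card Q = Fintype.card ((κ → ZMod 2) ⧸ (hom b).range) := by
    have h1 := AddSubgroup.card_eq_card_quotient_mul_card_addSubgroup (hom b).range
    rw [← Nat.card_congr (AddMonoidHom.ofInjective hb).toEquiv] at h1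
    simp only [Nat.card_eq_fintype_card, Fintype.card_fun, ZMod.card] at h1
    exact Nat.eq_of_mul_eq_mul_right (by positivity) (hQ.trans h1)
  refine ((h.batch_equiv (Fintype.equivOfCardEq hc)).pre
    (fun p => hom b p.2 + p.1.out)).post _ fun y => ?_
  obtain ⟨⟨_, s₀, rfl⟩, hs⟩ := QuotientAddGroup.mk_out_eq_add (hom b).range y
  refine ⟨(QuotientAddGroup.mk y, s₀), fun x => ?_⟩
  rw [coeff_prod_cr, batch, Matrix.mulVec, dotProduct, ← Equiv.sum_comp (Equiv.addLeft s₀)]
  refine Finset.sum_congr rfl fun t _ => ?_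
  simp only [Equiv.coe_addLeft, hs, ofF_coeff, Cm, Pi.add_apply, map_add]
  congr 2
  abel

theorem hom_single [DecidableEq κ] (s : κ → ZMod 2) :
    hom (fun j : κ => (Pi.single j 1 : κ → ZMod 2)) s = s := by
  funext k
  simp [hom, Finset.sum_apply, Pi.single_apply]

theorem full_coeff [DecidableEq κ] (x : (κ → ZMod 2) → ℂ) (y : κ → ZMod 2) :
    ((∏ j : κ, cr (Pi.single j 1)) * ofF x).coeff y = (Cm κ).mulVec x y := by
  rw [coeff_prod_cr, Matrix.mulVec, dotProduct, ← Equiv.sum_comp (Equiv.addLeft y)]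
  refine Finset.sum_congr rfl fun t _ => ?_
  simp only [Equiv.coe_addLeft, ofF_coeff, Cm, Pi.add_apply, hom_single]
  congr 2
  rw [add_right_comm, add_self2, zero_add]

omit [Fintype κ] in
theorem avail_of_one {n : ℕ} {g : List LGate} {u : (Fin n → ℂ) → RA κ} {e : (RA κ)ˣ}
    (h : ∀ y, Avail g fun v => ((e : RA κ) * u v).coeff y) (e' : (RA κ)ˣ) (he : cls e' = cls e)
    (y : κ → ZMod 2) : Avail g fun v => ((e' : RA κ) * u v).coeff y := by
  obtain ⟨w, hw⟩ := cls_eq.1 he.symm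
  simpa only [hw, mul_assoc, tau, AddMonoidAlgebra.coeff_single_mul_apply, one_mul] using h (-w + y)

theorem cost_axpy {α : Type} [Fintype α] (c : ℂ) :
    Cost (Fintype.card α * 4) (fun (x : α ⊕ α → ℂ) a => x (Sum.inl a) + c * x (Sum.inr a)) :=
  cost_pointwise 4 _ fun a => by
    simpa using cost_lincomb (univ : Finset Bool) (fun b => if b then 1 else c)
      (fun b => if b then Sum.inl a else Sum.inr a)

/-- The concrete machine. -/
noncomputable def mach (κ : Type) [Fintype κ] [DecidableEq κ] (n : ℕ) :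
    Mach (Gam κ) ((Fin n → ℂ) → RA κ) where
  A g γ u := ∀ e : (RA κ)ˣ, cls e = γ → ∀ y, Avail g fun v => ((e : RA κ) * u v).coeff y
  Rk s γ := ∀ e : (RA κ)ˣ, cls e = γ → CostR s (e : RA κ)
  N := 2 ^ Fintype.card κ * 4
  keep := by
    rintro g s g' γ u ⟨r, -, rfl⟩ h e he y
    exact (h e he y).append r
  move := by
    intro g s γ γ' u hr h
    obtain ⟨e, rfl⟩ := cls_surj γ
    obtain ⟨e', rfl⟩ := cls_surj γ'
    obtain ⟨r, h1, h2⟩ := hr (e' * e⁻¹) (by rw [cls_mul, cls_inv, sub_eq_add_neg]) n g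
      (fun v y => ((e : RA κ) * u v).coeff y) (h e rfl)
    refine ⟨g ++ r, ⟨r, h1, rfl⟩, avail_of_one fun y => ?_⟩
    simpa only [ofF_of_coeff, Units.val_mul, mul_assoc, Units.inv_mul_cancel_left] using h2 y
  axpy := by
    intro g γ u v c hu hv
    obtain ⟨e, rfl⟩ := cls_surj γ
    obtain ⟨r, h1, h2⟩ := cost_axpy (α := κ → ZMod 2) c n g
      (fun w => Sum.elim (fun y => ((e : RA κ) * u w).coeff y) fun y => ((e : RA κ) * v w).coeff y)
      (by rintro (y | y); exacts [hu e rfl y, hv e rfl y])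
    refine ⟨g ++ r, ⟨r, by simpa using h1, rfl⟩, avail_of_one fun y => ?_⟩
    simpa [mul_add] using h2 y
  zero := fun g γ e _ y => by simpa using avail_zero g
  rk_zero := fun e he => (costR_tau 0).of_cls (e := 1) he
  rk_add := by
    intro s t γ γ' h h' e he
    obtain ⟨a, rfl⟩ := cls_surj γ
    obtain ⟨a', rfl⟩ := cls_surj γ'
    exact ((h a rfl).mul (h' a' rfl)).of_cls (e := a' * a) (by rw [he, cls_mul, add_comm])
  rk_mono := fun h hst e he => Cost.mono (h e he) hst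

end alg

end Crest.Agent.H8DF
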