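import Crest.Agent.H8.DftD

set_option autoImplicit false

namespace Crest.Agent.H8DF

open Crest.FourierCircuit Finset

section net

variable {J : Type} (f : ℕ)

def blk (u : J → ZMod 2) (j : Fin f) : Fin f × J → ZMod 2 := fun p => if p.1 = j then u p.2 else 0

noncomputable def cU (u : J → ZMod 2) : (RA (Fin f × J))ˣ := ∏ j, cu (blk f u j)

theorem cU_val (u : J → ZMod 2) : (cU f u : RA (Fin f × J)) = ∏ j, cr (blk f u j) := by
  rw [cU, Units.coe_prod]; rfl

theorem cls_cU_add_self (u : J → ZMod 2) : cls (cU f u) + cls (cU f u) = 0 := by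
  rw [cU, cls_prod, ← Finset.sum_add_distrib]
  exact Finset.sum_eq_zero fun j _ => cls_cu_add_self _

theorem cls_cU_neg (u : J → ZMod 2) : -cls (cU f u) = cls (cU f u) :=
  neg_eq_of_add_eq_zero_left (cls_cU_add_self f u)

theorem cls_mul_cU (F : (RA (Fin f × J))ˣ) (u : J → ZMod 2) :
    cls (F * cU f u) = cls F - cls (cU f u) := by
  rw [cls_mul, sub_eq_add_neg, cls_cU_neg]

theorem inv4_cU {η : Type} [DecidableEq η] (φ : Finset η → J → ZMod 2)
    (hφ : ∀ A, φ A = ∑ y ∈ A, φ {y}) : Inv4 (fun A => cls (cU f (φ A))) := by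
  simp only [cU, cls_prod]
  refine Inv4.sum univ fun j Q hQ => ?_
  rw [cls_four (fun y => blk f (φ {y}) j) hQ]
  refine Finset.sum_congr rfl fun x _ => ?_
  congr 2
  funext p
  rw [hφ (Q.erase x)]
  simp only [blk, Finset.sum_apply]
  split_ifs <;> simp

variable [Fintype J] [DecidableEq J]

theorem costR_cU {s : ℕ} (hs : Cost (2 ^ f * s) (Cm (Fin f)).mulVec) (u : J → ZMod 2) :
    CostR (2 ^ (f * Fintype.card J) * s) (cU f u : RA (Fin f × J)) := by
  rw [cU_val]
  by_cases hu : u = 0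
  · have : ∀ j, blk f u j = 0 := fun j => funext fun p => by simp [blk, hu]
    simp only [this, cr_zero, Finset.prod_const_one]
    exact Cost.mono (costR_tau 0) (Nat.zero_le _)
  · obtain ⟨x, hx⟩ := Function.ne_iff.1 hu
    have hJ : 1 ≤ Fintype.card J := Fintype.card_pos_iff.2 ⟨x⟩
    have hf : f ≤ f * Fintype.card J := Nat.le_mul_of_pos_right _ hJ
    have hp : 2 ^ (f * Fintype.card J - f) * 2 ^ f = 2 ^ (f * Fintype.card J) := by
      rw [← pow_add, Nat.sub_add_cancel hf]
    refine costR_prod (Q := Fin (2 ^ (f * Fintype.card J - f))) _ ?_ (by simpa using hp) ?_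
    · rw [injective_iff_map_eq_zero]
      intro t ht
      funext j
      have := congrFun ht (j, x)
      simp only [hom, AddMonoidHom.coe_mk, ZeroHom.coe_mk, Finset.sum_apply, blk, Pi.smul_apply,
        smul_eq_mul, mul_ite, mul_zero, Finset.sum_ite_eq, Finset.mem_univ, if_true,
        Pi.zero_apply] at this
      exact (mul_eq_zero.1 this).resolve_right hx
    · have := hs.batch (Fin (2 ^ (f * Fintype.card J - f)))
      rwa [Fintype.card_fin, ← mul_assoc, hp] at this

theorem prod_cU_single : ((∏ x : J, cU f (Pi.single x 1) : (RA (Fin f × J))ˣ) : RA (Fin f × J)) =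
    ∏ p : Fin f × J, cr (Pi.single p 1) := by
  rw [Units.coe_prod, Fintype.prod_prod_type, Finset.prod_comm]
  refine Finset.prod_congr rfl fun x _ => ?_
  rw [cU_val]
  refine Finset.prod_congr rfl fun j _ => ?_
  congr 1
  funext p
  obtain ⟨a, b⟩ := p
  simp only [blk, Pi.single_apply, Prod.mk.injEq]
  by_cases h1 : a = j <;> simp [h1]

end net

section net2

variable {η : Type} [DecidableEq η]

def ind3 (A B C : Finset η) : η × η × η → ZMod 2 :=
  fun p => if p.1 ∈ A ∧ p.2.1 ∈ B ∧ p.2.2 ∈ C then 1 else 0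

theorem ind3_1 (B C A : Finset η) : ind3 A B C = ∑ y ∈ A, ind3 {y} B C := by
  funext p
  simp only [ind3, Finset.sum_apply, Finset.mem_singleton, ite_and, Finset.sum_ite_eq]

theorem ind3_2 (A C B : Finset η) : ind3 A B C = ∑ y ∈ B, ind3 A {y} C := by
  funext p
  by_cases h : p.1 ∈ A <;>
    simp [ind3, Finset.sum_apply, ite_and, h]

theorem ind3_3 (A B C : Finset η) : ind3 A B C = ∑ y ∈ C, ind3 A B {y} := by
  funext p
  by_cases h : p.1 ∈ A <;> by_cases h' : p.2.1 ∈ B <;>
    simp [ind3, Finset.sum_apply, h, h']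

theorem ind3_single (a b c : η) : ind3 {a} {b} {c} = Pi.single (a, b, c) 1 := by
  funext p
  obtain ⟨x, y, z⟩ := p
  simp [ind3, Pi.single_apply]

variable [Fintype η]

/-- The wires of the network. -/
abbrev Wt (η : Type) := ((Tr η × Tr η × Tr η) ⊕ (Tr η × Tr η × Tr η)) ⊕
  (((Tr η × Tr η) × (Tr η × Tr η)) ⊕ ((Tr η × Tr η) × (Tr η × Tr η)) ⊕
    ((Tr η × Tr η) × (Tr η × Tr η)))

theorem cost_net (hc : Fintype.card η = 12) (f s : ℕ)
    (hs : Cost (2 ^ f * s) (Cm (Fin f)).mulVec) :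
    Cost ((2 * 220 ^ 3 * 1727 + 3 * 220 ^ 4 * 1728 + 3 * 220 ^ 2 * 144) *
        (2 ^ (f * Fintype.card (η × η × η)) * s) +
      (3 * 220 ^ 2 * (4 * 220 ^ 2 + 440 * 12) + 220 ^ 3) *
        (2 ^ (f * Fintype.card (η × η × η)) * 4))
      (batch (Wt η) (Cm (Fin f × η × η × η)).mulVec) := by
  intro n g x hx
  let m := mach (Fin f × η × η × η) n
  let u : Wt η → (Fin n → ℂ) → RA (Fin f × η × η × η) := fun w v => ofF fun y => x v (w, y)
  have hu : ∀ w, m.A g 0 (u w) := fun w =>
    avail_of_one (e := 1) fun y => by simpa [u, ofF_coeff] using hx (w, y)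
  let l : Tr η × Tr η × Tr η → (RA (Fin f × η × η × η))ˣ :=
    fun i => cU f (ind3 i.1.1 i.2.1.1 i.2.2.1)
  have hr : ∀ A B C : Finset η, m.Rk (2 ^ (f * Fintype.card (η × η × η)) * s)
      (cls (cU f (ind3 A B C))) := fun A B C e he => (costR_cU f hs _).of_cls he
  obtain ⟨g', ⟨r, hr1, rfl⟩, o1, o2, o3, o4, o5⟩ := m.net hc
    (fun A B C => cls (cU f (ind3 A B C)))
    (fun B C => inv4_cU f (fun A => ind3 A B C) (ind3_1 B C))
    (fun A C => inv4_cU f (fun B => ind3 A B C) (ind3_2 A C))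
    (fun A B => inv4_cU f (fun C => ind3 A B C) (ind3_3 A B)) hr
    (fun A B C => by rw [cls_cU_neg]; exact hr A B C)
    (fun i => u (.inl (.inl i))) (fun i v => ((l i)⁻¹ : (RA _)ˣ) * u (.inl (.inr i)) v)
    (fun p => u (.inr (.inl p))) (fun p => u (.inr (.inr (.inl p))))
    (fun p => u (.inr (.inr (.inr p)))) (g := g) (fun _ => hu _)
    (fun i => avail_of_one (e := l i) fun y => by
      simpa [u, ofF_coeff] using hx (.inl (.inr i), y))
    (fun _ => hu _) (fun _ => hu _) (fun _ => hu _)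
  obtain ⟨F, hFv, hF⟩ : ∃ F : (RA (Fin f × η × η × η))ˣ,
      (F : RA (Fin f × η × η × η)) = ∏ p : Fin f × η × η × η, cr (Pi.single p 1) ∧
      cls F = ∑ a, ∑ b, ∑ c, cls (cU f (ind3 ({a} : Finset η) {b} {c})) :=
    ⟨∏ x : η × η × η, cU f (Pi.single x 1), prod_cU_single f, by
      simp only [cls_prod, Fintype.sum_prod_type, ind3_single]⟩
  have key : ∀ w, (∀ y, Avail (g ++ r) fun v => ((F : RA _) * u w v).coeff y) →
      ∀ y, Avail (g ++ r) fun v => batch (Wt η) (Cm (Fin f × η × η × η)).mulVec (x v) (w, y) :=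
    fun w h y => by
      simpa only [hFv, u, full_coeff, batch] using h y
  refine ⟨r, by simpa [m, mach] using hr1, ?_⟩
  rintro ⟨(i | i) | p | p | p, y⟩
  · exact key _ (o1 i F hF) y
  · refine key _ (fun y => ?_) y
    have := o2 i (F * l i) ((cls_mul_cU f F _).trans (by rw [hF])) y
    simpa only [Units.val_mul, mul_assoc, Units.mul_inv_cancel_left] using this
  · exact key _ (o3 p F hF) y
  · exact key _ (o4 p F hF) y
  · exact key _ (o5 p F hF) y

end net2

end Crest.Agent.H8DF
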