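import Crest.Agent.H8.DftE

set_option autoImplicit false

namespace Crest.Agent.H8DF

open Crest.FourierCircuit Finset

theorem costR_cr {κ : Type} [Fintype κ] [DecidableEq κ] (u : κ → ZMod 2) :
    CostR (2 ^ Fintype.card κ * 4) (cr u) := by
  have := cost_pointwise 4 (fun (x : (κ → ZMod 2) → ℂ) y => (cr u * ofF x).coeff y) fun y => by
    simpa [cr, add_mul, ofF_coeff] using cost_lincomb (univ : Finset Bool)
      (fun b => if b then ca else cb) (fun b => if b then y else -u + y)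
  simpa [CostR] using this

theorem costR_finprod {κ ι : Type} [Fintype κ] (S : Finset ι) (e : ι → RA κ) (s : ℕ)
    (h : ∀ i, CostR s (e i)) : CostR (S.card * s) (∏ i ∈ S, e i) := by
  classical
  induction S using Finset.induction_on with
  | empty => simpa [tau_zero] using costR_tau (0 : κ → ZMod 2)
  | insert i S hi ih =>
    rw [Finset.prod_insert hi, Finset.card_insert_of_notMem hi, add_mul, one_mul]
    exact ih.mul (h i)

theorem CostR.full {κ : Type} [Fintype κ] [DecidableEq κ] {s : ℕ}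
    (h : CostR s (∏ j : κ, cr (Pi.single j 1))) : Cost s (Cm κ).mulVec :=
  Cost.congr h fun x y => (full_coeff x y).symm

theorem cost_base (k : ℕ) : Cost (2 ^ k * (4 * k)) (Cm (Fin k)).mulVec := by
  have := (costR_finprod univ (fun j : Fin k => cr (Pi.single j 1)) _ fun j => costR_cr _).full
  refine this.mono (le_of_eq ?_)
  simp only [Finset.card_univ, Fintype.card_fin]; ring

theorem cost_idle {J : Type} [Fintype J] [DecidableEq J] (f s : ℕ)
    (hs : Cost (2 ^ f * s) (Cm (Fin f)).mulVec) :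
    Cost (Fintype.card J * (2 ^ (f * Fintype.card J) * s)) (Cm (Fin f × J)).mulVec := by
  have := costR_finprod univ (fun x : J => (cU f (Pi.single x 1) : RA (Fin f × J))) _
    fun x => costR_cU f hs _
  rw [← Units.coe_prod, prod_cU_single] at this
  exact this.full

theorem cost_batch33 (f s : ℕ) (hs : Cost (2 ^ f * s) (Cm (Fin f)).mulVec) :
    Cost (2 ^ (f * 1728) * ((2 ^ 33 * 1728 - 387200) * s +
      (3 * 220 ^ 2 * (4 * 220 ^ 2 + 440 * 12) + 220 ^ 3) * 4))
      (batch (Fin (2 ^ 33)) (Cm (Fin f × Fin 12 × Fin 12 × Fin 12)).mulVec) := by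
  have hc : Fintype.card (Fin 12 × Fin 12 × Fin 12) = 1728 := by simp
  have h1 := cost_net (η := Fin 12) (by simp) f s hs
  have h2 := (cost_idle (J := Fin 12 × Fin 12 × Fin 12) f s hs).batch
    (Fin (2 ^ 33 - (2 * 220 ^ 3 + 3 * 220 ^ 4)))
  refine ((h1.batch_sum h2).batch_equiv (Fintype.equivOfCardEq ?_)).mono (le_of_eq ?_)
  · simp only [Fintype.card_sum, Fintype.card_prod, card_Tr (η := Fin 12) (by simp),
      Fintype.card_fin]
    norm_num
  · rw [hc, Fintype.card_fin]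
    generalize 2 ^ (f * 1728) = X
    norm_num
    ring

theorem cost_step {J : Type} [Fintype J] [DecidableEq J] (w c k f : ℕ)
    (hk : f * Fintype.card J + w ≤ k)
    (h : Cost (2 ^ (f * Fintype.card J) * c) (batch (Fin (2 ^ w)) (Cm (Fin f × J)).mulVec)) :
    Cost (2 ^ k * (c / 2 ^ w + 1 + (k - f * Fintype.card J) * 4)) (Cm (Fin k)).mulVec := by
  obtain ⟨e⟩ : Nonempty (Fin f × J ↪ Fin k) :=
    Function.Embedding.nonempty_of_card_le (by simp; omega)
  obtain ⟨d, rfl⟩ := Nat.exists_eq_add_of_le hk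
  have h1 : CostR _ (∏ p : Fin f × J, cr (Pi.single (e p) 1)) :=
    costR_prod (Q := Fin (2 ^ d) × Fin (2 ^ w)) (fun p => Pi.single (e p) 1) (by
      rw [injective_iff_map_eq_zero]
      intro t ht
      funext p
      have := congrFun ht (e p)
      simpa [hom, Finset.sum_apply, Pi.single_apply] using this) (by
      simp only [Fintype.card_prod, Fintype.card_fin]; ring) (h.batch_prod (Fin (2 ^ d)))
  have h2 := costR_finprod (univ.map e)ᶜ
    (fun j => cr (Pi.single j 1 : Fin (f * Fintype.card J + w + d) → ZMod 2)) _ fun j => costR_cr _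
  have h3 := h1.mul h2
  rw [← Finset.prod_map univ e (fun j => cr (Pi.single j 1)), Finset.prod_compl_mul_prod] at h3
  refine h3.full.mono ?_
  simp only [Finset.card_compl, Finset.card_map, Finset.card_univ, Fintype.card_prod,
    Fintype.card_fin]
  have h4 : c ≤ 2 ^ w * (c / 2 ^ w + 1) := (Nat.lt_mul_div_succ c (by positivity)).le
  calc _ ≤ 2 ^ d * (2 ^ (f * Fintype.card J) * (2 ^ w * (c / 2 ^ w + 1))) +
        (f * Fintype.card J + w + d - f * Fintype.card J) *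
          (2 ^ (f * Fintype.card J + w + d) * 4) := by gcongr
    _ = _ := by ring

theorem rec_bound (θ : ℝ) (hθ : 0 < θ) (m w R L : ℕ) (hm : 2 ≤ m) (hw : w < m)
    (hR : (R : ℝ) / 2 ^ w < (m : ℝ) ^ θ) (P : ℕ → ℕ → Prop) (base : ∀ k, P k (4 * k))
    (step : ∀ k f s, f * m + w ≤ k → P f s → P k ((R * s + L) / 2 ^ w + 1 + (k - f * m) * 4)) :
    ∃ A : ℝ, 0 ≤ A ∧ ∀ k, ∃ s : ℕ, P k s ∧ (s : ℝ) ≤ A * ((k : ℝ) + 1) ^ θ := by
  have hm0 : (0 : ℝ) < m := by positivity
  have hmθ : (0 : ℝ) < (m : ℝ) ^ θ := Real.rpow_pos_of_pos hm0 θ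
  obtain ⟨ρ, hρ⟩ : ∃ ρ : ℝ, ρ = R / 2 ^ w / (m : ℝ) ^ θ := ⟨_, rfl⟩
  have hρ0 : 0 ≤ ρ := by rw [hρ]; positivity
  have hρ1 : ρ < 1 := by rw [hρ, div_lt_one hmθ]; exact hR
  obtain ⟨K, hK⟩ : ∃ K : ℝ, K = L / 2 ^ w + 1 + 8 * m := ⟨_, rfl⟩
  have hK0 : 8 * (m : ℝ) ≤ K := by
    have : (0 : ℝ) ≤ L / 2 ^ w := by positivity
    linarith
  obtain ⟨A, hA⟩ : ∃ A : ℝ, A = K / (1 - ρ) := ⟨_, rfl⟩
  have hA1 : A * (1 - ρ) = K := by rw [hA]; field_simp [(sub_pos.2 hρ1).ne']
  have hA0 : 0 ≤ A := by rw [hA]; exact div_nonneg (by linarith) (by linarith)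
  refine ⟨A, hA0, fun k => ?_⟩
  induction k using Nat.strong_induction_on with
  | _ k ih =>
    have h1 : (1 : ℝ) ≤ ((k : ℝ) + 1) ^ θ :=
      Real.one_le_rpow (by linarith [Nat.cast_nonneg (α := ℝ) k]) hθ.le
    by_cases hk : k + 1 < 2 * m
    · refine ⟨4 * k, base k, ?_⟩
      have : (k : ℝ) + 1 < 2 * m := by exact_mod_cast hk
      push_cast
      nlinarith [mul_nonneg hA0 hρ0]
    · obtain ⟨f, hf⟩ : ∃ f, (k + 1) / m = f + 1 :=
        ⟨(k + 1) / m - 1, by
          have : 2 ≤ (k + 1) / m := (Nat.le_div_iff_mul_le (by omega)).2 (by omega)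
          omega⟩
      have h2 : (f + 1) * m ≤ k + 1 := hf ▸ Nat.div_mul_le_self _ _
      have h3 : k + 1 < m * (f + 1 + 1) := hf ▸ Nat.lt_mul_div_succ _ (by omega)
      have h4 : f < k := by nlinarith
      obtain ⟨s, hs, hs'⟩ := ih f h4
      refine ⟨_, step k f s (by nlinarith) hs, ?_⟩
      have h5 : k - f * m ≤ 2 * m := by
        rw [Nat.sub_le_iff_le_add]; nlinarith
      have h6 : (((R * s + L) / 2 ^ w : ℕ) : ℝ) ≤ R / 2 ^ w * s + L / 2 ^ w := by
        refine Nat.cast_div_le.trans (le_of_eq ?_)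
        push_cast; ring
      have h7 : ((k - f * m : ℕ) : ℝ) ≤ 2 * m := by exact_mod_cast h5
      have h8 : ((f : ℝ) + 1) ^ θ * (m : ℝ) ^ θ ≤ ((k : ℝ) + 1) ^ θ := by
        rw [← Real.mul_rpow (by positivity) hm0.le]
        exact Real.rpow_le_rpow (by positivity) (by exact_mod_cast h2) hθ.le
      have h9 : (R : ℝ) / 2 ^ w * s ≤ ρ * A * ((k : ℝ) + 1) ^ θ := by
        calc (R : ℝ) / 2 ^ w * s ≤ R / 2 ^ w * (A * ((f : ℝ) + 1) ^ θ) := by gcongr
          _ = ρ * A * (((f : ℝ) + 1) ^ θ * (m : ℝ) ^ θ) := by rw [hρ]; field_simp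
          _ ≤ _ := by gcongr
      rw [Nat.cast_add, Nat.cast_add, Nat.cast_mul, Nat.cast_one, Nat.cast_ofNat]
      have h10 : K ≤ A * (1 - ρ) * ((k : ℝ) + 1) ^ θ := by
        rw [hA1]; nlinarith
      nlinarith

theorem theta_pos : 0 < savingExponent := Real.logb_pos (by norm_num) (by norm_num)

theorem theta_le_one : savingExponent ≤ 1 := by
  rw [savingExponent, Real.logb_le_iff_le_rpow (by norm_num) (by norm_num)]
  norm_num

theorem theta_num : (((2 ^ 33 * 1728 - 387200 : ℕ) : ℝ)) / 2 ^ 33 <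
    ((1728 : ℕ) : ℝ) ^ savingExponent := by
  have h1 : ((10 : ℝ) ^ 6) ^ savingExponent = 10 ^ 6 - 6871402692000000 / 2 ^ 71 :=
    Real.rpow_logb (by norm_num) (by norm_num) (by norm_num)
  have h2 : ((10 : ℝ) ^ 6) ^ (savingExponent - 1) ≤ (1728 : ℝ) ^ (savingExponent - 1) :=
    Real.rpow_le_rpow_of_nonpos (by norm_num) (by norm_num) (by linarith [theta_le_one])
  rw [Real.rpow_sub_one (by norm_num), Real.rpow_sub_one (by norm_num), h1,
    le_div_iff₀ (by norm_num)] at h2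
  push_cast
  refine lt_of_lt_of_le ?_ h2
  norm_num

/-- The tensor powers of the square root of the swap have small circuits. -/
theorem cost_Cm : ∃ A : ℝ, 0 ≤ A ∧ ∀ k, ∃ s : ℕ, Cost (2 ^ k * s) (Cm (Fin k)).mulVec ∧
    (s : ℝ) ≤ A * ((k : ℝ) + 1) ^ savingExponent := by
  refine rec_bound _ theta_pos 1728 33 _
    ((3 * 220 ^ 2 * (4 * 220 ^ 2 + 440 * 12) + 220 ^ 3) * 4) (by norm_num) (by norm_num) theta_num
    (fun k s => Cost (2 ^ k * s) (Cm (Fin k)).mulVec) cost_base fun k f s hk hs => ?_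
  have hc : Fintype.card (Fin 12 × Fin 12 × Fin 12) = 1728 := by simp
  have := cost_step (J := Fin 12 × Fin 12 × Fin 12) 33 _ k f (by rwa [hc])
    (by rw [hc]; exact cost_batch33 f s hs)
  rwa [hc] at this

end Crest.Agent.H8DF
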