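import Crest.Agent.H8.DftF

set_option autoImplicit false

namespace Crest.Agent.H8DF

open Crest.FourierCircuit Finset Matrix
open scoped Kronecker

section layers

variable {X Y : Type} [DecidableEq X] [DecidableEq Y]

/-- A monomial matrix. -/
def mono (D : X → ℂ) (σ : X → X) : Matrix X X ℂ := fun y z => if z = σ y then D y else 0

/-- A layer of square roots of swaps. -/
noncomputable def Jm (π : X → X) : Matrix X X ℂ := mono (fun _ => ca) id + mono (fun _ => cb) π

def IsJ (G : Matrix X X ℂ) : Prop := ∃ π, Function.Involutive π ∧ G = Jm π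

theorem mono_one : mono (fun _ : X => 1) id = 1 := by
  ext y z; simp [mono, Matrix.one_apply, eq_comm]

theorem mono_id (D : X → ℂ) : mono D id = diagonal D := by
  ext y z; simp [mono, Matrix.diagonal_apply, eq_comm]

theorem isJ_one : IsJ (1 : Matrix X X ℂ) := ⟨id, fun _ => rfl, by
  ext y z
  by_cases h : y = z
  · subst h; simp [Jm, mono, ca_add_cb]
  · simp [Jm, mono, h, Ne.symm h]⟩

theorem mono_kron (D : X → ℂ) (σ : X → X) (D' : Y → ℂ) (σ' : Y → Y) :
    mono D σ ⊗ₖ mono D' σ' = mono (fun p => D p.1 * D' p.2) (Prod.map σ σ') := by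
  ext ⟨a, b⟩ ⟨c, d⟩
  by_cases h : c = σ a <;> by_cases h' : d = σ' b <;> simp [mono, h, h']

theorem mono_blocks (D : X → ℂ) (σ : X → X) (D' : Y → ℂ) (σ' : Y → Y) :
    fromBlocks (mono D σ) 0 0 (mono D' σ') = mono (Sum.elim D D') (Sum.map σ σ') := by
  ext (a | a) (b | b) <;> simp [mono]

theorem mono_submatrix (D : X → ℂ) (σ : X → X) (e : Y ≃ X) :
    (mono D σ).submatrix e e = mono (D ∘ e) (e.symm ∘ σ ∘ e) := by
  ext a b
  simp [mono, Equiv.eq_symm_apply]

theorem IsJ.blocks {G : Matrix X X ℂ} {G' : Matrix Y Y ℂ} (h : IsJ G) (h' : IsJ G') :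
    IsJ (fromBlocks G 0 0 G') := by
  obtain ⟨π, h1, rfl⟩ := h
  obtain ⟨π', h2, rfl⟩ := h'
  refine ⟨Sum.map π π', by rintro (a | a) <;> simp [h1 _, h2 _], ?_⟩
  ext (a | a) (b | b) <;> simp [Jm, mono]

theorem IsJ.submatrix {G : Matrix X X ℂ} (h : IsJ G) (e : Y ≃ X) : IsJ (G.submatrix e e) := by
  obtain ⟨π, h1, rfl⟩ := h
  refine ⟨e.symm ∘ π ∘ e, fun a => by simp [h1 _], ?_⟩
  ext a b
  simp [Jm, mono, Equiv.eq_symm_apply]

variable [Fintype X] [Fintype Y]

theorem mono_mul_apply {Z : Type} (D : X → ℂ) (σ : X → X) (M : Matrix X Z ℂ) (y : X) (z : Z) :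
    (mono D σ * M) y z = D y * M (σ y) z := by
  simp [mono, Matrix.mul_apply]

theorem mono_mulVec (D : X → ℂ) (σ : X → X) (v : X → ℂ) (y : X) :
    (mono D σ).mulVec v y = D y * v (σ y) := by
  simp [mono, Matrix.mulVec, dotProduct]

theorem mono_mul_mono (D D' : X → ℂ) (σ σ' : X → X) :
    mono D σ * mono D' σ' = mono (fun y => D y * D' (σ y)) (σ' ∘ σ) := by
  ext y z
  rw [mono_mul_apply]
  simp [mono]

theorem cost_mono (D : X → ℂ) (σ : X → X) : Cost (Fintype.card X * 2) (mono D σ).mulVec :=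
  (cost_pointwise 2 (fun (x : X → ℂ) a => D a * x (σ a)) fun a => by
    simpa using cost_lincomb {()} (fun _ => D a) (fun _ => σ a)).congr (mono_mulVec D σ)

omit [DecidableEq X] in
theorem Cost.mul {s t : ℕ} {A B : Matrix X X ℂ} (hA : Cost s A.mulVec) (hB : Cost t B.mulVec) :
    Cost (t + s) (A * B).mulVec :=
  (hB.comp hA).congr fun x b => by rw [Matrix.mulVec_mulVec]

omit [DecidableEq X] [DecidableEq Y] in
theorem Cost.submatrix {s : ℕ} {A : Matrix X X ℂ} (hA : Cost s A.mulVec) (e : Y ≃ X) :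
    Cost s (A.submatrix e e).mulVec :=
  (hA.pre e.symm).post _ fun y => ⟨e y, fun x => by
    rw [Matrix.submatrix_mulVec_equiv]; rfl⟩

/-- Products of `d` layers. -/
inductive LayP {X : Type} [Fintype X] [DecidableEq X] (P : Matrix X X ℂ → Prop) :
    ℕ → Matrix X X ℂ → Prop
  | mono (D : X → ℂ) (σ : X → X) : LayP P 0 (mono D σ)
  | step (d : ℕ) (D : X → ℂ) (σ : X → X) (G M : Matrix X X ℂ) :
      P G → LayP P d M → LayP P (d + 1) (mono D σ * G * M)

variable {P : Matrix X X ℂ → Prop} {Q : Matrix Y Y ℂ → Prop}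

theorem LayP.one : LayP P 0 1 := mono_one (X := X) ▸ LayP.mono _ _

theorem LayP.diag (D : X → ℂ) : LayP P 0 (diagonal D) := mono_id D ▸ LayP.mono _ _

theorem LayP.mono_mul {d : ℕ} {M : Matrix X X ℂ} (h : LayP P d M) (D : X → ℂ) (σ : X → X) :
    LayP P d (H8DF.mono D σ * M) := by
  cases h with
  | mono D' σ' => rw [mono_mul_mono]; exact LayP.mono _ _
  | step d D' σ' G M hG hM =>
    rw [← mul_assoc, ← mul_assoc, mono_mul_mono]; exact LayP.step _ _ _ _ _ hG hM

theorem LayP.mul {d d' : ℕ} {M M' : Matrix X X ℂ} (h : LayP P d M) (h' : LayP P d' M') :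
    LayP P (d + d') (M * M') := by
  induction h with
  | mono D σ => rw [zero_add]; exact h'.mono_mul D σ
  | step d D σ G M hG _ ih =>
    rw [mul_assoc _ M, add_right_comm]; exact LayP.step _ _ _ _ _ hG ih

theorem LayP.of {G : Matrix X X ℂ} (h : P G) : LayP P 1 G := by
  simpa [mono_one] using LayP.step 0 (fun _ => 1) id G 1 h LayP.one

theorem LayP.le (h1 : P 1) {d d' : ℕ} {M : Matrix X X ℂ} (h : LayP P d M) (hd : d ≤ d') :
    LayP P d' M := by
  induction hd with
  | refl => exact h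
  | step _ ih => simpa using ih.mul (LayP.of h1)

theorem LayP.kron {S : Matrix (X × Y) (X × Y) ℂ → Prop} (hS : ∀ G G', P G → Q G' → S (G ⊗ₖ G'))
    {d : ℕ} {M : Matrix X X ℂ} (h : LayP P d M) :
    ∀ {M' : Matrix Y Y ℂ}, LayP Q d M' → LayP S d (M ⊗ₖ M') := by
  induction h with
  | mono D σ =>
    intro M' h'
    cases h' with
    | mono D' σ' => rw [mono_kron]; exact LayP.mono _ _
  | step d D σ G M hG _ ih =>
    intro M' h'
    cases h' with
    | step _ D' σ' G' M' hG' hM' =>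
      rw [Matrix.mul_kronecker_mul, Matrix.mul_kronecker_mul, mono_kron]
      exact LayP.step _ _ _ _ _ (hS _ _ hG hG') (ih hM')

theorem LayP.blocks {S : Matrix (X ⊕ Y) (X ⊕ Y) ℂ → Prop}
    (hS : ∀ G G', P G → Q G' → S (fromBlocks G 0 0 G'))
    {d : ℕ} {M : Matrix X X ℂ} (h : LayP P d M) :
    ∀ {M' : Matrix Y Y ℂ}, LayP Q d M' → LayP S d (fromBlocks M 0 0 M') := by
  have hm : ∀ (A B : Matrix X X ℂ) (A' B' : Matrix Y Y ℂ),
      fromBlocks (A * B) 0 0 (A' * B') = fromBlocks A 0 0 A' * fromBlocks B 0 0 B' := by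
    intro A B A' B'
    simp [Matrix.fromBlocks_multiply]
  induction h with
  | mono D σ =>
    intro M' h'
    cases h' with
    | mono D' σ' => rw [mono_blocks]; exact LayP.mono _ _
  | step d D σ G M hG _ ih =>
    intro M' h'
    cases h' with
    | step _ D' σ' G' M' hG' hM' =>
      rw [hm, hm, mono_blocks]
      exact LayP.step _ _ _ _ _ (hS _ _ hG hG') (ih hM')

theorem LayP.submatrix (e : Y ≃ X) (hQ : ∀ G, P G → Q (G.submatrix e e))
    {d : ℕ} {M : Matrix X X ℂ} (h : LayP P d M) : LayP Q d (M.submatrix e e) := by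
  induction h with
  | mono D σ => rw [mono_submatrix]; exact LayP.mono _ _
  | step d D σ G M hG _ ih =>
    rw [← Matrix.submatrix_mul_equiv _ _ _ e, ← Matrix.submatrix_mul_equiv _ _ _ e,
      mono_submatrix]
    exact LayP.step _ _ _ _ _ (hQ _ hG) ih

theorem LayP.rows {d : ℕ} {M : Matrix X X ℂ} (h : LayP P d M) (r : X → X) :
    LayP P d (M.submatrix r id) := by
  convert h.mono_mul (fun _ => 1) r using 1
  ext y z
  simp [mono_mul_apply]

theorem LayP.cost {s : ℕ} (hP : ∀ G, P G → Cost s G.mulVec) {d : ℕ} {M : Matrix X X ℂ}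
    (h : LayP P d M) : Cost (d * (s + Fintype.card X * 2) + Fintype.card X * 2) M.mulVec := by
  induction h with
  | mono D σ => simpa using cost_mono D σ
  | step d D σ G M hG _ ih =>
    exact (((cost_mono D σ).mul (hP _ hG)).mul ih).mono (le_of_eq (by ring))

/-- Products of layers of swaps. -/
abbrev Lay (d : ℕ) (M : Matrix X X ℂ) : Prop := LayP IsJ d M

theorem Lay.le {d d' : ℕ} {M : Matrix X X ℂ} (h : Lay d M) (hd : d ≤ d') : Lay d' M :=
  LayP.le isJ_one h hd

theorem Lay.blocks {d : ℕ} {M : Matrix X X ℂ} {M' : Matrix Y Y ℂ} (h : Lay d M) (h' : Lay d M') :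
    Lay d (fromBlocks M 0 0 M') := LayP.blocks (fun _ _ => IsJ.blocks) h h'

theorem Lay.submatrix {d : ℕ} {M : Matrix X X ℂ} (h : Lay d M) (e : Y ≃ X) :
    Lay d (M.submatrix e e) := LayP.submatrix e (fun _ hG => hG.submatrix e) h

/-- Tensor products of `k` layers. -/
def Good (σ : ℕ → ℕ) (k : ℕ) (G : Matrix Y Y ℂ) : Prop :=
  ∀ j, Cost (Fintype.card Y * 2 ^ j * σ (k + j)) (G ⊗ₖ Cm (Fin j)).mulVec

theorem good_one {σ : ℕ → ℕ} (hσ : ∀ j, Cost (2 ^ j * σ j) (Cm (Fin j)).mulVec) :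
    Good σ 0 (1 : Matrix Y Y ℂ) := fun j => by
  rw [zero_add, mul_assoc]
  refine ((hσ j).batch Y).congr fun x p => ?_
  obtain ⟨y, s⟩ := p
  simp [batch, Matrix.mulVec, dotProduct, Fintype.sum_prod_type, Matrix.one_apply]

omit [DecidableEq X] [DecidableEq Y] in
theorem Good.submatrix {σ : ℕ → ℕ} {k : ℕ} {G : Matrix X X ℂ} (h : Good σ k G) (e : Y ≃ X) :
    Good σ k (G.submatrix e e) := fun j => by
  classical
  rw [Fintype.card_congr e]
  exact (h j).submatrix (e.prodCongr (Equiv.refl _))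

omit [DecidableEq Y] in
theorem Good.cost {σ : ℕ → ℕ} {k : ℕ} {G : Matrix Y Y ℂ} (h : Good σ k G) :
    Cost (Fintype.card Y * σ k) G.mulVec := by
  have := ((h 0).pre Prod.fst).post G.mulVec fun y => ⟨(y, 0), fun x => by
    simp [Matrix.mulVec, dotProduct, Fintype.sum_prod_type, Cm]⟩
  simpa using this

omit [DecidableEq Y] in
theorem kron_cons (G : Matrix Y Y ℂ) (j : ℕ) (v : Y × (Fin (j + 1) → ZMod 2) → ℂ) (y : Y)
    (ε : ZMod 2) (s : Fin j → ZMod 2) :
    (G ⊗ₖ Cm (Fin (j + 1))).mulVec v (y, Fin.cons ε s) =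
      cf ε * (G ⊗ₖ Cm (Fin j)).mulVec (fun p => v (p.1, Fin.cons 0 p.2)) (y, s) +
      cf (ε + 1) * (G ⊗ₖ Cm (Fin j)).mulVec (fun p => v (p.1, Fin.cons 1 p.2)) (y, s) := by
  have h2 : (univ : Finset (ZMod 2)) = {0, 1} := by decide
  simp only [Matrix.mulVec, dotProduct, Fintype.sum_prod_type, Finset.mul_sum,
    ← Finset.sum_add_distrib, Matrix.kroneckerMap_apply]
  refine Finset.sum_congr rfl fun y' _ => ?_
  rw [← (Fin.consEquiv fun _ => ZMod 2).sum_comp, Fintype.sum_prod_type, h2,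
    Finset.sum_pair (by decide), ← Finset.sum_add_distrib]
  refine Finset.sum_congr rfl fun t _ => ?_
  have hc : ∀ (a : ZMod 2), (Fin.consEquiv fun _ => ZMod 2) (a, t) = Fin.cons a t := fun _ => rfl
  simp only [hc, Cm, Fin.prod_univ_succ, Fin.cons_zero, Fin.cons_succ, add_zero]
  ring

omit [DecidableEq Y] in
theorem kron_J (π : X → X) (G : Matrix Y Y ℂ) {Z : Type} [Fintype Z] (C : Matrix Z Z ℂ)
    (v : (X × Y) × Z → ℂ) (x : X) (y : Y) (s : Z) :
    ((Jm π ⊗ₖ G) ⊗ₖ C).mulVec v ((x, y), s) =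
      ca * (G ⊗ₖ C).mulVec (fun p => v ((x, p.1), p.2)) (y, s) +
      cb * (G ⊗ₖ C).mulVec (fun p => v ((π x, p.1), p.2)) (y, s) := by
  simp only [Matrix.mulVec, dotProduct, Fintype.sum_prod_type, Finset.mul_sum,
    Matrix.kroneckerMap_apply, Jm, mono, Matrix.add_apply, add_mul, Finset.sum_add_distrib, id,
    ite_mul, zero_mul, mul_assoc]
  congr 1
  · rw [Finset.sum_eq_single_of_mem x (Finset.mem_univ _) (fun b _ hb => by simp [hb])]
    simp
  · rw [Finset.sum_eq_single_of_mem (π x) (Finset.mem_univ _) (fun b _ hb => by simp [hb])]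
    simp

omit [DecidableEq Y] in
theorem Good.kron {σ : ℕ → ℕ} (hσ : Monotone σ) {k : ℕ} {J : Matrix X X ℂ} {G : Matrix Y Y ℂ}
    (hJ : IsJ J) (h : Good σ k G) : Good σ (k + 1) (J ⊗ₖ G) := fun j => by
  classical
  obtain ⟨π, hπ, rfl⟩ := hJ
  obtain ⟨idx, hidx⟩ : ∃ idx : X → ℕ, Function.Injective idx :=
    ⟨fun x => Fintype.equivFin X x, Fin.val_injective.comp (Fintype.equivFin X).injective⟩
  have h1 := ((h j).batch {x // π x = x}).pre
    (fun p => (((p.1.1, p.2.1), p.2.2) : (X × Y) × (Fin j → ZMod 2)))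
  have h2 := ((h (j + 1)).batch {x // idx x < idx (π x)}).pre
    (fun p => (((if p.2.2 0 = 0 then p.1.1 else π p.1.1, p.2.1), Fin.tail p.2.2) :
      (X × Y) × (Fin j → ZMod 2)))
  have hcard : Fintype.card {x // π x = x} + 2 * Fintype.card {x // idx x < idx (π x)} ≤
      Fintype.card X := by
    have e1 : ∑ x, (if idx x < idx (π x) then 1 else 0) =
        ∑ x, (if idx (π x) < idx x then 1 else 0) := by
      rw [← Equiv.sum_comp hπ.toPerm]
      simp only [Function.Involutive.coe_toPerm, hπ _]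
    simp only [Fintype.card_subtype, Finset.card_filter]
    rw [two_mul]
    nth_rewrite 1 [e1]
    rw [← Finset.sum_add_distrib, ← Finset.sum_add_distrib, ← Finset.card_univ,
      Finset.card_eq_sum_ones]
    refine Finset.sum_le_sum fun x _ => ?_
    by_cases hx : π x = x
    · simp [hx]
    · rw [if_neg hx]
      split_ifs <;> omega
  refine ((h1.pair h2).post _ ?_).mono ?_
  · rintro ⟨⟨x, y⟩, s⟩
    rcases lt_trichotomy (idx x) (idx (π x)) with hx | hx | hx
    · refine ⟨.inr (⟨x, hx⟩, y, Fin.cons 0 s), fun v => ?_⟩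
      simp [kron_J, batch, kron_cons, cf]
    · have hx' : π x = x := (hidx hx).symm
      refine ⟨.inl (⟨x, hx'⟩, y, s), fun v => ?_⟩
      simp [kron_J, batch, hx', ← add_mul, ca_add_cb]
    · refine ⟨.inr (⟨π x, by rwa [hπ]⟩, y, Fin.cons 1 s), fun v => ?_⟩
      have : (1 + 1 : ZMod 2) = 0 := by decide
      simp [kron_J, batch, kron_cons, cf, hπ _, this, add_comm]
  · have a1 : σ (k + j) ≤ σ (k + 1 + j) := hσ (by omega)
    rw [show k + (j + 1) = k + 1 + j by omega, Fintype.card_prod]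
    calc _ ≤ Fintype.card {x // π x = x} * (Fintype.card Y * 2 ^ j * σ (k + 1 + j)) +
          Fintype.card {x // idx x < idx (π x)} *
            (Fintype.card Y * 2 ^ (j + 1) * σ (k + 1 + j)) := by gcongr
      _ = (Fintype.card {x // π x = x} + 2 * Fintype.card {x // idx x < idx (π x)}) *
          Fintype.card Y * 2 ^ j * σ (k + 1 + j) := by ring
      _ ≤ _ := by gcongr

end layers

end Crest.Agent.H8DF
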