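import Crest.Agent.H8.DftG

set_option autoImplicit false

namespace Crest.Agent.H8DF

open Crest.FourierCircuit Finset Matrix

section shear

variable {X Y A : Type} [DecidableEq X] [DecidableEq Y] [DecidableEq A] [Fintype X] [Fintype Y]
  [Fintype A]

theorem Jm_mulVec (π : X → X) (v : X → ℂ) (y : X) :
    (Jm π).mulVec v y = ca * v y + cb * v (π y) := by
  simp [Jm, Matrix.add_mulVec, mono_mulVec]

theorem lay_shear_inv (π : X → X) (hπ : Function.Involutive π) (R : X → Prop) [DecidablePred R]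
    (h1 : ∀ y, R y → ¬R (π y)) (h2 : ∀ y, ¬R y → ¬R (π y) → π y = y) (t : ℂ) :
    Lay 3 (1 + mono (fun y => if R y then t else 0) π) := by
  by_cases ht : t = 0
  · have : mono (fun y => if R y then t else 0) π = 0 := by ext; simp [mono, ht]
    rw [this, add_zero]
    exact Lay.le LayP.one (by omega)
  let dg : ℂ → ℂ → Matrix X X ℂ := fun α β =>
    diagonal fun y => if R y then β else if R (π y) then α else 1
  have hJ : Lay 1 (Jm π) := LayP.of ⟨π, hπ, rfl⟩
  have hd : ∀ α β, Lay 0 (dg α β) := fun _ _ => LayP.diag _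
  have := (hd (-5 * Complex.I / 4) t).mul (hJ.mul ((hd 3 1).mul (hJ.mul ((hd 2 (-1)).mul
    (hJ.mul (hd ((1 - Complex.I) / 5) ((1 + Complex.I) / (3 * t))))))))
  convert this using 1
  refine Matrix.toLin'.injective (LinearMap.ext fun v => funext fun y => ?_)
  simp only [Matrix.toLin'_apply, ← Matrix.mulVec_mulVec, Jm_mulVec, dg, Matrix.mulVec_diagonal,
    Matrix.add_mulVec, Matrix.one_mulVec, Pi.add_apply, mono_mulVec, hπ _]
  by_cases hy : R y
  · simp only [hy, h1 y hy, if_true, if_false, ca, cb]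
    field_simp
    ring_nf
    simp only [Complex.I_sq, Complex.I_pow_three, Complex.I_pow_four]
    ring
  · by_cases hy' : R (π y)
    · simp only [hy, hy', if_true, if_false, ca, cb]
      field_simp
      ring_nf
      have h5 : Complex.I ^ 5 = Complex.I := by rw [pow_succ, Complex.I_pow_four, one_mul]
      simp only [Complex.I_sq, Complex.I_pow_four, h5]
      ring
    · simp only [hy, h2 y hy hy', if_false, ca, cb]
      ring

theorem lay_rel (r : X → X → Prop) [DecidableRel r] (h1 : ∀ a b b', r a b → r a b' → b = b')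
    (h2 : ∀ a a' b, r a b → r a' b → a = a') (h3 : ∀ a b c, r a b → ¬r b c) (t : ℂ) :
    Lay 3 (1 + Matrix.of fun a b => if r a b then t else 0) := by
  classical
  let π : X → X := fun a => if h : ∃ b, r a b then h.choose else
    if h' : ∃ b, r b a then h'.choose else a
  have p1 : ∀ a b, r a b → π a = b := fun a b h => by
    have h' : ∃ b, r a b := ⟨b, h⟩
    simp only [π, dif_pos h']
    exact h1 _ _ _ h'.choose_spec h
  have p2 : ∀ a b, r a b → π b = a := fun a b h => by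
    have h' : ¬∃ c, r b c := fun ⟨c, hc⟩ => h3 _ _ _ h hc
    have h'' : ∃ c, r c b := ⟨a, h⟩
    simp only [π, dif_neg h', dif_pos h'']
    exact h2 _ _ _ h''.choose_spec h
  have p3 : ∀ a, (¬∃ b, r a b) → (¬∃ b, r b a) → π a = a := fun a h h' => by
    simp only [π, dif_neg h, dif_neg h']
  have := lay_shear_inv π (fun a => by
      by_cases h : ∃ b, r a b
      · obtain ⟨b, hb⟩ := h
        rw [p1 _ _ hb, p2 _ _ hb]
      · by_cases h' : ∃ b, r b a
        · obtain ⟨b, hb⟩ := h'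
          rw [p2 _ _ hb, p1 _ _ hb]
        · rw [p3 _ h h', p3 _ h h']) (fun a => ∃ b, r a b)
    (fun a ⟨b, hb⟩ ⟨c, hc⟩ => h3 _ _ _ hb (p1 _ _ hb ▸ hc))
    (fun a h h' => p3 a h fun ⟨b, hb⟩ => h' ⟨a, by rwa [p2 _ _ hb]⟩) t
  convert this using 2
  ext a b
  simp only [mono, Matrix.of_apply]
  by_cases h : r a b
  · rw [if_pos h, if_pos (p1 _ _ h).symm, if_pos ⟨b, h⟩]
  · rw [if_neg h]
    split_ifs with h' h''
    · obtain ⟨c, hc⟩ := h''
      exact absurd (by rwa [h', p1 _ _ hc]) h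
    · rfl
    · rfl

/-- Matrices reading outside `R` and writing inside `R`. -/
def Nil (R : X → Prop) (E : Matrix X X ℂ) : Prop := ∀ y z, E y z ≠ 0 → R y ∧ ¬R z

omit [DecidableEq X] in
theorem Nil.mul {R : X → Prop} {E E' : Matrix X X ℂ} (h : Nil R E) (h' : Nil R E') :
    E * E' = 0 := by
  ext y z
  rw [Matrix.mul_apply]
  refine Finset.sum_eq_zero fun w _ => ?_
  by_contra hh
  exact (h y w (left_ne_zero_of_mul hh)).2 (h' w z (right_ne_zero_of_mul hh)).1

theorem lay_sum {ι : Type} (S : Finset ι) (R : X → Prop) (E : ι → Matrix X X ℂ)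
    (hE : ∀ i, Nil R (E i)) {d : ℕ} (h : ∀ i, Lay d (1 + E i)) :
    Lay (S.card * d) (1 + ∑ i ∈ S, E i) := by
  classical
  induction S using Finset.induction_on with
  | empty => simpa using LayP.one
  | insert i S hi ih =>
    rw [Finset.card_insert_of_notMem hi, add_mul, one_mul, Finset.sum_insert hi]
    convert LayP.mul ih (h i) using 1
    have : (∑ j ∈ S, E j) * E i = 0 := by
      rw [Finset.sum_mul]
      exact Finset.sum_eq_zero fun j _ => (hE j).mul (hE i)
    rw [add_mul, mul_add, mul_add, this]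
    simp only [mul_one, one_mul]
    abel

theorem lay_nil {R : X → Prop} {E : Matrix X X ℂ} (h : Nil R E) :
    Lay (Fintype.card X * Fintype.card X * 3) (1 + E) := by
  classical
  have := lay_sum (univ : Finset (X × X)) R
    (fun p => Matrix.of fun a b => if a = p.1 ∧ b = p.2 ∧ E a b ≠ 0 then E p.1 p.2 else 0)
    (fun p y z hh => by
      simp only [Matrix.of_apply, ne_eq, ite_eq_right_iff, Classical.not_imp] at hh
      exact h y z hh.1.2.2)
    fun p => lay_rel (fun a b => a = p.1 ∧ b = p.2 ∧ E a b ≠ 0)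
      (fun _ _ _ h h' => h.2.1.trans h'.2.1.symm) (fun _ _ _ h h' => h.1.trans h'.1.symm)
      (fun a b c h1 h2 => (h _ _ h1.2.2).2 (h _ _ h2.2.2).1) _
  rw [Finset.card_univ, Fintype.card_prod] at this
  convert this using 2
  ext a b
  rw [Matrix.sum_apply, Finset.sum_eq_single (a, b)]
  · by_cases hh : E a b = 0 <;> simp [hh]
  · rintro ⟨c, d⟩ _ hne
    rw [Matrix.of_apply, if_neg]
    rintro ⟨rfl, rfl, -⟩
    exact hne rfl
  · simp

/-- Shears from the scratch array. -/
def LS (d : ℕ) (P : Matrix Y A ℂ) : Prop := ∀ t : ℂ, Lay d (fromBlocks 1 0 (t • P) 1)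

theorem LS.mul_unit {d e : ℕ} {P : Matrix Y A ℂ} (h : LS d P) {U V : Matrix A A ℂ} (hU : Lay e U)
    (hV : Lay e V) (hVU : V * U = 1) : LS (d + 2 * e) (P * U) := fun t => by
  have h1 : Lay e (1 : Matrix Y Y ℂ) := Lay.le LayP.one (Nat.zero_le _)
  convert LayP.mul (hV.blocks h1) (LayP.mul (h t) (hU.blocks h1)) using 1
  · ring
  · simp [Matrix.fromBlocks_multiply, hVU]

theorem LS.add {d d' : ℕ} {P P' : Matrix Y A ℂ} (h : LS d P) (h' : LS d' P') :
    LS (d + d') (P + P') := fun t => by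
  convert LayP.mul (h t) (h' t) using 1
  simp [Matrix.fromBlocks_multiply]

theorem LS.smul {d : ℕ} {P : Matrix Y A ℂ} (h : LS d P) (c : ℂ) : LS d (c • P) := fun t => by
  rw [smul_smul]; exact h _

theorem LS.mul_diag {d : ℕ} {P : Matrix Y A ℂ} (h : LS d P) (Λ : A → ℂ) :
    LS (2 * d) (P * diagonal Λ) := by
  obtain ⟨c, hc⟩ := Infinite.exists_notMem_finset (univ.image Λ)
  have hc' : ∀ a, Λ a - c ≠ 0 := fun a ha =>
    hc (Finset.mem_image.2 ⟨a, Finset.mem_univ _, sub_eq_zero.1 ha⟩)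
  have := (h.mul_unit (LayP.diag fun a => Λ a - c) (LayP.diag fun a => (Λ a - c)⁻¹) (by
    rw [Matrix.diagonal_mul_diagonal, ← Matrix.diagonal_one]
    congr 1
    funext a
    exact inv_mul_cancel₀ (hc' a))).add (h.smul c)
  convert this using 1
  · ring
  · ext y a
    simp only [Matrix.mul_diagonal, Matrix.add_apply, Matrix.smul_apply, smul_eq_mul]
    ring

theorem ls_match (R : Y → Prop) [DecidablePred R] (ρ : Y → A)
    (h : ∀ y y', R y → R y' → ρ y = ρ y' → y = y') :
    LS 3 (Matrix.of fun y a => if R y ∧ a = ρ y then (1 : ℂ) else 0) := fun t => by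
  classical
  have := lay_rel (X := A ⊕ Y) (fun p q => ∃ y, R y ∧ p = .inr y ∧ q = .inl (ρ y))
    (by rintro _ _ _ ⟨y, -, rfl, rfl⟩ ⟨y', -, h1, rfl⟩; rw [Sum.inr.inj h1])
    (by rintro _ _ _ ⟨y, hy, rfl, rfl⟩ ⟨y', hy', rfl, h1⟩; rw [h y y' hy hy' (Sum.inl.inj h1)])
    (by rintro _ _ _ ⟨y, -, rfl, rfl⟩ ⟨y', -, h1, -⟩; simp at h1) t
  convert this using 1
  ext (a | a) (b | b) <;> simp [Matrix.one_apply]

theorem lay_upper (K : Y → Prop) [DecidablePred K] (κ : Y → A)
    (h : ∀ y y', K y → K y' → κ y = κ y' → y = y') (t : ℂ) :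
    Lay 3 (fromBlocks 1 (t • Matrix.of fun a y => if K y ∧ a = κ y then (1 : ℂ) else 0) 0 1) := by
  classical
  have := lay_rel (X := A ⊕ Y) (fun p q => ∃ y, K y ∧ q = .inr y ∧ p = .inl (κ y))
    (by rintro _ _ _ ⟨y, hy, rfl, rfl⟩ ⟨y', hy', rfl, h1⟩; rw [h y y' hy hy' (Sum.inl.inj h1)])
    (by rintro _ _ _ ⟨y, -, rfl, rfl⟩ ⟨y', -, h1, rfl⟩; rw [Sum.inr.inj h1])
    (by rintro _ _ _ ⟨y, -, rfl, rfl⟩ ⟨y', -, -, h1⟩; simp at h1) t
  convert this using 1
  ext (a | a) (b | b) <;> simp [Matrix.one_apply]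

theorem LS.comm {d e : ℕ} {P : Matrix Y A ℂ} (h : LS d P) {I : Matrix A Y ℂ}
    (hI : ∀ t : ℂ, Lay e (fromBlocks 1 (t • I) 0 1)) (hIP : I * P = 0) :
    Lay (2 * d + 2 * e) (fromBlocks (1 : Matrix A A ℂ) 0 0 (1 + P * I)) := by
  convert LayP.mul (LayP.mul (LayP.mul (h 1) (hI 1)) (h (-1))) (hI (-1)) using 1
  · ring
  · simp [Matrix.fromBlocks_multiply, hIP, Matrix.add_mul, Matrix.mul_assoc, add_comm]

theorem lay_of_scratch (e : A → X) (he : Function.Injective e) {E : Matrix X X ℂ}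
    (h1 : ∀ a x, E (e a) x = 0) (h2 : ∀ a x, E x (e a) = 0) {d : ℕ}
    (h : Lay d (fromBlocks (1 : Matrix A A ℂ) 0 0
      (1 + E.submatrix (fun y : {x // x ∉ Set.range e} => y.1) fun y => y.1))) :
    Lay d (1 + E) := by
  classical
  let ε : A ⊕ {x // x ∉ Set.range e} ≃ X :=
    (Equiv.sumCongr (Equiv.ofInjective e he) (Equiv.refl _)).trans
      (Equiv.sumCompl (· ∈ Set.range e))
  have e1 : ∀ a, ε (.inl a) = e a := fun _ => rfl
  have e2 : ∀ y, ε (.inr y) = y.1 := fun _ => rfl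
  convert h.submatrix ε.symm using 1
  ext x x'
  obtain ⟨x, rfl⟩ := ε.surjective x
  obtain ⟨x', rfl⟩ := ε.surjective x'
  rw [Matrix.submatrix_apply, Equiv.symm_apply_apply, Equiv.symm_apply_apply, Matrix.add_apply,
    Matrix.one_apply]
  simp only [ε.injective.eq_iff]
  rcases x with a | y <;> rcases x' with a' | y' <;> simp [e1, e2, h1, h2, Matrix.one_apply]

end shear

end Crest.Agent.H8DF
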