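import Crest.Agent.H8.DftH

set_option autoImplicit false

namespace Crest.Agent.H8DF

open Crest.FourierCircuit Finset Matrix

/-- The Fourier matrix of a root of unity. -/
noncomputable def dft (ω : ℂ) (n : ℕ) : Matrix (Fin n) (Fin n) ℂ := fun j k => ω ^ (j.val * k.val)

theorem lay_had {A : Type} [Fintype A] [DecidableEq A] :
    Lay 1 (fromBlocks (1 : Matrix A A ℂ) (1 : Matrix A A ℂ) (1 : Matrix A A ℂ) (-1)) := by
  have := (LayP.diag (Sum.elim (fun _ : A => 1 - Complex.I) fun _ : A => 1 + Complex.I)).mul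
    ((LayP.of (P := IsJ) ⟨Sum.swap, Sum.swap_swap, rfl⟩).mul
      (LayP.diag (Sum.elim (fun _ : A => 1) fun _ : A => Complex.I)))
  convert this using 1
  ext (a | a) (b | b) <;> by_cases h : a = b <;>
    simp [Jm, mono, h, Ne.symm, ca, cb, Complex.ext_iff] <;> norm_num

theorem lay_fft_step {M d : ℕ} {ω : ℂ} (hω : ω ^ M = -1) (h : Lay d (dft (ω ^ 2) M)) :
    Lay (d + 1) (dft ω (M + M)) := by
  have h1 := (h.blocks h).mul ((LayP.diag (Sum.elim (fun _ : Fin M => 1)
    fun k : Fin M => ω ^ k.val)).mul (lay_had (A := Fin M)))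
  let row : Fin (M + M) → Fin M ⊕ Fin M := fun j =>
    if j.val % 2 = 0 then .inl ⟨j / 2, by omega⟩ else .inr ⟨j / 2, by omega⟩
  have h2 := (Lay.submatrix h1 finSumFinEquiv.symm).rows (finSumFinEquiv ∘ row)
  convert h2 using 1
  ext j k
  obtain ⟨k, rfl⟩ := finSumFinEquiv.surjective k
  rw [← Matrix.fromBlocks_diagonal]
  simp only [Matrix.submatrix_apply, Function.comp_apply, Equiv.symm_apply_apply, id,
    Matrix.fromBlocks_multiply, row]
  have e2 : ∀ a : ℕ, ω ^ (2 * a * M) = 1 := fun a => by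
    rw [mul_comm, pow_mul, hω, pow_mul]; simp
  split_ifs with hj
  · obtain ⟨a, ha⟩ : ∃ a, j.val = 2 * a := ⟨j / 2, by omega⟩
    have ha' : j.val / 2 = a := by omega
    rcases k with k | k
    · simp [dft, ← pow_mul, ha, mul_assoc]
    · simp [dft, ← pow_mul, ha, mul_add, pow_add, e2, mul_assoc 2 a k]
  · obtain ⟨a, ha⟩ : ∃ a, j.val = 2 * a + 1 := ⟨j / 2, by omega⟩
    have ha' : j.val / 2 = a := by omega
    rcases k with k | k
    · simp only [dft, finSumFinEquiv_apply_left, Fin.val_castAdd]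
      simp [dft, ha', ← pow_mul]
      rw [ha, ← pow_add]; congr 1; ring
    · simp only [dft, finSumFinEquiv_apply_right, Fin.val_natAdd]
      simp [dft, ha', ← pow_mul]
      rw [ha, show (2 * a + 1) * (M + k.val) = 2 * a * M + M + (2 * (a * k.val) + k.val) by ring,
        pow_add, pow_add, e2, hω, pow_add]
      ring

theorem lay_fft (j : ℕ) : ∀ ω : ℂ, IsPrimitiveRoot ω (2 ^ j) → Lay j (dft ω (2 ^ j)) := by
  induction j with
  | zero =>
    intro ω _
    convert (LayP.one : Lay 0 (1 : Matrix (Fin (2 ^ 0)) _ ℂ)) using 1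
    ext a b
    obtain rfl : a = b := Fin.ext (by omega)
    simp [dft]
  | succ j ih =>
    intro ω hω
    have h1 : ω ^ 2 ^ j = -1 := (hω.pow (by positivity) (pow_succ 2 j)).eq_neg_one_of_two_right
    have h2 := ih _ (hω.pow (by positivity) (pow_succ' 2 j))
    rw [pow_succ, mul_two]
    exact lay_fft_step h1 h2

theorem sum_root {M : ℕ} {ω : ℂ} (hω : IsPrimitiveRoot ω M) (δ : ℤ) :
    ∑ u : Fin M, (ω ^ δ) ^ u.val = if (M : ℤ) ∣ δ then (M : ℂ) else 0 := by
  split_ifs with h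
  · simp [(hω.zpow_eq_one_iff_dvd δ).2 h]
  · have h1 : ω ^ δ ≠ 1 := fun e => h ((hω.zpow_eq_one_iff_dvd δ).1 e)
    rw [Fin.sum_univ_eq_sum_range (fun u => (ω ^ δ) ^ u), geom_sum_eq h1, ← zpow_natCast,
      ← _root_.zpow_mul, mul_comm, _root_.zpow_mul, zpow_natCast, hω.pow_eq_one]
    simp

theorem dft_inv {M : ℕ} (hM : M ≠ 0) {ω : ℂ} (hω : IsPrimitiveRoot ω M) :
    (diagonal (fun _ => (M : ℂ)⁻¹) * dft ω⁻¹ M) * dft ω M = 1 := by
  ext a b
  have h0 := hω.ne_zero hM
  have : ∀ u : Fin M, dft ω⁻¹ M a u * dft ω M u b = (ω ^ ((b : ℤ) - a)) ^ u.val := fun u => by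
    rw [dft, dft, zpow_sub₀ h0, div_pow, zpow_natCast, zpow_natCast, ← pow_mul, ← pow_mul, inv_pow,
      mul_comm b.val, div_eq_inv_mul]
  rw [Matrix.mul_assoc, Matrix.diagonal_mul, Matrix.mul_apply, Finset.sum_congr rfl fun u _ => this u,
    sum_root hω, Matrix.one_apply]
  by_cases h : a = b
  · simp [h, hM]
  · rw [if_neg h, if_neg, mul_zero]
    intro hd
    have := Int.eq_zero_of_abs_lt_dvd hd (by rw [abs_lt]; constructor <;> omega)
    exact h (Fin.ext (by omega))

/-- Reduction modulo `M`. -/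
def md {M : ℕ} (hM : M ≠ 0) (p : ℕ) : Fin M := ⟨p % M, Nat.mod_lt _ (Nat.pos_of_ne_zero hM)⟩

theorem md_inj {M : ℕ} (hM : M ≠ 0) {p q : ℕ} (h : md hM p = md hM q) (h1 : p < q + M)
    (h2 : q < p + M) : p = q := by
  have h3 : p % M = q % M := congrArg Fin.val h
  have h4 : (M : ℤ) ∣ (q : ℤ) - p := Nat.modEq_iff_dvd.1 h3
  have := Int.eq_zero_of_abs_lt_dvd h4 (by rw [abs_lt]; constructor <;> omega)
  omega

theorem exists_toep {M : ℕ} (hM : M ≠ 0) {ω : ℂ} (hω : IsPrimitiveRoot ω M) (g : ℤ → ℂ) (d : ℤ) :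
    ∃ Λ : Fin M → ℂ, ∀ p q : ℕ, d ≤ (p : ℤ) - q → (p : ℤ) - q < d + M →
      (dft ω M * diagonal Λ * dft ω⁻¹ M) (md hM p) (md hM q) = g (p - q) := by
  have h0 := hω.ne_zero hM
  refine ⟨fun u => (M : ℂ)⁻¹ * ∑ e : Fin M, g (d + e) * (ω ^ (-(d + e))) ^ u.val,
    fun p q h1 h2 => ?_⟩
  have e1 : ∀ u : Fin M, dft ω M (md hM p) u = (ω ^ (p : ℤ)) ^ u.val := fun u => by
    rw [dft, md, pow_mul, ← pow_eq_pow_mod _ hω.pow_eq_one, zpow_natCast]
  have e2 : ∀ u : Fin M, dft ω⁻¹ M u (md hM q) = (ω ^ (-q : ℤ)) ^ u.val := fun u => by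
    rw [dft, md, mul_comm, pow_mul, ← pow_eq_pow_mod _ hω.inv.pow_eq_one, _root_.zpow_neg,
      zpow_natCast, inv_pow ω q]
  have e3 : ∀ u e : Fin M, (ω ^ (p : ℤ)) ^ u.val * ((M : ℂ)⁻¹ *
      (g (d + e) * (ω ^ (-(d + e))) ^ u.val)) * (ω ^ (-q : ℤ)) ^ u.val =
      (M : ℂ)⁻¹ * g (d + e) * (ω ^ ((p : ℤ) - q - d - e)) ^ u.val := fun u e => by
    rw [show (p : ℤ) - q - d - e = p + -(d + e) + -q by ring, zpow_add₀ h0, zpow_add₀ h0, mul_pow,
      mul_pow]
    ring
  simp only [Matrix.mul_apply (M := dft ω M * _), Matrix.mul_diagonal, e1, e2, Finset.mul_sum,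
    Finset.sum_mul, e3]
  rw [Finset.sum_comm]
  simp only [← Finset.mul_sum, sum_root hω]
  obtain ⟨e, he⟩ : ∃ e : Fin M, (e : ℤ) = p - q - d :=
    ⟨⟨(p - q - d).toNat, by omega⟩, by simp only; omega⟩
  rw [Finset.sum_eq_single e]
  · rw [if_pos (by simp [he]), he]
    field_simp
    congr 1
    ring
  · intro b _ hb
    rw [if_neg, mul_zero]
    intro hd
    have := Int.eq_zero_of_abs_lt_dvd hd (by rw [abs_lt]; constructor <;> omega)
    exact hb (Fin.ext (by omega))
  · simp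

section toep

variable {X : Type} [Fintype X] [DecidableEq X]

omit [DecidableEq X] in
theorem card_block (pos : X → ℕ) (hpos : Function.Injective pos) (R : X → Prop) [DecidablePred R]
    (L a : ℕ) (h : ∀ x, R x → pos x / L = a) (hL : 0 < L) : (univ.filter R).card ≤ L := by
  have : (univ.filter R).card ≤ (Finset.range L).card :=
    Finset.card_le_card_of_injOn (fun x => pos x % L)
      (fun x _ => by simpa using Nat.mod_lt _ hL) fun x hx y hy hxy => hpos (by
        have h1 := h x (by simpa using hx)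
        have h2 := h y (by simpa using hy)
        rw [← Nat.div_add_mod (pos x) L, ← Nat.div_add_mod (pos y) L, h1, h2]
        exact congrArg _ hxy)
  simpa using this

theorem div_bounds {L a p : ℕ} (hL : 0 < L) (h : p / L = a) : L * a ≤ p ∧ p < L * a + L := by
  have := Nat.div_add_mod p L
  have := Nat.mod_lt p hL
  subst h
  omega

theorem lay_block (pos : X → ℕ) (hpos : Function.Injective pos) (R K : X → Prop) [DecidablePred R]
    [DecidablePred K] (hRK : ∀ x, R x → ¬K x) (I : Finset ℕ) {L a b c j : ℕ} (hL : 0 < L)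
    (hR : ∀ x, R x → pos x / L = a) (hK : ∀ x, K x → pos x / L = b) (hI : ∀ l ∈ I, l / L = c)
    (h1 : 2 * L ≤ 2 ^ j) (h2 : 2 ^ j + 2 * L ≤ Fintype.card X) (g₁ g₂ : ℤ → ℂ) :
    Lay (60 * (j + 1)) (1 + Matrix.of fun x y => if R x ∧ K y then
      ∑ l ∈ I, g₁ ((pos x : ℤ) - l) * g₂ ((l : ℤ) - pos y) else 0) := by
  classical
  have hM : 2 ^ j ≠ 0 := by positivity
  obtain ⟨e⟩ : Nonempty (Fin (2 ^ j) ↪ {x // ¬(R x ∨ K x)}) := by
    refine Function.Embedding.nonempty_of_card_le ?_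
    have c1 := card_block pos hpos R L a hR hL
    have c2 := card_block pos hpos K L b hK hL
    have c3 : (univ.filter fun x => R x ∨ K x).card ≤ 2 * L := by
      rw [Finset.filter_or]
      exact (Finset.card_union_le _ _).trans (by omega)
    rw [Fintype.card_fin, Fintype.card_subtype_compl, Fintype.card_subtype]
    omega
  have hω := Complex.isPrimitiveRoot_exp (2 ^ j) hM
  generalize Complex.exp _ = ω at hω
  obtain ⟨Λ₁, hΛ₁⟩ := exists_toep hM hω g₁ ((L * a : ℕ) - (L * c : ℕ) - L)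
  obtain ⟨Λ₂, hΛ₂⟩ := exists_toep hM hω g₂ ((L * c : ℕ) - (L * b : ℕ) - L)
  have f1 := lay_fft j ω hω
  have f2 := lay_fft j ω⁻¹ hω.inv
  have i1 := dft_inv hM hω
  have i2 := dft_inv hM hω.inv
  rw [inv_inv] at i2
  have g1 : Lay j (diagonal (fun _ => ((2 ^ j : ℕ) : ℂ)⁻¹) * dft ω⁻¹ (2 ^ j)) := by
    simpa using (LayP.diag _).mul f2
  have g2 : Lay j (diagonal (fun _ => ((2 ^ j : ℕ) : ℂ)⁻¹) * dft ω (2 ^ j)) := by
    simpa using (LayP.diag _).mul f1
  have he : Function.Injective fun a => (e a).1 := Subtype.val_injective.comp e.injective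
  have inj : ∀ (S : X → Prop) (s : ℕ), (∀ x, S x → pos x / L = s) →
      ∀ y y' : {x // x ∉ Set.range fun a => (e a).1}, S y.1 → S y'.1 →
        md hM (pos y.1) = md hM (pos y'.1) → y = y' := fun S s hS y y' hy hy' h => by
    have a1 := div_bounds hL (hS _ hy)
    have a2 := div_bounds hL (hS _ hy')
    exact Subtype.ext (hpos (md_inj hM h (by omega) (by omega)))
  have l1 := (((((((ls_match (fun y : {x // x ∉ Set.range fun a => (e a).1} => R y.1)
    (fun y => md hM (pos y.1)) (inj R a hR)).mul_unit f1 g1 i1).mul_diag Λ₁).mul_unit f2 g2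
    i2).mul_diag fun u => if u ∈ I.image (md hM) then 1 else 0).mul_unit f1 g1 i1).mul_diag
    Λ₂).mul_unit f2 g2 i2
  have l2 := l1.comm (lay_upper (fun y : {x // x ∉ Set.range fun a => (e a).1} => K y.1)
    (fun y => md hM (pos y.1)) (inj K b hK)) (by
      simp only [← Matrix.mul_assoc]
      suffices h : (Matrix.of fun (a : Fin (2 ^ j)) (y : {x // x ∉ Set.range fun a => (e a).1}) =>
          if K y.1 ∧ a = md hM (pos y.1) then (1 : ℂ) else 0) *
          (Matrix.of fun (y : {x // x ∉ Set.range fun a => (e a).1}) (a : Fin (2 ^ j)) =>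
          if R y.1 ∧ a = md hM (pos y.1) then (1 : ℂ) else 0) = 0 by
        rw [h]; simp
      ext u v
      rw [Matrix.mul_apply]
      refine Finset.sum_eq_zero fun y _ => ?_
      by_cases hy : R y.1 <;> simp [hy, hRK y.1])
  refine Lay.le (lay_of_scratch _ he (fun a x => ?_) (fun a x => ?_) ?_) (le_of_eq rfl)
  · have := (e a).2
    simp only [not_or] at this
    simp [this.1]
  · have := (e a).2
    simp only [not_or] at this
    simp [this.2]
  · refine Lay.le (d := _) ?_ (show 2 * (2 * (2 * (2 * (3 + 2 * j) + 2 * j) + 2 * j) + 2 * j) +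
      2 * 3 ≤ _ by omega)
    convert l2 using 3
    ext y y'
    have assoc : ∀ (P : Matrix {x // x ∉ Set.range fun a => (e a).1} (Fin (2 ^ j)) ℂ)
        (A B C D E F G : Matrix (Fin (2 ^ j)) (Fin (2 ^ j)) ℂ),
        P * A * B * C * D * E * F * G = P * (A * B * C * D * (E * F * G)) := by
      intros; simp only [Matrix.mul_assoc]
    rw [assoc, Matrix.mul_apply]
    simp only [Matrix.submatrix_apply, Matrix.of_apply]
    by_cases hy' : K y'.1
    · by_cases hy : R y.1
      · simp only [hy, hy', true_and, if_true, mul_ite, mul_one, mul_zero, Finset.sum_ite_eq',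
          Finset.mem_univ]
        rw [Matrix.mul_apply]
        simp only [Matrix.of_apply, hy, true_and, ite_mul, one_mul, zero_mul, Finset.sum_ite_eq',
          Finset.mem_univ, if_true]
        rw [Matrix.mul_apply]
        simp only [Matrix.mul_diagonal, mul_ite, mul_one, mul_zero, ite_mul, zero_mul]
        rw [Finset.sum_ite_mem, Finset.univ_inter, Finset.sum_image]
        · refine Finset.sum_congr rfl fun l hl => ?_
          have a1 := div_bounds hL (hR _ hy)
          have a2 := div_bounds hL (hK _ hy')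
          have a3 := div_bounds hL (hI _ hl)
          have a4 : ((2 ^ j : ℕ) : ℤ) ≥ 2 * L := by exact_mod_cast h1
          rw [hΛ₁ _ _ (by omega) (by omega), hΛ₂ _ _ (by omega) (by omega)]
        · intro l hl l' hl' h
          have a1 := div_bounds hL (hI _ hl)
          have a2 := div_bounds hL (hI _ hl')
          exact md_inj hM h (by omega) (by omega)
      · simp [hy, Matrix.mul_apply (M := Matrix.of _)]
    · simp [hy']

theorem lay_toep (pos : X → ℕ) (hpos : Function.Injective pos)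
    (hlt : ∀ x, pos x < Fintype.card X) (R : X → Prop) [DecidablePred R] (I : Finset ℕ)
    (hI : ∀ l ∈ I, l < Fintype.card X) {j : ℕ} (hj : Fintype.card X ≤ 2 ^ j) (g₁ g₂ : ℤ → ℂ) :
    Lay (20580 * (j + 1)) (1 + Matrix.of fun x y => if R x ∧ ¬R y then
      ∑ l ∈ I, g₁ ((pos x : ℤ) - l) * g₂ ((l : ℤ) - pos y) else 0) := by
  classical
  by_cases hp : Fintype.card X < 42
  · refine Lay.le (lay_nil (R := R) fun x y h => ?_) (by nlinarith)
    by_contra hh
    exact h (by rw [Matrix.of_apply, if_neg hh])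
  obtain ⟨L, hL⟩ : ∃ L, L = Fintype.card X / 6 := ⟨_, rfl⟩
  have hL0 : 0 < L := by omega
  have h1 : 2 * L ≤ 2 ^ Nat.clog 2 (2 * L) := Nat.le_pow_clog (by norm_num) _
  have h2 : 2 ^ Nat.clog 2 (2 * L) ≤ 4 * L := by
    have a1 := Nat.pow_pred_clog_lt_self (b := 2) (by norm_num) (x := 2 * L) (by omega)
    have a2 := Nat.clog_pos (b := 2) (n := 2 * L) (by norm_num) (by omega)
    obtain ⟨i, hi⟩ : ∃ i, Nat.clog 2 (2 * L) = i + 1 := ⟨_, (Nat.succ_pred_eq_of_pos a2).symm⟩
    rw [hi] at a1 ⊢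
    rw [Nat.pred_succ] at a1
    rw [pow_succ]; omega
  have h3 : Nat.clog 2 (2 * L) ≤ j := Nat.clog_le_of_le_pow (by omega)
  have h7 : ∀ p, p < Fintype.card X → p / L < 7 := fun p hp' =>
    (Nat.div_lt_iff_lt_mul hL0).2 (by omega)
  have := lay_sum (univ : Finset (Fin 7 × Fin 7 × Fin 7)) R
    (fun t => Matrix.of fun x y => if (R x ∧ pos x / L = t.1) ∧ (¬R y ∧ pos y / L = t.2.1) then
      ∑ l ∈ I.filter (fun l => l / L = t.2.2), g₁ ((pos x : ℤ) - l) * g₂ ((l : ℤ) - pos y) else 0)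
    (fun t x y h => by
      by_contra hh
      exact h (by rw [Matrix.of_apply, if_neg fun h' => hh ⟨h'.1.1, h'.2.1⟩]))
    fun t => lay_block pos hpos (fun x => R x ∧ pos x / L = t.1) (fun y => ¬R y ∧ pos y / L = t.2.1)
      (fun x h h' => h'.1 h.1) _ hL0 (fun x h => h.2) (fun x h => h.2)
      (fun l h => (Finset.mem_filter.1 h).2) h1 (by omega) g₁ g₂
  refine Lay.le (d := _) ?_ (show (univ : Finset (Fin 7 × Fin 7 × Fin 7)).card *
    (60 * (Nat.clog 2 (2 * L) + 1)) ≤ _ by simp; omega)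
  convert this using 2
  ext x y
  simp only [Matrix.sum_apply, Matrix.of_apply, Fintype.sum_prod_type]
  by_cases h : R x ∧ ¬R y
  · rw [if_pos h, Finset.sum_eq_single (⟨pos x / L, h7 _ (hlt x)⟩ : Fin 7),
      Finset.sum_eq_single (⟨pos y / L, h7 _ (hlt y)⟩ : Fin 7)]
    · simp only [h.1, h.2, not_false_eq_true, and_self, if_true]
      rw [← Finset.sum_fiberwise_of_maps_to (s := I) (t := univ)
        (g := fun l => (⟨l / L % 7, Nat.mod_lt _ (by norm_num)⟩ : Fin 7))
        (fun _ _ => Finset.mem_univ _)]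
      refine Finset.sum_congr rfl fun c _ => Finset.sum_congr ?_ fun _ _ => rfl
      refine Finset.filter_congr fun l hl => ?_
      rw [Fin.ext_iff]
      simp only [Nat.mod_eq_of_lt (h7 l (hI l hl))]
    · intro b _ hb
      refine Finset.sum_eq_zero fun c _ => if_neg fun h' => hb (Fin.ext h'.2.2.symm)
    · simp
    · intro a _ ha
      refine Finset.sum_eq_zero fun b _ => Finset.sum_eq_zero fun c _ =>
        if_neg fun h' => ha (Fin.ext h'.1.2.symm)
    · simp
  · rw [if_neg h]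
    exact (Finset.sum_eq_zero fun a _ => Finset.sum_eq_zero fun b _ => Finset.sum_eq_zero
      fun c _ => if_neg fun h' => h ⟨h'.1.1, h'.2.1⟩).symm

end toep

end Crest.Agent.H8DF
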