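import Crest.Agent.H8.DftI

set_option autoImplicit false

namespace Crest.Agent.H8DF

open Crest.FourierCircuit Finset Matrix
open scoped Kronecker

/-- Lower triangular Toeplitz matrix. -/
def tp (t : ℕ → ℂ) (n : ℕ) : Matrix (Fin n) (Fin n) ℂ :=
  fun j k => if k.val ≤ j.val then t (j.val - k.val) else 0

theorem tp_mul (s t : ℕ → ℂ) (n : ℕ) :
    tp s n * tp t n = tp (fun d => ∑ p ∈ antidiagonal d, s p.1 * t p.2) n := by
  ext j k
  simp only [Matrix.mul_apply, tp, ite_mul, mul_ite, zero_mul, mul_zero]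
  split_ifs with h
  · rw [← Finset.sum_filter, ← Finset.sum_filter, Finset.filter_filter]
    refine Finset.sum_bij' (fun l _ => (j.val - l.val, l.val - k.val))
      (fun p hp => ⟨k.val + p.2, by
        have := Finset.HasAntidiagonal.mem_antidiagonal.1 hp
        omega⟩) ?_ ?_ ?_ ?_ ?_
    · intro l hl
      simp only [Finset.mem_filter, Finset.mem_univ, true_and] at hl
      simp only [Finset.HasAntidiagonal.mem_antidiagonal]
      omega
    · intro p hp
      have := Finset.HasAntidiagonal.mem_antidiagonal.1 hp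
      simp only [Finset.mem_filter, Finset.mem_univ, true_and]
      omega
    · intro l hl
      simp only [Finset.mem_filter, Finset.mem_univ, true_and] at hl
      exact Fin.ext (by simp only; omega)
    · intro p hp
      have := Finset.HasAntidiagonal.mem_antidiagonal.1 hp
      exact Prod.ext (by simp only; omega) (by simp only; omega)
    · intro l hl
      rfl
  · refine Finset.sum_eq_zero fun l _ => ?_
    split_ifs with h1 h2
    · omega
    · rfl
    · rfl

theorem exists_tp_inv (t : ℕ → ℂ) (ht : t 0 ≠ 0) : ∃ s : ℕ → ℂ, ∀ n, tp s n * tp t n = 1 := by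
  refine ⟨fun d => PowerSeries.coeff d (PowerSeries.mk t)⁻¹, fun n => ?_⟩
  have h := PowerSeries.inv_mul_cancel (PowerSeries.mk t) (by simpa using ht)
  rw [tp_mul]
  ext j k
  have h1 := congrArg (PowerSeries.coeff (j.val - k.val)) h
  rw [PowerSeries.coeff_mul, PowerSeries.coeff_one] at h1
  simp only [PowerSeries.coeff_mk] at h1
  rw [tp, h1, Matrix.one_apply]
  by_cases hjk : j = k
  · simp [hjk]
  · have : j.val ≠ k.val := fun e => hjk (Fin.ext e)
    rw [if_neg hjk]
    split_ifs
    · omega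
    · rfl
    · rfl

theorem lay_tp (t : ℕ → ℂ) (ht : t 0 ≠ 0) (j : ℕ) :
    ∀ n ≤ 2 ^ j, Lay (20580 * (j + 1) ^ 2) (tp t n) := by
  obtain ⟨s, hs⟩ := exists_tp_inv t ht
  induction j with
  | zero =>
    intro n hn
    refine Lay.le (d := 0) ?_ (Nat.zero_le _)
    convert LayP.diag (fun _ : Fin n => t 0) using 1
    ext a b
    obtain rfl : a = b := Fin.ext (by omega)
    simp [tp]
  | succ j ih =>
    intro n hn
    obtain ⟨h, h', rfl, a1, a2⟩ : ∃ h h', n = h + h' ∧ h ≤ 2 ^ j ∧ h' ≤ 2 ^ j :=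
      ⟨n / 2, n - n / 2, by omega, by omega, by omega⟩
    have l1 := lay_toep (X := Fin h ⊕ Fin h') (fun x => (finSumFinEquiv x).val)
      (Fin.val_injective.comp finSumFinEquiv.injective) (fun x => by simp)
      (fun x => x.isRight = true) (Finset.range h) (fun l hl => by simp at hl ⊢; omega)
      (j := j + 1) (by simpa using hn) (fun d => t d.toNat)
      (fun d => if 0 ≤ d then s d.toNat else 0)
    let B : Matrix (Fin h') (Fin h) ℂ := fun r l => t (h + r.val - l.val)
    have l2 : Lay (20580 * (j + 1 + 1)) (fromBlocks 1 0 (B * tp s h) 1) := by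
      convert l1 using 1
      ext (a | a) (b | b)
      · simp [Matrix.one_apply]
      · simp
      · simp only [fromBlocks_apply₂₁, Matrix.add_apply, Matrix.of_apply, Matrix.mul_apply]
        rw [Matrix.one_apply_ne (by simp), zero_add, if_pos (by simp), Finset.sum_range]
        refine Finset.sum_congr rfl fun l _ => ?_
        simp only [B, tp, finSumFinEquiv_apply_right, finSumFinEquiv_apply_left, Fin.val_natAdd,
          Fin.val_castAdd, sub_nonneg, Nat.cast_le, Int.toNat_sub]
      · simp [Matrix.one_apply]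
    have l3 := (LayP.mul l2 ((ih h a1).blocks (ih h' a2))).submatrix finSumFinEquiv.symm
      (fun _ hG => IsJ.submatrix hG _)
    refine Lay.le (d := _) ?_
      (show 20580 * (j + 1 + 1) + 20580 * (j + 1) ^ 2 ≤ _ by nlinarith)
    convert l3 using 1
    ext a b
    obtain ⟨a, rfl⟩ := finSumFinEquiv.surjective a
    obtain ⟨b, rfl⟩ := finSumFinEquiv.surjective b
    simp only [Matrix.submatrix_apply, Equiv.symm_apply_apply, Matrix.fromBlocks_multiply,
      Matrix.mul_assoc, hs, Matrix.mul_one, Matrix.one_mul, Matrix.mul_zero, Matrix.zero_mul,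
      add_zero, zero_add]
    rcases a with a | a <;> rcases b with b | b
    · simp [tp]
    · simp only [tp, finSumFinEquiv_apply_right, finSumFinEquiv_apply_left, Fin.val_natAdd,
        Fin.val_castAdd, fromBlocks_apply₁₂, Matrix.zero_apply]
      rw [if_neg (by omega)]
    · simp only [tp, finSumFinEquiv_apply_right, finSumFinEquiv_apply_left, Fin.val_natAdd,
        Fin.val_castAdd, fromBlocks_apply₂₁, B]
      rw [if_pos (by omega)]
    · simp [tp, Nat.add_sub_add_left]

/-- Gaussian binomial coefficients. -/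
def gb (q : ℂ) : ℕ → ℕ → ℂ
  | _, 0 => 1
  | 0, _ + 1 => 0
  | k + 1, l + 1 => gb q k l + q ^ (l + 1) * gb q k (l + 1)

theorem gb_of_lt (q : ℂ) : ∀ k l, k < l → gb q k l = 0
  | _, 0, h => by omega
  | 0, _ + 1, _ => rfl
  | k + 1, l + 1, h => by
    rw [gb, gb_of_lt q k l (by omega), gb_of_lt q k (l + 1) (by omega)]; ring

theorem newton (q x : ℂ) (k : ℕ) :
    x ^ k = ∑ l ∈ range (k + 1), gb q k l * ∏ i ∈ range l, (x - q ^ i) := by
  induction k with
  | zero => simp [gb]
  | succ k ih =>
    rw [Finset.sum_range_succ', pow_succ, ih, Finset.sum_mul]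
    have h1 : ∀ l, gb q k l * (∏ i ∈ range l, (x - q ^ i)) * x =
        gb q k l * ∏ i ∈ range (l + 1), (x - q ^ i) +
          q ^ l * gb q k l * ∏ i ∈ range l, (x - q ^ i) := fun l => by
      rw [Finset.prod_range_succ]; ring
    simp only [h1, gb, add_mul, Finset.sum_add_distrib, add_assoc]
    congr 1
    have h2 := Finset.sum_range_succ (fun l => q ^ l * gb q k l * ∏ i ∈ range l, (x - q ^ i)) (k + 1)
    rw [gb_of_lt q k (k + 1) (by omega), Finset.sum_range_succ'] at h2
    simpa [gb] using h2.symm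

/-- The `q`-factorial, up to a power of `q - 1`. -/
noncomputable def qf (q : ℂ) (n : ℕ) : ℂ := ∏ i ∈ range n, (q ^ (i + 1) - 1)

theorem gb_mul (q : ℂ) : ∀ k l, l ≤ k → gb q k l * qf q l * qf q (k - l) = qf q k
  | k, 0, _ => by simp [gb, qf]
  | 0, _ + 1, h => by omega
  | k + 1, l + 1, h => by
    have h1 := gb_mul q k l (by omega)
    rw [gb, Nat.add_sub_add_right]
    rcases Nat.eq_or_lt_of_le (Nat.le_of_succ_le_succ h) with rfl | h2
    · rw [gb_of_lt q l (l + 1) (by omega)]
      simp only [qf, Finset.prod_range_succ] at h1 ⊢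
      linear_combination (q ^ (l + 1) - 1) * h1
    · have h3 := gb_mul q k (l + 1) h2
      obtain ⟨d, rfl⟩ := Nat.exists_eq_add_of_lt h2
      rw [show l + d + 1 - l = d + 1 by omega] at h1 ⊢
      rw [show l + d + 1 - (l + 1) = d by omega] at h3
      simp only [qf, Finset.prod_range_succ] at h1 h3 ⊢
      linear_combination (q ^ (l + 1) - 1) * h1 + q ^ (l + 1) * (q ^ (d + 1) - 1) * h3

theorem prod_newton (q : ℂ) (d : ℕ) : ∀ l, (∏ i ∈ range l, (q ^ (l + d) - q ^ i)) * qf q d =
    (∏ i ∈ range l, q ^ i) * qf q (l + d) := by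
  intro l
  induction l generalizing d with
  | zero => simp
  | succ l ih =>
    have := ih (d + 1)
    rw [Finset.prod_range_succ, Finset.prod_range_succ, show l + 1 + d = l + (d + 1) by omega]
    rw [qf, Finset.prod_range_succ, ← qf] at this
    linear_combination q ^ l * this

theorem dft_ldl {n : ℕ} {q : ℂ} (hq : IsPrimitiveRoot q n) :
    dft q n = diagonal (fun j : Fin n => qf q j) * tp (fun d => (qf q d)⁻¹) n *
      diagonal (fun l : Fin n => (∏ i ∈ range l, q ^ i) / qf q l) *
      (tp (fun d => (qf q d)⁻¹) n).submatrix Fin.revPerm Fin.revPerm *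
      diagonal (fun j : Fin n => qf q j) := by
  have h0 : ∀ d < n, qf q d ≠ 0 := fun d hd => Finset.prod_ne_zero_iff.2 fun i hi =>
    sub_ne_zero.2 (hq.pow_ne_one_of_pos_of_lt (by omega) (by simp at hi; omega))
  ext j k
  rw [Matrix.mul_diagonal, Matrix.mul_apply, Finset.sum_mul, dft, pow_mul, newton q,
    Finset.sum_subset (s₂ := range n) (fun x hx => by simp at hx ⊢; omega)
      (fun x _ hx => by rw [gb_of_lt q k x (by simpa using hx), zero_mul]), Finset.sum_range]
  refine Finset.sum_congr rfl fun l _ => ?_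
  simp only [Matrix.mul_diagonal, Matrix.diagonal_mul, Matrix.submatrix_apply, tp,
    Fin.revPerm_apply, Fin.val_rev]
  by_cases h1 : l.val ≤ k.val
  · rw [if_pos (show n - (k.val + 1) ≤ n - (l.val + 1) by omega),
      show n - (l.val + 1) - (n - (k.val + 1)) = k.val - l.val by omega, ← gb_mul q k l h1]
    by_cases h2 : l.val ≤ j.val
    · obtain ⟨d, hd⟩ := Nat.exists_eq_add_of_le h2
      have := prod_newton q d l
      have a1 := h0 d (by omega)
      have a2 := h0 l l.2
      have a3 := h0 (k.val - l.val) (by omega)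
      rw [if_pos h2, hd, Nat.add_sub_cancel_left]
      field_simp
      linear_combination gb q k l * this
    · rw [if_neg h2, Finset.prod_eq_zero (i := j.val) (by simp; omega) (sub_self _)]
      simp
  · rw [if_neg (show ¬n - (k.val + 1) ≤ n - (l.val + 1) by omega), gb_of_lt q k l (by omega)]
    simp

theorem lay_dft {n j : ℕ} (hn : n ≤ 2 ^ j) {q : ℂ} (hq : IsPrimitiveRoot q n) :
    Lay (41160 * (j + 1) ^ 2) (dft q n) := by
  have h := lay_tp (fun d => (qf q d)⁻¹) (by simp [qf]) j n hn
  rw [dft_ldl hq]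
  convert ((((LayP.diag _).mul h).mul (LayP.diag _)).mul (h.submatrix Fin.revPerm)).mul
    (LayP.diag _) using 1
  ring

theorem good_crt {σ : ℕ → ℕ} (hσ : Monotone σ) {a b d k : ℕ} (ha : a ≠ 0) (hb : b ≠ 0)
    (hab : a.Coprime b) {ω : ℂ} (hω : IsPrimitiveRoot ω (a * b)) (h1 : Lay d (dft (ω ^ b) a))
    (h2 : LayP (Good σ k) d (dft (ω ^ a) b)) : LayP (Good σ (k + 1)) d (dft ω (a * b)) := by
  have hN : a * b ≠ 0 := mul_ne_zero ha hb
  have h3 := LayP.kron (S := Good σ (k + 1)) (fun _ _ hJ hG => Good.kron hσ hJ hG) h1 h2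
  let c : Fin a × Fin b → Fin (a * b) := fun p => md hN (b * p.1.val + a * p.2.val)
  have hc : Function.Bijective c := by
    rw [Fintype.bijective_iff_injective_and_card]
    refine ⟨?_, by simp⟩
    rintro ⟨x, y⟩ ⟨x', y'⟩ h
    have h4 : b * x.val + a * y.val ≡ b * x'.val + a * y'.val [MOD a * b] := congrArg Fin.val h
    have h5 : b * x.val ≡ b * x'.val [MOD a] := by
      have := h4.of_mul_right b
      simpa [Nat.ModEq] using this
    have h6 : a * y.val ≡ a * y'.val [MOD b] := by
      have := h4.of_mul_left a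
      simpa [Nat.ModEq] using this
    exact Prod.ext (Fin.ext (Nat.ModEq.eq_of_lt_of_lt (h5.cancel_left_of_coprime hab) x.2 x'.2))
      (Fin.ext (Nat.ModEq.eq_of_lt_of_lt (h6.cancel_left_of_coprime hab.symm) y.2 y'.2))
  let e := Equiv.ofBijective c hc
  have h4 := (h3.submatrix (Q := Good σ (k + 1)) e.symm fun _ hG => hG.submatrix _).rows
    (fun j => e (md ha j, md hb j))
  convert h4 using 1
  ext j k
  obtain ⟨⟨x, y⟩, rfl⟩ := e.surjective k
  simp only [Matrix.submatrix_apply, Equiv.symm_apply_apply, id, Matrix.kroneckerMap_apply, dft]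
  have e1 : (ω ^ b) ^ a = 1 := by rw [← pow_mul, mul_comm, hω.pow_eq_one]
  have e2 : (ω ^ a) ^ b = 1 := by rw [← pow_mul, hω.pow_eq_one]
  show ω ^ (j.val * ((b * x.val + a * y.val) % (a * b))) =
    (ω ^ b) ^ (j.val % a * x.val) * (ω ^ a) ^ (j.val % b * y.val)
  rw [mul_comm j.val, pow_mul, ← pow_eq_pow_mod _ hω.pow_eq_one, pow_mul (ω ^ b),
    pow_mul (ω ^ a), ← pow_eq_pow_mod _ e1, ← pow_eq_pow_mod _ e2]
  simp only [← pow_mul, ← pow_add]
  congr 1
  ring

theorem good_dft {σ : ℕ → ℕ} (hσ : Monotone σ)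
    (hσ' : ∀ j, Cost (2 ^ j * σ j) (Cm (Fin j)).mulVec) (j N : ℕ) : N ≠ 0 →
    (∀ p n, p.Prime → p ^ n ∣ N → p ^ n ≤ 2 ^ j) →
    ∃ k, 2 ^ k ≤ N ∧ ∀ ω, IsPrimitiveRoot ω N →
      LayP (Good σ k) (41160 * (j + 1) ^ 2) (dft ω N) := by
  induction N using Nat.recOnPrimePow with
  | zero => exact fun h => absurd rfl h
  | one =>
    refine fun _ _ => ⟨0, le_rfl, fun ω _ => ?_⟩
    convert LayP.le (good_one (Y := Fin 1) hσ') LayP.one (Nat.zero_le _) using 1
    ext a b
    obtain rfl : a = b := Fin.ext (by omega)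
    simp [dft]
  | prime_pow_mul a p n hp hpa hn ih =>
    intro hN h
    have ha : a ≠ 0 := right_ne_zero_of_mul hN
    have hq : p ^ n ≠ 0 := left_ne_zero_of_mul hN
    obtain ⟨k, hk, ih⟩ := ih ha fun r m hr hm => h r m hr (hm.mul_left _)
    refine ⟨k + 1, ?_, fun ω hω => good_crt hσ hq ha
      (Nat.Coprime.pow_left _ (hp.coprime_iff_not_dvd.2 hpa)) hω
      (lay_dft (h p n hp (dvd_mul_right _ _)) (hω.pow (Nat.pos_of_ne_zero hN) (mul_comm _ _)))
      (ih _ (hω.pow (Nat.pos_of_ne_zero hN) rfl))⟩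
    have : 2 ≤ p ^ n := hp.two_le.trans (Nat.le_self_pow hn.ne' p)
    rw [pow_succ']
    exact Nat.mul_le_mul this hk

end Crest.Agent.H8DF
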