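import Crest.Agent.H8.DftJ

set_option autoImplicit false

namespace Crest.Agent.H8DF

open Crest.FourierCircuit Finset Matrix

theorem cost_bluestein {n N c : ℕ} (hn : n ≠ 0) (hN : 2 * n ≤ N)
    (h : ∀ ω, IsPrimitiveRoot ω N → Cost c (dft ω N).mulVec) :
    Cost (n * 2 + (c + (N * 2 + c)) + n * 2) (dftMatrix n).mulVec := by
  have hN0 : N ≠ 0 := by omega
  have hω := Complex.isPrimitiveRoot_exp N hN0
  generalize Complex.exp _ = ω at hω
  obtain ⟨η, hη0, hη⟩ : ∃ η : ℂ, η ≠ 0 ∧ η ^ 2 = Complex.exp (2 * Real.pi * Complex.I / n) :=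
    ⟨Complex.exp (Real.pi * Complex.I / n), Complex.exp_ne_zero _, by
      rw [← Complex.exp_nat_mul]; congr 1; push_cast; ring⟩
  obtain ⟨Λ, hΛ⟩ := exists_toep hN0 hω (fun d => η ^ (-d ^ 2)) (-n)
  have c1 := cost_diag (fun k : Fin n => η ^ (k.val ^ 2))
  have c2 := cost_free (fun (x : Fin n → ℂ) (u : Fin N) => if h : u.val < n then x ⟨u, h⟩ else 0)
    fun u => by
      by_cases hu : u.val < n
      · exact Or.inl ⟨⟨u, hu⟩, fun x => dif_pos hu⟩
      · exact Or.inr fun x => dif_neg hu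
  have c3 : Cost (N * 2) (diagonal Λ).mulVec := by
    simpa [mono_id] using cost_mono Λ id
  have c4 := ((h ω hω).mul c3).mul (h _ hω.inv)
  have c5 := cost_sel (fun j : Fin n => md hN0 j.val)
  have := (((c1.comp c2).comp c4).comp c5).comp c1
  simp only [Fintype.card_fin, add_zero] at this
  refine this.congr fun x j => ?_
  rw [Matrix.mulVec, Matrix.mulVec, dotProduct, dotProduct, Finset.mul_sum]
  have hmd : ∀ k : Fin n, (md hN0 k.val).val = k.val := fun k => Nat.mod_eq_of_lt (by omega)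
  refine Fintype.sum_of_injective (fun k : Fin n => md hN0 k.val)
    (fun a b hab => Fin.ext (md_inj hN0 hab (by omega) (by omega))) _ _ (fun u hu => ?_) fun k => ?_
  · rw [dif_neg, mul_zero, mul_zero]
    intro hu'
    exact hu ⟨⟨u, hu'⟩, Fin.ext (hmd ⟨u, hu'⟩)⟩
  · rw [dif_pos (by rw [hmd]; exact k.2), hΛ _ _ (by omega) (by omega)]
    simp only [hmd, Fin.eta, dftMatrix, Matrix.of_apply, ← hη]
    rw [← mul_assoc, ← mul_assoc, ← pow_mul, ← zpow_natCast, ← zpow_natCast, ← zpow_natCast,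
      ← zpow_add₀ hη0, ← zpow_add₀ hη0]
    congr 2
    push_cast
    ring

theorem exists_modulus {n : ℕ} (hn : n ≠ 0) : ∃ N j : ℕ, 2 * n ≤ N ∧ N ≤ 8 * n ∧
    (∀ p e, p.Prime → p ^ e ∣ N → p ^ e ≤ 2 ^ j) ∧ ∃ m, 2 ^ j ≤ 4 * m ∧ 2 ^ m ≤ N := by
  have h2 : ∀ m, 2 ^ m ≤ Nat.centralBinom m := fun m => by
    induction m with
    | zero => simp
    | succ m ih =>
      have := Nat.succ_mul_centralBinom_succ m
      refine Nat.le_of_mul_le_mul_left (c := m + 1) ?_ (by omega)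
      rw [this, pow_succ]
      nlinarith
  have hex : ∃ m, 2 * n ≤ Nat.centralBinom m :=
    ⟨2 * n, (Nat.lt_two_pow_self).le.trans (h2 _)⟩
  classical
  obtain ⟨m, hm⟩ : ∃ m, Nat.find hex = m + 1 := by
    refine Nat.exists_eq_succ_of_ne_zero fun h0 => ?_
    have := Nat.find_spec hex
    rw [h0, Nat.centralBinom_zero] at this
    omega
  have a1 : 2 * n ≤ Nat.centralBinom (m + 1) := hm ▸ Nat.find_spec hex
  have a2 : ¬2 * n ≤ Nat.centralBinom m := Nat.find_min hex (by omega)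
  refine ⟨Nat.centralBinom (m + 1), Nat.clog 2 (2 * (m + 1)), a1, ?_, fun p e hp he => ?_, m + 1,
    ?_, h2 _⟩
  · have := Nat.succ_mul_centralBinom_succ m
    refine Nat.le_of_mul_le_mul_left (c := m + 1) ?_ (by omega)
    rw [this]
    nlinarith
  · have b1 : e ≤ (Nat.centralBinom (m + 1)).factorization p :=
      (hp.pow_dvd_iff_le_factorization (Nat.centralBinom_ne_zero _)).1 he
    have b2 : p ^ (Nat.centralBinom (m + 1)).factorization p ≤ 2 * (m + 1) :=
      Nat.pow_factorization_choose_le (by omega)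
    exact ((Nat.pow_le_pow_right hp.pos b1).trans b2).trans (Nat.le_pow_clog (by norm_num) _)
  · have b1 := Nat.pow_pred_clog_lt_self (b := 2) (by norm_num) (x := 2 * (m + 1)) (by omega)
    have b2 := Nat.clog_pos (b := 2) (n := 2 * (m + 1)) (by norm_num) (by omega)
    obtain ⟨i, hi⟩ : ∃ i, Nat.clog 2 (2 * (m + 1)) = i + 1 := ⟨_, (Nat.succ_pred_eq_of_pos b2).symm⟩
    rw [hi] at b1 ⊢
    rw [Nat.pred_succ] at b1
    rw [pow_succ]; omega

theorem le_log_of_pow {k c : ℕ} {z : ℝ} (hz : 0 < z) (h : (2 : ℝ) ^ k ≤ 2 ^ c * z)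
    (h1 : 1 ≤ Real.log z) : (k : ℝ) + 1 ≤ (c + 3) * Real.log z := by
  have := Real.log_le_log (by positivity) h
  rw [Real.log_mul (by positivity) hz.ne', Real.log_pow, Real.log_pow] at this
  have h2 := Real.log_two_gt_d9
  have h3 : (0 : ℝ) ≤ c := Nat.cast_nonneg c
  have h4 : (k : ℝ) ≤ c + 2 * Real.log z := by
    by_contra hh
    push Not at hh
    nlinarith
  nlinarith

theorem dft_main : ∃ C : ℝ, ∃ N₀ : ℕ, ∀ n ≥ N₀, ∃ P : LinCircuit n,
    P.Computes (dftMatrix n) ∧ (P.size : ℝ) ≤ C * n * Real.log n ^ savingExponent *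
      Real.log (Real.log n) ^ (4 - savingExponent) := by
  obtain ⟨A, hA, hC⟩ := cost_Cm
  have hθ := theta_pos
  have hθ1 := theta_le_one
  let σ : ℕ → ℕ := fun k => ⌊A * ((k : ℝ) + 1) ^ savingExponent⌋₊
  have hσ : Monotone σ := fun a b hab => Nat.floor_le_floor (by gcongr)
  have hσ' : ∀ j, Cost (2 ^ j * σ j) (Cm (Fin j)).mulVec := fun j => by
    obtain ⟨s, h1, h2⟩ := hC j
    exact h1.mono (Nat.mul_le_mul_left _ (Nat.le_floor h2))
  have t1 := Real.tendsto_log_atTop.comp (tendsto_natCast_atTop_atTop (R := ℝ))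
  obtain ⟨N₀, hN₀⟩ := Filter.eventually_atTop.1 ((t1.eventually_ge_atTop 1).and
    (((Real.tendsto_log_atTop.comp t1).eventually_ge_atTop 1).and (Filter.eventually_ge_atTop 1)))
  refine ⟨20 + 16 * (41160 * 64 * (6 * A + 2) + 2), N₀, fun n hn => ?_⟩
  obtain ⟨hx, hy, hn1⟩ := hN₀ n hn
  simp only [Function.comp_apply] at hx hy
  obtain ⟨N, j, a1, a2, a3, m, a4, a5⟩ := exists_modulus (n := n) (by omega)
  obtain ⟨k, hk, hg⟩ := good_dft hσ hσ' j N (by omega) a3
  obtain ⟨P, hP, hs⟩ := (cost_bluestein (by omega) a1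
    fun ω hω => (hg ω hω).cost fun G hG => hG.cost).circuit
  refine ⟨P, hP, ?_⟩
  rw [Fintype.card_fin] at hs
  have hn0 : (0 : ℝ) < n := by exact_mod_cast hn1
  have hN : (N : ℝ) ≤ 8 * n := by exact_mod_cast a2
  have b1 : (k : ℝ) + 1 ≤ 6 * Real.log n := by
    have := le_log_of_pow (k := k) (c := 3) hn0 (by exact_mod_cast hk.trans a2) hx
    norm_num at this
    exact this
  have b2 : (m : ℝ) + 1 ≤ 6 * Real.log n := by
    have := le_log_of_pow (k := m) (c := 3) hn0 (by exact_mod_cast a5.trans a2) hx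
    norm_num at this
    exact this
  have b3 : (j : ℝ) + 1 ≤ 8 * Real.log (Real.log n) := by
    have a4' : (2 : ℝ) ^ j ≤ 4 * m := by exact_mod_cast a4
    have := le_log_of_pow (k := j) (c := 5) (z := Real.log n) (by linarith) (by linarith) hy
    norm_num at this
    exact this
  obtain ⟨X, hX⟩ : ∃ X, X = Real.log n ^ savingExponent := ⟨_, rfl⟩
  obtain ⟨Y, hY⟩ : ∃ Y, Y = Real.log (Real.log n) ^ (4 - savingExponent) := ⟨_, rfl⟩
  rw [← hX, ← hY]
  have hX1 : 1 ≤ X := hX ▸ Real.one_le_rpow hx hθ.le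
  have hY2 : Real.log (Real.log n) ^ 2 ≤ Y := by
    rw [hY, ← Real.rpow_natCast]
    exact Real.rpow_le_rpow_of_exponent_le hy (by push_cast; linarith)
  have hY1 : 1 ≤ Y := by nlinarith
  have b4 : (σ k : ℝ) ≤ 6 * A * X := by
    refine (Nat.floor_le (by positivity)).trans ?_
    have e1 : ((k : ℝ) + 1) ^ savingExponent ≤ (6 * Real.log n) ^ savingExponent := by gcongr
    rw [Real.mul_rpow (by norm_num) (by linarith), ← hX] at e1
    have e2 : (6 : ℝ) ^ savingExponent ≤ 6 := by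
      simpa using Real.rpow_le_rpow_of_exponent_le (x := 6) (by norm_num) hθ1
    calc _ ≤ A * (6 * X) := by
          refine mul_le_mul_of_nonneg_left (e1.trans ?_) hA
          gcongr
      _ = _ := by ring
  have b5 : ((j : ℝ) + 1) ^ 2 ≤ 64 * Y := by
    calc _ ≤ (8 * Real.log (Real.log n)) ^ 2 := by gcongr
      _ ≤ _ := by linarith
  have b6 : (41160 * ((j : ℝ) + 1) ^ 2) * (N * σ k + N * 2) + N * 2 ≤
      8 * (41160 * 64 * (6 * A + 2) + 2) * n * X * Y := by
    have hXY : 1 ≤ X * Y := one_le_mul_of_one_le_of_one_le hX1 hY1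
    calc _ ≤ (41160 * (64 * Y)) * (8 * n * (6 * A * X) + 8 * n * (2 * X)) + 8 * n * (2 * (X * Y)) := by
          gcongr <;> linarith
      _ = _ := by ring
  have hs' : (P.size : ℝ) ≤ n * 2 + (((41160 * ((j : ℝ) + 1) ^ 2) * (N * σ k + N * 2) + N * 2) +
      (N * 2 + ((41160 * ((j : ℝ) + 1) ^ 2) * (N * σ k + N * 2) + N * 2))) + n * 2 := by
    exact_mod_cast hs
  have hXY : (n : ℝ) ≤ n * X * Y := by
    rw [mul_assoc]
    exact le_mul_of_one_le_right hn0.le (one_le_mul_of_one_le_of_one_le hX1 hY1)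
  linarith

end Crest.Agent.H8DF
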