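import Mathlib
import Crest.Prelude.Def_EditDistance

set_option autoImplicit false

namespace Crest.Agent.H8EL

open Crest.GeometryTopology.EditDistance

variable {α : Type}

theorem adj_cons (a : α) {u v : List α} (h : (editGraph α).Adj u v) :
    (editGraph α).Adj (a :: u) (a :: v) := by
  have key : ∀ u v : List α, IsInsertion u v ∨ IsSubstitution u v →
      IsInsertion (a :: u) (a :: v) ∨ IsSubstitution (a :: u) (a :: v) := by
    rintro u v (⟨l, r, c, rfl, rfl⟩ | ⟨l, r, c, d, hcd, rfl, rfl⟩)
    · exact Or.inl ⟨a :: l, r, c, rfl, rfl⟩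
    · exact Or.inr ⟨a :: l, r, c, d, hcd, rfl, rfl⟩
  rw [editGraph, SimpleGraph.fromRel_adj] at h ⊢
  refine ⟨fun h' => h.1 (List.cons.inj h').2, h.2.imp (key u v) (key v u)⟩

/-- `cons` as a graph homomorphism. -/
def consHom (a : α) : editGraph α →g editGraph α := ⟨fun u => a :: u, adj_cons a⟩

theorem walk_of_sublist {z u : List α} (h : z.Sublist u) :
    ∃ p : (editGraph α).Walk u z, p.length + z.length = u.length := by
  induction h with
  | slnil => exact ⟨SimpleGraph.Walk.nil, rfl⟩
  | @cons z u a _ ih =>
    obtain ⟨p, hp⟩ := ih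
    have hadj : (editGraph α).Adj (a :: u) u := by
      rw [editGraph, SimpleGraph.fromRel_adj]
      refine ⟨by simp, Or.inr (Or.inl ⟨[], u, a, rfl, rfl⟩)⟩
    exact ⟨SimpleGraph.Walk.cons hadj p, by simp; omega⟩
  | @cons_cons z u a _ ih =>
    obtain ⟨p, hp⟩ := ih
    refine ⟨p.map (consHom a), ?_⟩
    have := SimpleGraph.Walk.length_map (consHom a) p
    simp only [List.length_cons]
    exact by rw [← hp, ← this]; rfl

theorem editDist_le_of_sublist {z u v : List α} (hu : z.Sublist u) (hv : z.Sublist v) :
    editDist u v + 2 * z.length ≤ u.length + v.length := by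
  obtain ⟨p, hp⟩ := walk_of_sublist hu
  obtain ⟨p', hp'⟩ := walk_of_sublist hv
  have := SimpleGraph.dist_le (p.append p'.reverse)
  simp only [SimpleGraph.Walk.length_append, SimpleGraph.Walk.length_reverse] at this
  unfold editDist
  omega

theorem reachable (u v : List α) : (editGraph α).Reachable u v := by
  obtain ⟨p, -⟩ := walk_of_sublist (List.nil_sublist u)
  obtain ⟨p', -⟩ := walk_of_sublist (List.nil_sublist v)
  exact ⟨p.append p'.reverse⟩

/-- Two words share a subsequence missing at most `e` symbols of each. -/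
def Close (e : ℕ) (s s' : List α) : Prop :=
  ∃ z : List α, z.Sublist s ∧ z.Sublist s' ∧ s.length ≤ z.length + e ∧ s'.length ≤ z.length + e

theorem Close.refl (s : List α) : Close 0 s s := ⟨s, .refl _, .refl _, le_rfl, le_rfl⟩

theorem Close.mono {e e' : ℕ} {s s' : List α} (h : Close e s s') (he : e ≤ e') :
    Close e' s s' := by
  obtain ⟨z, h1, h2, h3, h4⟩ := h
  exact ⟨z, h1, h2, by omega, by omega⟩

theorem Close.append {e e' : ℕ} {s s' t t' : List α} (h : Close e s s') (h' : Close e' t t') :
    Close (e + e') (s ++ t) (s' ++ t') := by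
  obtain ⟨z, h1, h2, h3, h4⟩ := h
  obtain ⟨z', h1', h2', h3', h4'⟩ := h'
  exact ⟨z ++ z', h1.append h1', h2.append h2', by simp; omega, by simp; omega⟩

theorem Close.map {β : Type} (f : α → β) {e : ℕ} {s s' : List α} (h : Close e s s') :
    Close e (s.map f) (s'.map f) := by
  obtain ⟨z, h1, h2, h3, h4⟩ := h
  exact ⟨z.map f, h1.map f, h2.map f, by simpa using h3, by simpa using h4⟩

theorem Close.flatMap_range {n : ℕ} (e : ℕ → ℕ) (f g : ℕ → List α)
    (h : ∀ u < n, Close (e u) (f u) (g u)) :
    Close (∑ u ∈ Finset.range n, e u) ((List.range n).flatMap f) ((List.range n).flatMap g) := by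
  induction n with
  | zero => simpa using Close.refl []
  | succ n ih =>
    rw [Finset.sum_range_succ, List.range_succ, List.flatMap_append, List.flatMap_append]
    simpa using (ih fun u hu => h u (by omega)).append (h n (by omega))

theorem length_flatMap_const {β : Type} (l : List β) (f : β → List α) (w : ℕ)
    (h : ∀ b ∈ l, (f b).length = w) : (l.flatMap f).length = l.length * w := by
  induction l with
  | nil => simp
  | cons b l ih =>
    rw [List.flatMap_cons, List.length_append, h b (by simp), ih fun c hc => h c (by simp [hc]),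
      List.length_cons]
    ring

theorem sublist_flatMap {β : Type} {z s : List β} (h : z.Sublist s) (f : β → List α) :
    (z.flatMap f).Sublist (s.flatMap f) := by
  induction h with
  | slnil => simp
  | cons a _ ih => exact ih.trans (by simp)
  | cons_cons a _ ih => simpa using ih

theorem Close.shift (f : ℕ → List α) (w r t : ℕ) (hf : ∀ u, (f u).length = w) :
    Close (t * w) ((List.range (r + t)).flatMap (fun u => f (u + t)))
      ((List.range (r + t)).flatMap f) := by
  refine ⟨(List.range r).flatMap (fun u => f (u + t)), ?_, ?_, ?_, ?_⟩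
  · rw [List.range_add, List.flatMap_append]
    exact List.sublist_append_left _ _
  · rw [add_comm r t, List.range_add, List.flatMap_append, List.flatMap_map]
    simp only [add_comm t]
    exact List.sublist_append_right _ _
  · rw [length_flatMap_const _ _ w (fun _ _ => hf _), length_flatMap_const _ _ w (fun _ _ => hf _)]
    simp [add_mul]
  · rw [length_flatMap_const _ _ w (fun _ _ => hf _), length_flatMap_const _ _ w (fun _ _ => hf _)]
    simp [add_mul]

theorem Close.editDist_flatMap {β : Type} (code : β → List α) (w : ℕ)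
    (hw : ∀ b, (code b).length = w) {e : ℕ} {s s' : List β} (h : Close e s s') :
    editDist (s.flatMap code) (s'.flatMap code) ≤ 2 * w * e := by
  obtain ⟨z, h1, h2, h3, h4⟩ := h
  have := editDist_le_of_sublist (sublist_flatMap h1 code) (sublist_flatMap h2 code)
  rw [length_flatMap_const _ _ w (fun _ _ => hw _), length_flatMap_const _ _ w (fun _ _ => hw _),
    length_flatMap_const _ _ w (fun _ _ => hw _)] at this
  have h5 := Nat.mul_le_mul_right w h3
  have h6 := Nat.mul_le_mul_right w h4
  nlinarith

theorem getElem?_flatMap_range (f : ℕ → List α) (w n : ℕ) (hf : ∀ u, (f u).length = w)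
    (u i : ℕ) (hu : u < n) (hi : i < w) :
    ((List.range n).flatMap f)[u * w + i]? = (f u)[i]? := by
  induction n with
  | zero => omega
  | succ n ih =>
    have hlen : ((List.range n).flatMap f).length = n * w := by
      rw [length_flatMap_const _ _ w (fun _ _ => hf _)]; simp
    rw [List.range_succ, List.flatMap_append]
    rcases Nat.lt_succ_iff_lt_or_eq.1 hu with h | h
    · rw [List.getElem?_append_left, ih h]
      rw [hlen]
      have : (u + 1) * w ≤ n * w := Nat.mul_le_mul_right _ h
      nlinarith
    · subst h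
      rw [List.getElem?_append_right (by omega), hlen]
      simp

/-- The codewords of `t` occur, in order and disjointly, inside the word. -/
inductive Emb {β : Type} (code : β → List α) : List β → List α → Prop
  | nil (X : List α) : Emb code [] X
  | skip (a : α) (t : List β) (X : List α) : Emb code t X → Emb code t (a :: X)
  | take (b : β) (t : List β) (X : List α) : Emb code t X → Emb code (b :: t) (code b ++ X)

theorem Emb.prepend {β : Type} {code : β → List α} {t : List β} {X : List α}
    (h : Emb code t X) (m : List α) : Emb code t (m ++ X) := by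
  induction m with
  | nil => exact h
  | cons a m ih => exact Emb.skip a _ _ ih

theorem Emb.join {β : Type} {code : β → List α} {t t' : List β} {X X' : List α}
    (h : Emb code t X) (h' : Emb code t' X') : Emb code (t ++ t') (X ++ X') := by
  induction h with
  | nil X => exact h'.prepend X
  | skip a t X _ ih => exact Emb.skip a _ _ ih
  | take b t X _ ih =>
    rw [List.append_assoc]
    exact Emb.take b _ _ ih

theorem Emb.split {β : Type} {code : β → List α} {t : List β} {X : List α}
    (h : Emb code t X) : ∀ l r : List α, X = l ++ r → ∃ t₁ t₂ : List β,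
      (t₁ ++ t₂).Sublist t ∧ t.length ≤ t₁.length + t₂.length + 1 ∧
      Emb code t₁ l ∧ Emb code t₂ r := by
  induction h with
  | nil X => exact fun l r _ => ⟨[], [], by simp, by simp, Emb.nil _, Emb.nil _⟩
  | skip a t X h ih =>
    intro l r hX
    cases l with
    | nil =>
      simp only [List.nil_append] at hX
      subst hX
      exact ⟨[], t, by simp, by simp, Emb.nil _, Emb.skip a _ _ h⟩
    | cons a' l =>
      obtain ⟨rfl, hX'⟩ := List.cons.inj hX
      obtain ⟨t₁, t₂, h1, h2, h3, h4⟩ := ih l r hX'
      exact ⟨t₁, t₂, h1, h2, Emb.skip _ _ _ h3, h4⟩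
  | take b t X h ih =>
    intro l r hX
    rcases List.append_eq_append_iff.1 hX with ⟨l', rfl, hX'⟩ | ⟨c', _, rfl⟩
    · obtain ⟨t₁, t₂, h1, h2, h3, h4⟩ := ih l' r hX'
      exact ⟨b :: t₁, t₂, by simpa using h1, by simp; omega, Emb.take _ _ _ h3, h4⟩
    · exact ⟨[], t, by simp, by simp, Emb.nil _, h.prepend c'⟩

theorem Emb.length_le {β : Type} {code : β → List α} (hc : ∀ b, 1 ≤ (code b).length)
    {t : List β} {X : List α} (h : Emb code t X) : t.length ≤ X.length := by
  induction h with
  | nil X => simp
  | skip a t X _ ih => simp; omega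
  | take b t X _ ih => have := hc b; simp; omega

theorem Emb.self {β : Type} (code : β → List α) (s : List β) : Emb code s (s.flatMap code) := by
  induction s with
  | nil => exact Emb.nil _
  | cons b s ih => exact Emb.take b _ _ ih

theorem Emb.adj {β : Type} {code : β → List α} (hc : ∀ b, 1 ≤ (code b).length)
    {t : List β} {X Y : List α} (h : Emb code t X) (hXY : (editGraph α).Adj X Y) :
    ∃ t' : List β, t'.Sublist t ∧ t.length ≤ t'.length + 3 ∧ Emb code t' Y := by
  have del : ∀ (l r m : List α) (a : α), X = l ++ a :: r →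
      ∃ t' : List β, t'.Sublist t ∧ t.length ≤ t'.length + 3 ∧ Emb code t' (l ++ (m ++ r)) := by
    intro l r m a hX
    obtain ⟨t₁, t₂, h1, h2, h3, h4⟩ := h.split l (a :: r) hX
    obtain ⟨t₃, t₄, h5, h6, h7, h8⟩ := h4.split [a] r rfl
    have h9 := h7.length_le hc
    refine ⟨t₁ ++ t₄, ?_, ?_, h3.join (h8.prepend m)⟩
    · exact ((List.Sublist.refl t₁).append ((List.sublist_append_right t₃ t₄).trans h5)).trans h1
    · simp at h9 ⊢; omega
  rw [editGraph, SimpleGraph.fromRel_adj] at hXY
  rcases hXY.2 with (⟨l, r, a, hX, rfl⟩ | ⟨l, r, a, c, -, hX, rfl⟩) |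
    (⟨l, r, a, rfl, hX⟩ | ⟨l, r, a, c, -, rfl, hX⟩)
  · obtain ⟨t₁, t₂, h1, h2, h3, h4⟩ := h.split l r hX
    exact ⟨t₁ ++ t₂, h1, by simp; omega, h3.join (Emb.skip a _ _ h4)⟩
  · exact del l r [c] a hX
  · exact del l r [] a hX
  · exact del l r [a] c hX

theorem Emb.walk {β : Type} {code : β → List α} (hc : ∀ b, 1 ≤ (code b).length)
    {X Y : List α} (p : (editGraph α).Walk X Y) : ∀ t : List β, Emb code t X →
    ∃ t' : List β, t'.Sublist t ∧ t.length ≤ t'.length + 3 * p.length ∧ Emb code t' Y := by
  induction p with
  | nil => exact fun t h => ⟨t, .refl _, by simp, h⟩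
  | cons hadj p ih =>
    intro t h
    obtain ⟨t₁, h1, h2, h3⟩ := h.adj hc hadj
    obtain ⟨t₂, h4, h5, h6⟩ := ih t₁ h3
    exact ⟨t₂, h4.trans h1, by simp; omega, h6⟩

/-- A comma-free binary code built from `r` bits. -/
def cfCode {β : Type} (r : ℕ) (bit : β → ℕ → Bool) (b : β) : List Bool :=
  (List.range (2 * r + 3)).map fun j =>
    if j ≤ r then true else if j = r + 1 ∨ j = 2 * r + 2 then false else bit b (j - (r + 2))

theorem cfCode_length {β : Type} (r : ℕ) (bit : β → ℕ → Bool) (b : β) :
    (cfCode r bit b).length = 2 * r + 3 := by simp [cfCode]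

theorem cfCode_inj {β : Type} (r : ℕ) (bit : β → ℕ → Bool)
    (hbit : ∀ b b', (∀ j < r, bit b j = bit b' j) → b = b') {b b' : β}
    (h : cfCode r bit b = cfCode r bit b') : b = b' := by
  apply hbit
  intro j hj
  have := List.map_inj_left.1 h (j + (r + 2)) (by simp; omega)
  rw [if_neg (by omega), if_neg (by omega), if_neg (by omega), if_neg (by omega)] at this
  simpa using this

theorem cfCode_free {β : Type} (r : ℕ) (bit : β → ℕ → Bool) (b b' : β) (u pre X Y : List Bool)
    (hu : u ≠ []) (hpre : pre ≠ []) (h : cfCode r bit b' = u ++ pre) :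
    cfCode r bit b ++ X ≠ pre ++ Y := by
  intro heq
  have hlen := congrArg List.length h
  rw [cfCode_length, List.length_append] at hlen
  have hu' : 0 < u.length := List.length_pos_iff.2 hu
  have hpre' : 0 < pre.length := List.length_pos_iff.2 hpre
  obtain ⟨i, hi1, hi2, hi3⟩ : ∃ i, i ≤ r ∧ i < pre.length ∧
      (u.length + i = r + 1 ∨ u.length + i = 2 * r + 2) := by
    by_cases hc : u.length ≤ r + 1
    · exact ⟨r + 1 - u.length, by omega, by omega, by omega⟩
    · exact ⟨2 * r + 2 - u.length, by omega, by omega, by omega⟩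
  have h1 : (cfCode r bit b ++ X)[i]? = some true := by
    rw [List.getElem?_append_left (by rw [cfCode_length]; omega)]
    simp only [cfCode, List.getElem?_map]
    rw [List.getElem?_range (by omega)]
    simp [hi1]
  have h2 : (cfCode r bit b')[u.length + i]? = some false := by
    simp only [cfCode, List.getElem?_map]
    rw [List.getElem?_range (by omega)]
    simp only [Option.map_some]
    rw [if_neg (by omega), if_pos hi3]
  rw [h, List.getElem?_append_right (by omega)] at h2
  rw [heq, List.getElem?_append_left hi2] at h1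
  simp only [Nat.add_sub_cancel_left] at h2
  rw [h1] at h2
  simp at h2

theorem Emb.sublist_of_cf {β : Type} (r : ℕ) (bit : β → ℕ → Bool)
    (hbit : ∀ b b', (∀ j < r, bit b j = bit b' j) → b = b') {t : List β} {X : List Bool}
    (h : Emb (cfCode r bit) t X) : ∀ (s : List β) (pre : List Bool),
      (pre = [] ∨ ∃ b u, u ≠ [] ∧ cfCode r bit b = u ++ pre) →
      X = pre ++ s.flatMap (cfCode r bit) → t.Sublist s := by
  induction h with
  | nil X => exact fun s _ _ _ => List.nil_sublist s
  | skip a t X _ ih =>
    intro s pre hpre hX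
    cases pre with
    | nil =>
      cases s with
      | nil => simp at hX
      | cons b s =>
        have hlen := cfCode_length r bit b
        cases hb : cfCode r bit b with
        | nil => rw [hb] at hlen; simp at hlen
        | cons a' pre' =>
          rw [List.nil_append, List.flatMap_cons, hb] at hX
          exact (ih s pre' (Or.inr ⟨b, [a'], by simp, hb⟩) (List.cons.inj hX).2).cons b
    | cons a' pre' =>
      obtain ⟨b, u, _, hb⟩ := hpre.resolve_left (by simp)
      exact ih s pre' (Or.inr ⟨b, u ++ [a'], by simp, by simpa using hb⟩) (List.cons.inj hX).2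
  | take b t X _ ih =>
    intro s pre hpre hX
    by_cases hp : pre = []
    · subst hp
      cases s with
      | nil =>
        have := congrArg List.length hX
        simp [cfCode_length] at this
      | cons b' s =>
        rw [List.nil_append, List.flatMap_cons] at hX
        obtain ⟨h1, h2⟩ := List.append_inj hX (by rw [cfCode_length, cfCode_length])
        rw [cfCode_inj r bit hbit h1]
        exact (ih s [] (Or.inl rfl) h2).cons_cons b'
    · obtain ⟨b', u, hu, hb⟩ := hpre.resolve_left hp
      exact (cfCode_free r bit b b' u pre X _ hu hp hb hX).elim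

theorem exists_common {β : Type} (r : ℕ) (bit : β → ℕ → Bool)
    (hbit : ∀ b b', (∀ j < r, bit b j = bit b' j) → b = b') (s s' : List β) :
    ∃ t : List β, t.Sublist s ∧ t.Sublist s' ∧
      s.length ≤ t.length + 3 * editDist (s.flatMap (cfCode r bit)) (s'.flatMap (cfCode r bit)) := by
  obtain ⟨p, hp⟩ := (reachable (s.flatMap (cfCode r bit))
    (s'.flatMap (cfCode r bit))).exists_walk_length_eq_dist
  obtain ⟨t, h1, h2, h3⟩ := Emb.walk (code := cfCode r bit)
    (fun b => by rw [cfCode_length]; omega) p s (Emb.self _ s)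
  exact ⟨t, h1, h3.sublist_of_cf r bit hbit s' [] (Or.inl rfl) rfl, by rwa [hp] at h2⟩

/-- A monotone matching between equal symbols of two words. -/
def IsMatch (s s' : List α) (M : Finset (ℕ × ℕ)) : Prop :=
  (∀ p ∈ M, ∃ a, s[p.1]? = some a ∧ s'[p.2]? = some a) ∧
  (∀ p ∈ M, ∀ p' ∈ M, (p.1 < p'.1 ↔ p.2 < p'.2))

theorem exists_match {t s s' : List α} (h : t.Sublist s) (h' : t.Sublist s') :
    ∃ M, IsMatch s s' M ∧ M.card = t.length := by
  obtain ⟨f, hf⟩ := List.sublist_iff_exists_orderEmbedding_getElem?_eq.1 h
  obtain ⟨g, hg⟩ := List.sublist_iff_exists_orderEmbedding_getElem?_eq.1 h'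
  refine ⟨(Finset.range t.length).image (fun k => (f k, g k)), ⟨?_, ?_⟩, ?_⟩
  · intro p hp
    obtain ⟨k, hk, rfl⟩ := Finset.mem_image.1 hp
    have hk' := Finset.mem_range.1 hk
    exact ⟨t[k], by rw [← hf, List.getElem?_eq_getElem hk'],
      by rw [← hg, List.getElem?_eq_getElem hk']⟩
  · intro p hp p' hp'
    obtain ⟨k, _, rfl⟩ := Finset.mem_image.1 hp
    obtain ⟨k', _, rfl⟩ := Finset.mem_image.1 hp'
    simp
  · rw [Finset.card_image_of_injective _ (fun k k' h => f.injective (Prod.mk.inj h).1)]
    simp

end Crest.Agent.H8EL
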