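import Mathlib

set_option autoImplicit false

namespace Crest.Agent.H8EL

open Finset

theorem parseval {G : Type} [AddCommGroup G] [Fintype G] (h : G → ℝ) :
    ∑ ψ : AddChar G ℂ, ‖∑ x, (h x : ℂ) * ψ x‖ ^ 2 = Fintype.card G * ∑ x, h x ^ 2 := by
  classical
  have h1 : ∀ ψ : AddChar G ℂ, ((‖∑ x, (h x : ℂ) * ψ x‖ ^ 2 : ℝ) : ℂ) =
      ∑ x, ∑ y, (h x : ℂ) * h y * ψ (x - y) := by
    intro ψ
    rw [Complex.ofReal_pow, ← Complex.mul_conj', map_sum, Finset.sum_mul_sum]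
    refine Finset.sum_congr rfl fun x _ => Finset.sum_congr rfl fun y _ => ?_
    rw [map_mul, Complex.conj_ofReal, sub_eq_add_neg, AddChar.map_add_eq_mul,
      AddChar.map_neg_eq_conj]
    ring
  have h2 : ((∑ ψ : AddChar G ℂ, ‖∑ x, (h x : ℂ) * ψ x‖ ^ 2 : ℝ) : ℂ) =
      ((Fintype.card G * ∑ x, h x ^ 2 : ℝ) : ℂ) := by
    rw [Complex.ofReal_sum, Finset.sum_congr rfl fun ψ _ => h1 ψ, Finset.sum_comm]
    push_cast
    rw [Finset.mul_sum]
    refine Finset.sum_congr rfl fun x _ => ?_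
    rw [Finset.sum_comm]
    simp only [← Finset.mul_sum, AddChar.sum_apply_eq_ite, sub_eq_zero]
    rw [Finset.sum_eq_single x (fun y _ hy => by rw [if_neg (Ne.symm hy), mul_zero]) (by simp)]
    simp
    ring
  exact_mod_cast h2

theorem shift_energy {G : Type} [AddCommGroup G] [Fintype G] (φ : G → ℝ) (a : G) :
    Fintype.card G * ∑ x, (φ (x + a) - φ x) ^ 2 =
      ∑ ψ : AddChar G ℂ, ‖ψ (-a) - 1‖ ^ 2 * ‖∑ x, (φ x : ℂ) * ψ x‖ ^ 2 := by
  rw [← parseval]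
  refine Finset.sum_congr rfl fun ψ _ => ?_
  rw [← mul_pow, ← norm_mul]
  congr 2
  push_cast
  simp only [sub_mul, Finset.sum_sub_distrib, one_mul, Finset.mul_sum]
  congr 1
  refine Fintype.sum_equiv (Equiv.addRight a) _ _ fun x => ?_
  simp only [Equiv.coe_addRight]
  rw [mul_left_comm, ← AddChar.map_add_eq_mul]
  congr 2
  abel

theorem char_angle {ι : Type} [Fintype ι] [DecidableEq ι] (P : ℕ) [NeZero P]
    (ψ : AddChar (ι → ZMod P) ℂ) : ∃ β : ι → ℝ, ∀ n : ι → ℤ,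
      ‖ψ (-(fun l => (n l : ZMod P))) - 1‖ ^ 2 =
        2 * (1 - Real.cos (2 * Real.pi * ∑ l, n l * β l)) := by
  have h1 : ∀ l : ι, ∃ b : ℝ, ψ (Pi.single l 1) = Complex.exp ((2 * Real.pi * b : ℝ) * Complex.I) := by
    intro l
    refine ⟨Complex.arg (ψ (Pi.single l 1)) / (2 * Real.pi), ?_⟩
    have hpi : 2 * Real.pi * (Complex.arg (ψ (Pi.single l 1)) / (2 * Real.pi)) =
        Complex.arg (ψ (Pi.single l 1)) := by
      field_simp
    rw [hpi]
    have := Complex.norm_mul_exp_arg_mul_I (ψ (Pi.single l 1))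
    rw [AddChar.norm_apply] at this
    simpa using this.symm
  choose β hβ using h1
  refine ⟨β, fun n => ?_⟩
  have h2 : ∀ s : Finset ι, ψ (∑ l ∈ s, (-n l) • (Pi.single l 1 : ι → ZMod P)) =
      Complex.exp ((-(2 * Real.pi * ∑ l ∈ s, n l * β l) : ℝ) * Complex.I) := by
    intro s
    induction s using Finset.induction_on with
    | empty => simp
    | insert l s hl ih =>
      rw [Finset.sum_insert hl, Finset.sum_insert hl, AddChar.map_add_eq_mul, ih,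
        AddChar.map_zsmul_eq_zpow, hβ, ← Complex.exp_int_mul, ← Complex.exp_add]
      congr 1
      push_cast
      ring
  have h3 : (-(fun l => (n l : ZMod P))) = ∑ l, (-n l) • (Pi.single l 1 : ι → ZMod P) := by
    funext l
    simp [Finset.sum_apply, Pi.single_apply]
  rw [h3, h2, ← Complex.normSq_eq_norm_sq, Complex.normSq_apply]
  simp only [Complex.sub_re, Complex.exp_ofReal_mul_I_re, Complex.one_re, Complex.sub_im,
    Complex.exp_ofReal_mul_I_im, Complex.one_im, Real.cos_neg, Real.sin_neg]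
  nlinarith [Real.sin_sq_add_cos_sq (2 * Real.pi * ∑ l, n l * β l)]

theorem poincare_sq {ι S : Type} [Fintype ι] [DecidableEq ι] [Fintype S] (P : ℕ) [NeZero P]
    (a₀ : ι → ℤ) (a : S → ι → ℤ) (w : S → ℝ)
    (H : ∀ β : ι → ℝ, 1 - Real.cos (2 * Real.pi * ∑ l, a₀ l * β l) ≤
      ∑ s, w s * (1 - Real.cos (2 * Real.pi * ∑ l, a s l * β l)))
    (φ : (ι → ZMod P) → ℝ) :
    ∑ x, (φ (x + fun l => (a₀ l : ZMod P)) - φ x) ^ 2 ≤
      ∑ s, w s * ∑ x, (φ (x + fun l => (a s l : ZMod P)) - φ x) ^ 2 := by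
  have hpos : (0 : ℝ) < Fintype.card (ι → ZMod P) := by exact_mod_cast Fintype.card_pos
  apply le_of_mul_le_mul_left _ hpos
  have h1 : (Fintype.card (ι → ZMod P) : ℝ) *
      ∑ s, w s * ∑ x, (φ (x + fun l => (a s l : ZMod P)) - φ x) ^ 2 =
      ∑ ψ : AddChar (ι → ZMod P) ℂ, (∑ s, w s * ‖ψ (-(fun l => (a s l : ZMod P))) - 1‖ ^ 2) *
        ‖∑ x, (φ x : ℂ) * ψ x‖ ^ 2 := by
    rw [Finset.mul_sum]
    simp only [Finset.sum_mul]
    rw [Finset.sum_comm]
    refine Finset.sum_congr rfl fun s _ => ?_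
    rw [mul_left_comm, shift_energy, Finset.mul_sum]
    simp only [mul_assoc]
  rw [shift_energy, h1]
  refine Finset.sum_le_sum fun ψ _ => ?_
  obtain ⟨β, hβ⟩ := char_angle P ψ
  refine mul_le_mul_of_nonneg_right ?_ (by positivity)
  simp only [hβ]
  have := H β
  have h2 : ∑ s, w s * (2 * (1 - Real.cos (2 * Real.pi * ∑ l, a s l * β l))) =
      2 * ∑ s, w s * (1 - Real.cos (2 * Real.pi * ∑ l, a s l * β l)) := by
    rw [Finset.mul_sum]
    exact Finset.sum_congr rfl fun s _ => by ring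
  rw [h2]
  linarith

theorem layer_cake {G S : Type} [Fintype G] [Fintype S] (T₀ : G → G) (T : S → G → G) (w : S → ℝ)
    (H : ∀ φ : G → ℝ, ∑ x, (φ (T₀ x) - φ x) ^ 2 ≤ ∑ s, w s * ∑ x, (φ (T s x) - φ x) ^ 2)
    (φ : G → ℝ) : ∑ x, |φ (T₀ x) - φ x| ≤ ∑ s, w s * ∑ x, |φ (T s x) - φ x| := by
  classical
  have h1 : ∀ (u v θ : ℝ), ((if θ ≤ u then (1 : ℝ) else 0) - (if θ ≤ v then 1 else 0)) ^ 2 =
      (Set.uIoc u v).indicator 1 θ := by
    intro u v θ
    by_cases hu : θ ≤ u <;> by_cases hv : θ ≤ v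
    · rw [Set.indicator_of_notMem]
      · simp [hu, hv]
      · simp [Set.mem_uIoc, hu, hv]
    · rw [Set.indicator_of_mem]
      · simp [hu, hv]
      · simp [Set.mem_uIoc, hu, not_le.1 hv]
    · rw [Set.indicator_of_mem]
      · simp [hu, hv]
      · simp [Set.mem_uIoc, hv, not_le.1 hu]
    · rw [Set.indicator_of_notMem]
      · simp [hu, hv]
      · simp [Set.mem_uIoc, hu, hv]
  have h2 : ∀ u v : ℝ, MeasureTheory.Integrable ((Set.uIoc u v).indicator (1 : ℝ → ℝ)) := by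
    intro u v
    rw [MeasureTheory.integrable_indicator_iff measurableSet_uIoc]
    exact MeasureTheory.integrableOn_const (by simp [Real.volume_uIoc])
  have h3 : ∀ u v : ℝ, ∫ θ, (Set.uIoc u v).indicator (1 : ℝ → ℝ) θ = |u - v| := by
    intro u v
    rw [MeasureTheory.integral_indicator_one measurableSet_uIoc, MeasureTheory.measureReal_def,
      Real.volume_uIoc, ENNReal.toReal_ofReal (abs_nonneg _), abs_sub_comm]
  have h4 : ∀ T' : G → G, ∑ x, |φ (T' x) - φ x| =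
      ∫ θ, ∑ x, (Set.uIoc (φ (T' x)) (φ x)).indicator (1 : ℝ → ℝ) θ := by
    intro T'
    rw [MeasureTheory.integral_finsetSum _ fun x _ => h2 _ _]
    simp only [h3]
  have h5 : ∀ T' : G → G, MeasureTheory.Integrable
      (fun θ => ∑ x, (Set.uIoc (φ (T' x)) (φ x)).indicator (1 : ℝ → ℝ) θ) := fun T' =>
    MeasureTheory.integrable_finsetSum _ fun x _ => h2 _ _
  simp only [h4, ← MeasureTheory.integral_const_mul]
  rw [← MeasureTheory.integral_finsetSum _ fun s _ => (h5 (T s)).const_mul _]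
  refine MeasureTheory.integral_mono (h5 T₀)
    (MeasureTheory.integrable_finsetSum _ fun s _ => (h5 (T s)).const_mul _) fun θ => ?_
  have := H (fun x => if θ ≤ φ x then 1 else 0)
  simpa only [h1] using this

theorem l1_lift {G S : Type} [Fintype G] [Fintype S] (T₀ : G → G) (T : S → G → G) (w : S → ℝ)
    (H : ∀ φ : G → ℝ, ∑ x, |φ (T₀ x) - φ x| ≤ ∑ s, w s * ∑ x, |φ (T s x) - φ x|)
    (F : G → lp (fun _ : ℕ => ℝ) 1) :
    ∑ x, ‖F (T₀ x) - F x‖ ≤ ∑ s, w s * ∑ x, ‖F (T s x) - F x‖ := by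
  have h1 : ∀ u v : lp (fun _ : ℕ => ℝ) 1, HasSum (fun n => |u n - v n|) ‖u - v‖ := by
    intro u v
    have := lp.hasSum_norm (p := 1) (by simp) (u - v)
    simpa using this
  have h2 : ∀ T' : G → G, HasSum (fun n => ∑ x, |F (T' x) n - F x n|) (∑ x, ‖F (T' x) - F x‖) :=
    fun T' => hasSum_sum fun x _ => h1 _ _
  exact hasSum_le (fun n => H (fun x => F x n)) (h2 T₀)
    (hasSum_sum fun s _ => (h2 (T s)).mul_left (w s))

theorem poincare_l1 {ι S : Type} [Fintype ι] [DecidableEq ι] [Fintype S] (P : ℕ) [NeZero P]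
    (a₀ : ι → ℤ) (a : S → ι → ℤ) (w : S → ℝ)
    (H : ∀ β : ι → ℝ, 1 - Real.cos (2 * Real.pi * ∑ l, a₀ l * β l) ≤
      ∑ s, w s * (1 - Real.cos (2 * Real.pi * ∑ l, a s l * β l)))
    (F : (ι → ZMod P) → lp (fun _ : ℕ => ℝ) 1) :
    ∑ x, ‖F (x + fun l => (a₀ l : ZMod P)) - F x‖ ≤
      ∑ s, w s * ∑ x, ‖F (x + fun l => (a s l : ZMod P)) - F x‖ :=
  l1_lift (fun x => x + fun l => (a₀ l : ZMod P)) (fun s x => x + fun l => (a s l : ZMod P)) w
    (layer_cake _ _ w (poincare_sq P a₀ a w H)) F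

theorem dyadic_aux (J : ℕ) : ∀ d : ℝ, 1 / 2 ^ (J + 2) ≤ d → d ≤ 1 / 2 →
    ∃ i ≤ J, 1 / 4 ≤ 2 ^ i * d ∧ 2 ^ i * d ≤ 1 / 2 := by
  induction J with
  | zero => exact fun d h1 h2 => ⟨0, le_rfl, by norm_num at h1 ⊢; linarith, by simpa using h2⟩
  | succ J ih =>
    intro d h1 h2
    by_cases h : 1 / 4 ≤ d
    · exact ⟨0, by omega, by simpa using h, by simpa using h2⟩
    · obtain ⟨i, hi, h3, h4⟩ := ih (2 * d) (by
        have : (1 : ℝ) / 2 ^ (J + 2) = 2 * (1 / 2 ^ (J + 1 + 2)) := by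
          field_simp; ring
        linarith) (by linarith)
      refine ⟨i + 1, by omega, ?_, ?_⟩
      · rw [pow_succ, mul_assoc]; exact h3
      · rw [pow_succ, mul_assoc]; exact h4

theorem cos_round (θ : ℝ) (n : ℤ) (m : ℕ) :
    Real.cos (2 * Real.pi * (m * θ)) = Real.cos (2 * Real.pi * (m * |θ - n|)) := by
  have h1 : 2 * Real.pi * (m * |θ - n|) = |2 * Real.pi * (m * (θ - n))| := by
    rw [abs_mul, abs_mul (m : ℝ), Nat.abs_cast, abs_of_pos Real.two_pi_pos]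
  rw [h1, Real.cos_abs, ← Real.cos_add_int_mul_two_pi (2 * Real.pi * (m * (θ - n))) (m * n)]
  congr 1
  push_cast
  ring

theorem dyadic (J : ℕ) (θ : ℝ) (h : ∀ n : ℤ, 1 / 2 ^ (J + 2) ≤ |θ - n|) :
    ∃ i ≤ J, Real.cos (2 * Real.pi * ((2 ^ i : ℕ) * θ)) ≤ 0 := by
  obtain ⟨i, hi, h1, h2⟩ := dyadic_aux J |θ - round θ| (h _) (abs_sub_round θ)
  refine ⟨i, hi, ?_⟩
  rw [cos_round θ (round θ)]
  push_cast
  apply Real.cos_nonpos_of_pi_div_two_le_of_le <;> nlinarith [Real.pi_pos]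

end Crest.Agent.H8EL
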