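import Mathlib
import Crest.Agent.H8.EdA

set_option autoImplicit false

namespace Crest.Agent.H8EL

open Finset

/-- Leaves of the `b`-ary tree of height `h`. -/
def Leaf (b : ℕ) : ℕ → Type
  | 0 => Unit
  | h + 1 => Fin b × Leaf b h

/-- Nodes of the `b`-ary tree of height `h`. -/
def Node (b : ℕ) : ℕ → Type
  | 0 => Unit
  | h + 1 => Option (Fin b × Node b h)

instance leafFintype (b : ℕ) : ∀ h, Fintype (Leaf b h)
  | 0 => inferInstanceAs (Fintype Unit)
  | h + 1 => @instFintypeProd _ _ _ (leafFintype b h)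

instance nodeFintype (b : ℕ) : ∀ h, Fintype (Node b h)
  | 0 => inferInstanceAs (Fintype Unit)
  | h + 1 => @instFintypeOption _ (@instFintypeProd _ _ _ (nodeFintype b h))

/-- Constructor for leaves. -/
def Leaf.mk {b h : ℕ} (c : Fin b) (l : Leaf b h) : Leaf b (h + 1) := (c, l)

theorem Leaf.mk_inj {b h : ℕ} {c c' : Fin b} {l l' : Leaf b h} :
    Leaf.mk c l = Leaf.mk c' l' ↔ c = c' ∧ l = l' := Prod.mk.injEq c l c' l' ▸ Iff.rfl

noncomputable instance leafDecEq (b h : ℕ) : DecidableEq (Leaf b h) := Classical.decEq _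

theorem sum_leaf_succ {M : Type} [AddCommMonoid M] {b h : ℕ} (f : Leaf b (h + 1) → M) :
    ∑ l, f l = ∑ c : Fin b, ∑ l : Leaf b h, f (Leaf.mk c l) :=
  Fintype.sum_prod_type (α₁ := Fin b) (α₂ := Leaf b h) f

theorem sum_leaf_zero {M : Type} [AddCommMonoid M] {b : ℕ} (f : Leaf b 0 → M) :
    ∑ l, f l = f () :=
  Fintype.sum_unique (ι := Unit) f

theorem sum_node_succ {M : Type} [AddCommMonoid M] {b h : ℕ} (f : Node b (h + 1) → M) :
    ∑ v, f v = f none + ∑ c : Fin b, ∑ v : Node b h, f (some (c, v)) := by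
  have := Fintype.sum_option (α := Fin b × Node b h) f
  rw [Fintype.sum_prod_type] at this
  exact this

theorem card_leaf (b h : ℕ) : Fintype.card (Leaf b h) = b ^ h := by
  induction h with
  | zero => rfl
  | succ h ih =>
    have : Fintype.card (Leaf b (h + 1)) = Fintype.card (Fin b × Leaf b h) := rfl
    rw [this, Fintype.card_prod, ih, Fintype.card_fin, pow_succ']

/-- The root of the tree. -/
def root (b : ℕ) : ∀ h, Node b h
  | 0 => ()
  | _ + 1 => none

/-- The move attached to a node: add its modulus to all leaves below it. -/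
def vec {b : ℕ} (md : ℕ → Fin b → ℕ) : ∀ h, Fin b → Node b h → Leaf b h → ℤ
  | 0, c, _, _ => md 0 c
  | h + 1, c, none, _ => md (h + 1) c
  | h + 1, _, some (c', v), (c'', l) => if c'' = c' then vec md h c' v l else 0

theorem vec_none {b : ℕ} (md : ℕ → Fin b → ℕ) (h : ℕ) (c : Fin b) (l : Leaf b (h + 1)) :
    vec md (h + 1) c none l = md (h + 1) c := rfl

theorem vec_some {b : ℕ} (md : ℕ → Fin b → ℕ) (h : ℕ) (c c' c'' : Fin b) (v : Node b h)
    (l : Leaf b h) : vec md (h + 1) c (some (c', v)) (Leaf.mk c'' l) =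
      if c'' = c' then vec md h c' v l else 0 := rfl

theorem vec_root {b : ℕ} (md : ℕ → Fin b → ℕ) (h : ℕ) (c : Fin b) (l : Leaf b h) :
    vec md h c (root b h) l = md h c := by
  cases h <;> rfl

/-- The word attached to a state. -/
def str {b : ℕ} [NeZero b] {A : Type} (md : ℕ → Fin b → ℕ) (sy : Fin b → ℤ → A) (q : ℕ) :
    ∀ h, Fin b → (Leaf b h → ℤ) → List (Leaf b h × A)
  | 0, c, y => [((), sy c (y ()))]
  | h + 1, c, y => (List.range (q * b)).flatMap fun u =>
      (str md sy q h (Fin.ofNat b u)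
        (fun l => y (Leaf.mk (Fin.ofNat b u) l) + md (h + 1) c * (u / b : ℕ))).map
        (fun p => (Leaf.mk (Fin.ofNat b u) p.1, p.2))

section
variable {b : ℕ} [NeZero b] {A : Type} (md : ℕ → Fin b → ℕ) (sy : Fin b → ℤ → A) (q : ℕ)

theorem str_length : ∀ (h : ℕ) (c : Fin b) (y : Leaf b h → ℤ),
    (str md sy q h c y).length = (q * b) ^ h
  | 0, _, _ => rfl
  | h + 1, c, y => by
    rw [str, length_flatMap_const _ _ ((q * b) ^ h)
      (fun u _ => by rw [List.length_map, str_length])]
    simp [pow_succ']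

theorem str_congr (P : ℤ) (hsy : ∀ c y y', P ∣ y - y' → sy c y = sy c y') :
    ∀ (h : ℕ) (c : Fin b) (y y' : Leaf b h → ℤ), (∀ l, P ∣ y l - y' l) →
      str md sy q h c y = str md sy q h c y'
  | 0, c, y, y', hy => by rw [str, str, hsy c _ _ (hy ())]
  | h + 1, c, y, y', hy => by
    rw [str, str]
    congr 1
    funext u
    rw [str_congr P hsy h _ _ (fun l => y' (Leaf.mk (Fin.ofNat b u) l) + md (h + 1) c * (u / b : ℕ))]
    intro l
    simpa using hy (Leaf.mk (Fin.ofNat b u) l)

theorem node_cost (hsy : ∀ c y y', (md 0 c : ℤ) ∣ y - y' → sy c y = sy c y') (t : ℕ)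
    (ht : t ≤ q) : ∀ h : ℕ, ∃ cost : Node b h → ℕ, q * ∑ v, cost v ≤ h * t * (q * b) ^ h ∧
      ∀ (c : Fin b) (v : Node b h) (y : Leaf b h → ℤ),
        Close (cost v) (str md sy q h c (fun l => y l + t * vec md h c v l)) (str md sy q h c y)
  | 0 => by
    refine ⟨fun _ => 0, by simp, fun c v y => ?_⟩
    rw [str, str, hsy c _ (y ()) (by simp [vec])]
    exact Close.refl _
  | h + 1 => by
    obtain ⟨cost, h1, h2⟩ := node_cost hsy t ht h
    refine ⟨fun v => Option.casesOn v (t * b * (q * b) ^ h)
      (fun p => ∑ u ∈ range (q * b), if Fin.ofNat b u = p.1 then cost p.2 else 0), ?_, ?_⟩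
    · rw [sum_node_succ]
      have : ∑ c : Fin b, ∑ v : Node b h,
          ∑ u ∈ range (q * b), (if Fin.ofNat b u = c then cost v else 0) =
          q * b * ∑ v, cost v := by
        rw [Finset.sum_comm, Finset.mul_sum]
        refine Finset.sum_congr rfl fun v _ => ?_
        rw [Finset.sum_comm]
        simp
      simp only [this]
      calc q * (t * b * (q * b) ^ h + q * b * ∑ v, cost v)
          = t * (q * b) ^ (h + 1) + q * b * (q * ∑ v, cost v) := by ring
        _ ≤ t * (q * b) ^ (h + 1) + q * b * (h * t * (q * b) ^ h) := by gcongr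
        _ = (h + 1) * t * (q * b) ^ (h + 1) := by ring
    · intro c v y
      cases v with
      | none =>
        have key := Close.shift (fun u => (str md sy q h (Fin.ofNat b u)
          (fun l => y (Leaf.mk (Fin.ofNat b u) l) + md (h + 1) c * (u / b : ℕ))).map
          (fun p => (Leaf.mk (Fin.ofNat b u) p.1, p.2))) ((q * b) ^ h)
          ((q - t) * b) (t * b) (fun u => by rw [List.length_map, str_length])
        have e1 : (q - t) * b + t * b = q * b := by rw [← add_mul, Nat.sub_add_cancel ht]
        rw [e1] at key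
        rw [str, str]
        convert key using 2
        funext u
        have e2 : Fin.ofNat b (u + t * b) = Fin.ofNat b u := by
          ext; simp
        have e3 : (u + t * b) / b = u / b + t :=
          Nat.add_mul_div_right _ _ (Nat.pos_of_ne_zero (NeZero.ne b))
        rw [e2, e3]
        congr 2
        funext l
        rw [vec_none]
        push_cast
        ring
      | some p =>
        obtain ⟨c', v⟩ := p
        rw [str, str]
        apply Close.flatMap_range
        intro u _
        apply Close.map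
        by_cases hc : Fin.ofNat b u = c'
        · rw [if_pos hc]
          have := h2 c' v (fun l => y (Leaf.mk c' l) + md (h + 1) c * (u / b : ℕ))
          rw [hc]
          convert this using 2
          funext l
          rw [vec_some, if_pos rfl]
          ring
        · rw [if_neg hc]
          convert Close.refl _ using 2
          funext l
          rw [vec_some, if_neg hc]
          ring

theorem leaf_cost : ∀ h : ℕ, ∃ cost : Leaf b h → ℕ, ∑ v, cost v ≤ (q * b) ^ h ∧
      ∀ (c : Fin b) (v : Leaf b h) (y : Leaf b h → ℤ) (t : ℤ),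
        Close (cost v) (str md sy q h c (fun l => y l + if l = v then t else 0))
          (str md sy q h c y)
  | 0 => by
    refine ⟨fun _ => 1, by rw [sum_leaf_zero]; simp, fun c v y t => ?_⟩
    exact ⟨[], List.nil_sublist _, List.nil_sublist _, by simp [str], by simp [str]⟩
  | h + 1 => by
    obtain ⟨cost, h1, h2⟩ := leaf_cost h
    refine ⟨fun p => ∑ u ∈ range (q * b), if Fin.ofNat b u = p.1 then cost p.2 else 0, ?_, ?_⟩
    · rw [sum_leaf_succ]
      have : ∑ c : Fin b, ∑ v : Leaf b h,
          ∑ u ∈ range (q * b), (if Fin.ofNat b u = c then cost v else 0) =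
          q * b * ∑ v, cost v := by
        rw [Finset.sum_comm, Finset.mul_sum]
        refine Finset.sum_congr rfl fun v _ => ?_
        rw [Finset.sum_comm]
        simp
      refine le_of_eq_of_le this ?_
      rw [pow_succ']
      exact Nat.mul_le_mul_left _ h1
    · intro c v' y t
      obtain ⟨c', v, rfl⟩ : ∃ c' v, v' = Leaf.mk c' v := ⟨v'.1, v'.2, rfl⟩
      change Close (∑ u ∈ range (q * b), if Fin.ofNat b u = c' then cost v else 0) _ _
      rw [str, str]
      apply Close.flatMap_range
      intro u _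
      apply Close.map
      by_cases hc : Fin.ofNat b u = c'
      · rw [if_pos hc]
        have := h2 c' v (fun l => y (Leaf.mk c' l) + md (h + 1) c * (u / b : ℕ)) t
        rw [hc]
        convert this using 2
        funext l
        by_cases hl : l = v
        · rw [if_pos hl, if_pos (by rw [hl])]; ring
        · rw [if_neg hl, if_neg (fun h => hl (Leaf.mk_inj.1 h).2)]; ring
      · rw [if_neg hc]
        convert Close.refl _ using 2
        funext l
        rw [if_neg (fun h => hc (Leaf.mk_inj.1 h).1)]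
        ring

end

theorem IsMatch.card_le {α : Type} {s s' : List α} {M : Finset (ℕ × ℕ)} (h : IsMatch s s' M) :
    M.card ≤ s.length := by
  rw [← Finset.card_range s.length]
  apply Finset.card_le_card_of_injOn Prod.fst
  · intro p hp
    obtain ⟨a, ha, -⟩ := h.1 p hp
    simpa using (List.getElem?_eq_some_iff.1 ha).1
  · intro p hp p' hp' heq
    have h1 := h.2 p hp p' hp'
    have h2 := h.2 p' hp' p hp
    exact Prod.ext heq (by omega)

theorem card_dvd_le {b : ℕ} (m : Fin b → ℕ) (lo g : ℕ) (hlo : 1 ≤ lo) (hm : ∀ c, lo ≤ m c)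
    (hcop : ∀ c c', c ≠ c' → Nat.Coprime (m c) (m c')) (z : ℤ) (hz : z ≠ 0)
    (hz' : |z| < (lo : ℤ) ^ (g + 1)) (S : Finset (Fin b)) (hS : ∀ c ∈ S, (m c : ℤ) ∣ z) :
    S.card ≤ g := by
  have h1 : (∏ c ∈ S, (m c : ℤ)) ∣ z :=
    Finset.prod_dvd_of_coprime (fun c _ c' _ h => Nat.isCoprime_iff_coprime.2 (hcop c c' h)) hS
  have h2 : (∏ c ∈ S, (m c : ℤ)) ≤ |z| := Int.le_of_dvd (abs_pos.2 hz) ((dvd_abs _ _).2 h1)
  have h3 : (lo : ℤ) ^ S.card ≤ ∏ c ∈ S, (m c : ℤ) := by
    rw [← Finset.prod_const]
    exact Finset.prod_le_prod (fun _ _ => by positivity) (fun c _ => by exact_mod_cast hm c)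
  by_contra hlt
  have h4 : (lo : ℤ) ^ (g + 1) ≤ (lo : ℤ) ^ S.card :=
    pow_le_pow_right₀ (by exact_mod_cast hlo) (by omega)
  omega

theorem match_bound {b : ℕ} [NeZero b] {A : Type} (md : ℕ → Fin b → ℕ) (sy : Fin b → ℤ → A)
    (q lo hi g : ℕ) (hq : 0 < q) (hb : 2 ≤ b) (hg : 4 * g ≤ b) (hlo : 1 ≤ lo)
    (hm : ∀ h c, lo ≤ md h c) (hm' : ∀ h c, md h c ≤ hi)
    (hcop : ∀ h c c', c ≠ c' → Nat.Coprime (md h c) (md h c'))
    (hsy : ∀ c y y', sy c y = sy c y' → (md 0 c : ℤ) ∣ y - y') :
    ∀ (h : ℕ) (c : Fin b) (y : Leaf b h → ℤ) (z : ℤ) (M : Finset (ℕ × ℕ)),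
      ¬ (md h c : ℤ) ∣ z → |z| + h * (hi * q) < (lo : ℤ) ^ (g + 1) →
      IsMatch (str md sy q h c (fun l => y l + z)) (str md sy q h c y) M →
      2 ^ h * M.card + (q * b) ^ h ≤ 2 ^ h * (q * b) ^ h
  | 0, c, y, z, M, hz, _, hM => by
    have : M = ∅ := by
      apply Finset.eq_empty_of_forall_notMem
      intro p hp
      obtain ⟨a, h1, h2⟩ := hM.1 p hp
      have h3 := List.mem_of_getElem? h1
      have h4 := List.mem_of_getElem? h2
      simp only [str, List.mem_singleton] at h3 h4
      have := hsy c _ _ (Prod.mk.inj (h3.symm.trans h4)).2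
      exact hz (by simpa using this)
    simp [this]
  | h + 1, c, y, z, M, hz, hzb, hM => by
    classical
    have hb0 : 0 < b := by omega
    set L := (q * b) ^ h with hL
    have hL0 : 0 < L := by positivity
    set m := md (h + 1) c with hmdef
    -- description of the matched symbols
    have hget : ∀ (y' : Leaf b (h + 1) → ℤ) (i : ℕ) (a : Leaf b (h + 1) × A),
        (str md sy q (h + 1) c y')[i]? = some a → i / L < q * b ∧ a.1.1 = Fin.ofNat b (i / L) ∧
          (str md sy q h (Fin.ofNat b (i / L))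
            (fun l => y' (Leaf.mk (Fin.ofNat b (i / L)) l) + m * (i / L / b : ℕ)))[i % L]? =
            some (a.1.2, a.2) := by
      intro y' i a ha
      have hi' : i < (q * b) ^ (h + 1) := by
        rw [← str_length md sy q (h + 1) c y']
        exact (List.getElem?_eq_some_iff.1 ha).1
      have hu : i / L < q * b := by
        rw [Nat.div_lt_iff_lt_mul hL0, hL, ← pow_succ']; exact hi'
      have := getElem?_flatMap_range (fun u => (str md sy q h (Fin.ofNat b u)
          (fun l => y' (Leaf.mk (Fin.ofNat b u) l) + m * (u / b : ℕ))).map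
          (fun p => (Leaf.mk (Fin.ofNat b u) p.1, p.2))) L (q * b)
          (fun u => by rw [List.length_map, str_length]) (i / L) (i % L) hu (Nat.mod_lt _ hL0)
      rw [Nat.div_add_mod' i L] at this
      have ha' := this.symm.trans ha
      rw [List.getElem?_map, Option.map_eq_some_iff] at ha'
      obtain ⟨p, hp, rfl⟩ := ha'
      exact ⟨hu, rfl, hp⟩
    set blk : ℕ × ℕ → ℕ × ℕ := fun p => (p.1 / L, p.2 / L) with hblk
    set N := M.image blk with hN
    have hNprop : ∀ n ∈ N, n.1 < q * b ∧ n.2 < q * b ∧ n.1 % b = n.2 % b := by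
      intro n hn
      obtain ⟨p, hp, rfl⟩ := Finset.mem_image.1 hn
      obtain ⟨a, h1, h2⟩ := hM.1 p hp
      obtain ⟨h3, h4, -⟩ := hget _ _ _ h1
      obtain ⟨h5, h6, -⟩ := hget _ _ _ h2
      exact ⟨h3, h5, by simpa [Fin.ext_iff] using congrArg Fin.val (h4.symm.trans h6)⟩
    have hchain : ∀ n ∈ N, ∀ n' ∈ N, (n.1 ≤ n'.1 ∧ n.2 ≤ n'.2) ∨ (n'.1 ≤ n.1 ∧ n'.2 ≤ n.2) := by
      intro n hn n' hn'
      obtain ⟨p, hp, rfl⟩ := Finset.mem_image.1 hn
      obtain ⟨p', hp', rfl⟩ := Finset.mem_image.1 hn'
      have h1 := hM.2 p hp p' hp'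
      have h2 := hM.2 p' hp' p hp
      by_cases h3 : p'.1 < p.1
      · exact Or.inr ⟨Nat.div_le_div_right h3.le, Nat.div_le_div_right (h2.1 h3).le⟩
      · exact Or.inl ⟨Nat.div_le_div_right (by omega), Nat.div_le_div_right (by omega)⟩
    have hNcard : N.card ≤ q * b := by
      rw [← Finset.card_range (q * b)]
      apply Finset.card_le_card_of_injOn (fun n => (n.1 + n.2) / 2)
      · intro n hn
        obtain ⟨h1, h2, -⟩ := hNprop n hn
        simp only [Finset.coe_range, Set.mem_Iio]
        omega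
      · intro n hn n' hn' heq
        obtain ⟨-, -, h1⟩ := hNprop n hn
        obtain ⟨-, -, h2⟩ := hNprop n' hn'
        have key : ∀ x : ℕ, x % b ≠ (x + 1) % b := by
          intro x hx
          have := (Nat.modEq_iff_dvd' (Nat.le_succ x)).1 hx
          simp at this
          omega
        simp only at heq
        by_contra hne
        have hne' : n.1 ≠ n'.1 ∨ n.2 ≠ n'.2 := by
          by_contra h'
          push Not at h'
          exact hne (Prod.ext h'.1 h'.2)
        have : (n.1 = n'.1 ∧ n.2 + 1 = n'.2) ∨ (n.1 + 1 = n'.1 ∧ n.2 = n'.2) ∨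
            (n.1 = n'.1 ∧ n.2 = n'.2 + 1) ∨ (n.1 = n'.1 + 1 ∧ n.2 = n'.2) := by
          rcases hchain n hn n' hn' with h' | h' <;> omega
        rcases this with ⟨e1, e2⟩ | ⟨e1, e2⟩ | ⟨e1, e2⟩ | ⟨e1, e2⟩
        · exact key n.2 (by rw [e2, ← h2, ← e1, h1])
        · exact key n.1 (by rw [e1, h2, ← e2, h1])
        · exact key n'.2 (by rw [← e2, ← h1, e1, h2])
        · exact key n'.1 (by rw [← e1, h1, e2, h2])
    set bad : ℕ × ℕ → Prop := fun n =>
      (md h (Fin.ofNat b n.1) : ℤ) ∣ z + m * ((n.1 / b : ℕ) - (n.2 / b : ℕ)) with hbad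
    have hzz : ∀ n ∈ N, |z + m * ((n.1 / b : ℕ) - (n.2 / b : ℕ))| + h * (hi * q) <
        (lo : ℤ) ^ (g + 1) := by
      intro n hn
      obtain ⟨h1, h2, -⟩ := hNprop n hn
      have h3 : n.1 / b < q := (Nat.div_lt_iff_lt_mul hb0).2 h1
      have h4 : n.2 / b < q := (Nat.div_lt_iff_lt_mul hb0).2 h2
      have h5 : |(m : ℤ) * ((n.1 / b : ℕ) - (n.2 / b : ℕ))| ≤ hi * q := by
        rw [abs_mul, Nat.abs_cast]
        apply mul_le_mul (by exact_mod_cast hm' _ _) _ (abs_nonneg _) (by positivity)
        generalize n.1 / b = x at h3 ⊢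
        generalize n.2 / b = x' at h4 ⊢
        rw [abs_le]; constructor <;> omega
      have h6 := abs_add_le z (m * ((n.1 / b : ℕ) - (n.2 / b : ℕ)))
      push_cast at hzb ⊢
      push_cast at h5 h6
      linarith
    have hbadcard : (N.filter bad).card ≤ g * (2 * q) := by
      have h1 : (N.filter bad).card ≤
          g * ((N.filter bad).image (fun n => (n.1 / b, n.2 / b))).card := by
        apply Finset.card_le_mul_card_image
        intro e he
        obtain ⟨n₀, hn₀, rfl⟩ := Finset.mem_image.1 he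
        have hn₀N := (Finset.mem_filter.1 hn₀).1
        have hz0 : z + m * ((n₀.1 / b : ℕ) - (n₀.2 / b : ℕ)) ≠ 0 := by
          intro h0
          apply hz
          exact ⟨(n₀.2 / b : ℕ) - (n₀.1 / b : ℕ), by linarith⟩
        have hz1 : |z + m * ((n₀.1 / b : ℕ) - (n₀.2 / b : ℕ))| < (lo : ℤ) ^ (g + 1) := by
          have := hzz n₀ hn₀N
          have h2 : (0 : ℤ) ≤ h * (hi * q) := by positivity
          linarith
        rw [← Finset.card_image_of_injOn (f := fun n : ℕ × ℕ => Fin.ofNat b n.1)]
        · apply card_dvd_le (md h) lo g hlo (hm h) (hcop h) _ hz0 hz1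
          intro c' hc'
          obtain ⟨n, hn, rfl⟩ := Finset.mem_image.1 hc'
          obtain ⟨hn1, hn2⟩ := Finset.mem_filter.1 hn
          obtain ⟨e1, e2⟩ := Prod.mk.inj hn2
          rw [← e1, ← e2]
          exact (Finset.mem_filter.1 hn1).2
        · intro n hn n' hn' heq
          obtain ⟨hn1, hn2⟩ := Finset.mem_filter.1 hn
          obtain ⟨hn1', hn2'⟩ := Finset.mem_filter.1 hn'
          obtain ⟨e1, e2⟩ := Prod.mk.inj (hn2.trans hn2'.symm)
          obtain ⟨-, -, e3⟩ := hNprop n (Finset.mem_filter.1 hn1).1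
          obtain ⟨-, -, e4⟩ := hNprop n' (Finset.mem_filter.1 hn1').1
          have e5 : n.1 % b = n'.1 % b := by simpa [Fin.ext_iff] using heq
          refine Prod.ext ?_ ?_
          · rw [← Nat.div_add_mod n.1 b, ← Nat.div_add_mod n'.1 b, e1, e5]
          · rw [← Nat.div_add_mod n.2 b, ← Nat.div_add_mod n'.2 b, e2, ← e3, ← e4, e5]
      have h2 : ((N.filter bad).image (fun n => (n.1 / b, n.2 / b))).card ≤ 2 * q := by
        rw [← Finset.card_range (2 * q)]
        apply Finset.card_le_card_of_injOn (fun e => e.1 + e.2)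
        · intro e he
          obtain ⟨n, hn, rfl⟩ := Finset.mem_image.1 he
          obtain ⟨h1, h2, -⟩ := hNprop n (Finset.mem_filter.1 hn).1
          have h3 : n.1 / b < q := (Nat.div_lt_iff_lt_mul hb0).2 h1
          have h4 : n.2 / b < q := (Nat.div_lt_iff_lt_mul hb0).2 h2
          simp only [Finset.coe_range, Set.mem_Iio]
          omega
        · intro e he e' he' heq
          obtain ⟨n, hn, rfl⟩ := Finset.mem_image.1 he
          obtain ⟨n', hn', rfl⟩ := Finset.mem_image.1 he'
          simp only at heq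
          rcases hchain n (Finset.mem_filter.1 hn).1 n' (Finset.mem_filter.1 hn').1 with h' | h'
          · have h3 : n.1 / b ≤ n'.1 / b := Nat.div_le_div_right h'.1
            have h4 : n.2 / b ≤ n'.2 / b := Nat.div_le_div_right h'.2
            exact Prod.ext (by simp only; omega) (by simp only; omega)
          · have h3 : n'.1 / b ≤ n.1 / b := Nat.div_le_div_right h'.1
            have h4 : n'.2 / b ≤ n.2 / b := Nat.div_le_div_right h'.2
            exact Prod.ext (by simp only; omega) (by simp only; omega)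
      exact h1.trans (Nat.mul_le_mul_left _ h2)
    have hfib : ∀ n ∈ N, 2 ^ h * (M.filter (fun p => blk p = n)).card + L ≤
        2 ^ h * L + if bad n then L else 0 := by
      intro n hn
      obtain ⟨-, -, hn3⟩ := hNprop n hn
      have hc2 : Fin.ofNat b n.2 = Fin.ofNat b n.1 := by ext; simp [hn3]
      set M' := (M.filter (fun p => blk p = n)).image (fun p => (p.1 % L, p.2 % L)) with hM'
      have hcard : M'.card = (M.filter (fun p => blk p = n)).card := by
        apply Finset.card_image_of_injOn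
        intro p hp p' hp' heq
        obtain ⟨e1, e2⟩ := Prod.mk.inj
          ((Finset.mem_filter.1 hp).2.trans (Finset.mem_filter.1 hp').2.symm)
        obtain ⟨e3, e4⟩ := Prod.mk.inj heq
        refine Prod.ext ?_ ?_
        · rw [← Nat.div_add_mod p.1 L, ← Nat.div_add_mod p'.1 L, e1, e3]
        · rw [← Nat.div_add_mod p.2 L, ← Nat.div_add_mod p'.2 L, e2, e4]
      have hmatch : IsMatch
          (str md sy q h (Fin.ofNat b n.1) (fun l => (y (Leaf.mk (Fin.ofNat b n.1) l) + m * (n.2 / b : ℕ)) +
            (z + m * ((n.1 / b : ℕ) - (n.2 / b : ℕ)))))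
          (str md sy q h (Fin.ofNat b n.1) (fun l => y (Leaf.mk (Fin.ofNat b n.1) l) + m * (n.2 / b : ℕ)))
          M' := by
        constructor
        · intro p' hp'
          obtain ⟨p, hp, rfl⟩ := Finset.mem_image.1 hp'
          obtain ⟨hp1, hp2⟩ := Finset.mem_filter.1 hp
          obtain ⟨a, h1, h2⟩ := hM.1 p hp1
          obtain ⟨-, -, h3⟩ := hget _ _ _ h1
          obtain ⟨-, -, h4⟩ := hget _ _ _ h2
          have e1 : p.1 / L = n.1 := congrArg Prod.fst hp2
          have e2 : p.2 / L = n.2 := congrArg Prod.snd hp2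
          rw [e1] at h3
          rw [e2, hc2] at h4
          refine ⟨(a.1.2, a.2), ?_, h4⟩
          convert h3 using 3
          funext l
          ring
        · intro p' hp' r' hr'
          obtain ⟨p, hp, rfl⟩ := Finset.mem_image.1 hp'
          obtain ⟨r, hr, rfl⟩ := Finset.mem_image.1 hr'
          obtain ⟨e1, e2⟩ := Prod.mk.inj
            ((Finset.mem_filter.1 hp).2.trans (Finset.mem_filter.1 hr).2.symm)
          have h1 := hM.2 p (Finset.mem_filter.1 hp).1 r (Finset.mem_filter.1 hr).1
          have h2 := Nat.div_add_mod p.1 L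
          have h3 := Nat.div_add_mod r.1 L
          have h4 := Nat.div_add_mod p.2 L
          have h5 := Nat.div_add_mod r.2 L
          rw [e1] at h2
          rw [e2] at h4
          simp only
          omega
      rw [← hcard]
      by_cases hbn : bad n
      · rw [if_pos hbn]
        have := hmatch.card_le
        rw [str_length] at this
        exact Nat.add_le_add_right (Nat.mul_le_mul_left _ this) _
      · rw [if_neg hbn]
        exact match_bound md sy q lo hi g hq hb hg hlo hm hm' hcop hsy h _ _ _ M' hbn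
          (hzz n hn) hmatch
    have hsum := Finset.sum_le_sum hfib
    rw [Finset.sum_add_distrib, Finset.sum_add_distrib, ← Finset.mul_sum,
      ← Finset.card_eq_sum_card_image, ← Finset.sum_filter] at hsum
    simp only [Finset.sum_const, smul_eq_mul] at hsum
    obtain ⟨k, hk⟩ : ∃ k, 2 ^ h = k + 1 := ⟨2 ^ h - 1, by have := Nat.one_le_two_pow (n := h); omega⟩
    rw [pow_succ 2 h, pow_succ' (q * b) h, ← hL, hk]
    rw [hk] at hsum
    have h1 : N.card * (k * L) ≤ q * b * (k * L) := Nat.mul_le_mul_right _ hNcard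
    have h2 : (N.filter bad).card * L ≤ g * (2 * q) * L := Nat.mul_le_mul_right _ hbadcard
    have h3 : 4 * g * (q * L) ≤ b * (q * L) := Nat.mul_le_mul_right _ hg
    nlinarith

end Crest.Agent.H8EL
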