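import Mathlib
import Crest.Agent.H8.EdB
import Crest.Agent.H8.EdC

set_option autoImplicit false

namespace Crest.Agent.H8EL

open Finset Crest.GeometryTopology.EditDistance

open Classical in
theorem active {b : ℕ} (md : ℕ → Fin b → ℕ) (hi g : ℕ) (η : ℝ) (hη0 : 0 < η)
    (hpos : ∀ h c, 1 ≤ md h c) (hm' : ∀ h c, md h c ≤ hi)
    (hcop : ∀ h c c', Nat.Coprime (md (h + 1) c) (md h c'))
    (hη1 : (b + 1) * η * hi ^ g ≤ 1) (hη2 : 2 * η * hi ≤ 1) :
    ∀ (h : ℕ) (c : Fin b) (β : Leaf b h → ℝ),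
      (∀ v : Node b h, ∃ j : ℤ, |∑ l, vec md h c v l * β l - j| < η) →
      ∀ j : ℤ, |md h c * ∑ l, β l - j| < η → ¬ (md h c : ℤ) ∣ j →
      g ^ h ≤ (univ.filter (fun l => ∀ n : ℤ, η ≤ |β l - n|)).card
  | 0, c, β, _, j, hj, hnd => by
    rw [pow_zero]
    apply Finset.card_pos.2
    refine ⟨(), Finset.mem_filter.2 ⟨Finset.mem_univ _, fun n => ?_⟩⟩
    rw [sum_leaf_zero] at hj
    by_contra hlt
    push Not at hlt
    have h1 : (1 : ℝ) ≤ md 0 c := by exact_mod_cast hpos 0 c
    have h2 : (md 0 c : ℝ) ≤ hi := by exact_mod_cast hm' 0 c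
    have h3 : |(md 0 c : ℝ) * (β () - n)| ≤ hi * η := by
      rw [abs_mul, Nat.abs_cast]
      exact mul_le_mul h2 hlt.le (abs_nonneg _) (by positivity)
    have h4 : |((j - md 0 c * n : ℤ) : ℝ)| < 1 := by
      push_cast
      have h5 := abs_lt.1 hj
      have h6 := abs_le.1 h3
      rw [abs_lt]
      constructor <;> nlinarith
    have h5 : j - md 0 c * n = 0 := by
      have : |j - md 0 c * n| < 1 := by exact_mod_cast h4
      exact Int.abs_lt_one_iff.1 this
    exact hnd ⟨n, by linarith⟩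
  | h + 1, c, β, hv, j, hj, hnd => by
    have hsub : ∀ c' (v : Node b h), ∑ l, (vec md (h + 1) c (some (c', v)) l : ℝ) * β l =
        ∑ l, vec md h c' v l * β (Leaf.mk c' l) := by
      intro c' v
      rw [sum_leaf_succ, Finset.sum_eq_single c' (fun c'' _ hc => by simp [vec_some, hc])
        (by simp)]
      simp [vec_some]
    have hch : ∀ c', ∃ j' : ℤ, |md h c' * ∑ l, β (Leaf.mk c' l) - j'| < η := by
      intro c'
      obtain ⟨j', hj'⟩ := hv (some (c', root b h))
      rw [hsub] at hj'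
      simp only [vec_root, Int.cast_natCast, ← Finset.mul_sum] at hj'
      exact ⟨j', hj'⟩
    choose jc hjc using hch
    set A := univ.filter (fun c' => ¬ (md h c' : ℤ) ∣ jc c') with hA
    have hgA : g ≤ A.card := by
      by_contra hlt
      push Not at hlt
      set Q : ℕ := ∏ c' ∈ A, md h c' with hQ
      set m := md (h + 1) c with hm
      have hn : ∀ c', ∃ n : ℤ, Q * jc c' = n * md h c' := by
        intro c'
        by_cases hc' : c' ∈ A
        · obtain ⟨k, hk⟩ : md h c' ∣ Q := Finset.dvd_prod_of_mem _ hc'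
          exact ⟨k * jc c', by rw [hk]; push_cast; ring⟩
        · have : (md h c' : ℤ) ∣ jc c' := by simpa [hA] using hc'
          obtain ⟨k, hk⟩ := this
          exact ⟨Q * k, by rw [hk]; ring⟩
      choose nc hnc using hn
      have hne : j * Q - m * ∑ c', nc c' ≠ 0 := by
        intro h0
        apply hnd
        have h1 : (m : ℤ) ∣ j * Q := ⟨∑ c', nc c', by linarith⟩
        have h2 : IsCoprime (m : ℤ) (Q : ℤ) :=
          Nat.isCoprime_iff_coprime.2 (Nat.Coprime.prod_right fun c' _ => hcop h c c')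
        exact h2.dvd_of_dvd_mul_right h1
      have hQ1 : 1 ≤ Q := Finset.one_le_prod' fun c' _ => hpos h c'
      have hQ0 : (1 : ℝ) ≤ Q := by exact_mod_cast hQ1
      have hm0 : (1 : ℝ) ≤ m := by exact_mod_cast hpos (h + 1) c
      have hhi : 1 ≤ hi := (hpos 0 c).trans (hm' 0 c)
      have hmQ : (m : ℝ) * Q ≤ hi ^ g := by
        have h1 : Q ≤ hi ^ A.card := Finset.prod_le_pow_card _ _ _ fun c' _ => hm' h c'
        have h2 : m * Q ≤ hi ^ g := by
          calc m * Q ≤ hi * hi ^ A.card := Nat.mul_le_mul (hm' _ _) h1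
            _ = hi ^ (A.card + 1) := by ring
            _ ≤ hi ^ g := Nat.pow_le_pow_right hhi hlt
        exact_mod_cast h2
      have hterm : ∀ c', |Q * ∑ l, β (Leaf.mk c' l) - nc c'| ≤ Q * η := by
        intro c'
        have h1 : (1 : ℝ) ≤ md h c' := by exact_mod_cast hpos h c'
        have h2 : (Q : ℝ) * jc c' = nc c' * md h c' := by exact_mod_cast hnc c'
        have h3 : (md h c' : ℝ) * (Q * ∑ l, β (Leaf.mk c' l) - nc c') =
            Q * (md h c' * ∑ l, β (Leaf.mk c' l) - jc c') := by linarith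
        have h4 : (md h c' : ℝ) * |Q * ∑ l, β (Leaf.mk c' l) - nc c'| ≤ Q * η := by
          rw [← Nat.abs_cast (R := ℝ) (md h c'), ← abs_mul, h3, abs_mul, Nat.abs_cast]
          exact mul_le_mul_of_nonneg_left (hjc c').le (by positivity)
        nlinarith [abs_nonneg (Q * ∑ l, β (Leaf.mk c' l) - nc c')]
      have hsum : |Q * ∑ l, β l - ∑ c', (nc c' : ℝ)| ≤ b * (Q * η) := by
        rw [sum_leaf_succ, Finset.mul_sum, ← Finset.sum_sub_distrib]
        refine (Finset.abs_sum_le_sum_abs _ _).trans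
          ((Finset.sum_le_sum fun c' _ => hterm c').trans ?_)
        simp
      have hlt1 : |((j * Q - m * ∑ c', nc c' : ℤ) : ℝ)| < 1 := by
        push_cast
        have h1 : (j : ℝ) * Q - m * ∑ c', (nc c' : ℝ) =
            m * (Q * ∑ l, β l - ∑ c', (nc c' : ℝ)) - Q * (m * ∑ l, β l - j) := by ring
        rw [h1]
        refine (abs_sub _ _).trans_lt ?_
        rw [abs_mul, abs_mul (Q : ℝ), Nat.abs_cast, Nat.abs_cast]
        have h2 : (m : ℝ) * |Q * ∑ l, β l - ∑ c', (nc c' : ℝ)| ≤ m * (b * (Q * η)) :=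
          mul_le_mul_of_nonneg_left hsum (by positivity)
        have h3 : (Q : ℝ) * |m * ∑ l, β l - j| < Q * η := mul_lt_mul_of_pos_left hj (by linarith)
        have h4 : (Q : ℝ) * η ≤ m * (Q * η) := le_mul_of_one_le_left (by positivity) hm0
        have h5 : (b + 1) * η * (m * Q) ≤ (b + 1) * η * hi ^ g :=
          mul_le_mul_of_nonneg_left hmQ (by positivity)
        nlinarith
      have : |j * Q - m * ∑ c', nc c'| < 1 := by exact_mod_cast hlt1
      exact hne (Int.abs_lt_one_iff.1 this)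
    have hIH : ∀ c' ∈ A, g ^ h ≤
        (univ.filter (fun l => ∀ n : ℤ, η ≤ |β (Leaf.mk c' l) - n|)).card := by
      intro c' hc'
      refine active md hi g η hη0 hpos hm' hcop hη1 hη2 h c' (fun l => β (Leaf.mk c' l))
        (fun v => ?_) (jc c') (hjc c') (Finset.mem_filter.1 hc').2
      rw [← hsub]
      exact hv _
    rw [Finset.card_filter, sum_leaf_succ]
    simp only [← Finset.card_filter]
    calc g ^ (h + 1) = g * g ^ h := pow_succ' _ _
      _ ≤ A.card * g ^ h := Nat.mul_le_mul_right _ hgA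
      _ = ∑ _c' ∈ A, g ^ h := by simp
      _ ≤ _ := (Finset.sum_le_sum hIH).trans
          (Finset.sum_le_sum_of_subset (Finset.subset_univ _))

/-- The moves. -/
noncomputable def move {b : ℕ} (md : ℕ → Fin b → ℕ) (k J : ℕ) (c : Fin b) :
    (Node b k × Fin (J + 1)) ⊕ (Leaf b k × Fin (J + 1)) → Leaf b k → ℤ
  | Sum.inl p => fun l => ((2 ^ (p.2 : ℕ) : ℕ) : ℤ) * vec md k c p.1 l
  | Sum.inr p => fun l => if l = p.1 then ((2 ^ (p.2 : ℕ) : ℕ) : ℤ) else 0

/-- The weights of the moves. -/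
noncomputable def wt (b k J g : ℕ) : (Node b k × Fin (J + 1)) ⊕ (Leaf b k × Fin (J + 1)) → ℝ
  | Sum.inl _ => 2
  | Sum.inr _ => 2 / g ^ k

theorem wt_inl (b k J g : ℕ) (p : Node b k × Fin (J + 1)) : wt b k J g (Sum.inl p) = 2 := rfl

theorem wt_inr (b k J g : ℕ) (p : Leaf b k × Fin (J + 1)) :
    wt b k J g (Sum.inr p) = 2 / g ^ k := rfl

theorem angle {b : ℕ} (md : ℕ → Fin b → ℕ) (hi g J k : ℕ) (hg : 0 < g)
    (hpos : ∀ h c, 1 ≤ md h c) (hm' : ∀ h c, md h c ≤ hi)
    (hcop : ∀ h c c', Nat.Coprime (md (h + 1) c) (md h c'))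
    (hη1 : (b + 1) * hi ^ g ≤ 2 ^ (J + 2)) (hη2 : 2 * hi ≤ 2 ^ (J + 2)) (c : Fin b)
    (β : Leaf b k → ℝ) :
    1 - Real.cos (2 * Real.pi * ∑ l, ((1 : ℤ) : ℝ) * β l) ≤
      ∑ s, wt b k J g s * (1 - Real.cos (2 * Real.pi * ∑ l, move md k J c s l * β l)) := by
  classical
  set η : ℝ := 1 / 2 ^ (J + 2) with hη
  have hη0 : 0 < η := by positivity
  have hwt : ∀ s, 0 ≤ wt b k J g s := by
    rintro (s | s) <;> simp only [wt] <;> positivity
  have hterm : ∀ s, 0 ≤ wt b k J g s *
      (1 - Real.cos (2 * Real.pi * ∑ l, move md k J c s l * β l)) := fun s =>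
    mul_nonneg (hwt s) (by linarith [Real.cos_le_one (2 * Real.pi * ∑ l, move md k J c s l * β l)])
  have hsingle : ∀ s, wt b k J g s * (1 - Real.cos (2 * Real.pi * ∑ l, move md k J c s l * β l)) ≤
      ∑ s, wt b k J g s * (1 - Real.cos (2 * Real.pi * ∑ l, move md k J c s l * β l)) := fun s =>
    Finset.single_le_sum (fun s _ => hterm s) (Finset.mem_univ s)
  have hl2 : 1 - Real.cos (2 * Real.pi * ∑ l, ((1 : ℤ) : ℝ) * β l) ≤ 2 := by
    linarith [Real.neg_one_le_cos (2 * Real.pi * ∑ l, ((1 : ℤ) : ℝ) * β l)]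
  have hinl : ∀ (v : Node b k) (i : Fin (J + 1)), ∑ l, (move md k J c (Sum.inl (v, i)) l : ℝ) * β l =
      (2 ^ (i : ℕ) : ℕ) * ∑ l, vec md k c v l * β l := by
    intro v i
    rw [Finset.mul_sum]
    refine Finset.sum_congr rfl fun l _ => ?_
    simp only [move]
    push_cast
    ring
  have hinr : ∀ (v : Leaf b k) (i : Fin (J + 1)), ∑ l, (move md k J c (Sum.inr (v, i)) l : ℝ) * β l =
      (2 ^ (i : ℕ) : ℕ) * β v := by
    intro v i
    rw [Finset.sum_eq_single v (fun l _ hl => by simp [move, hl]) (by simp)]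
    simp [move]
  by_cases hv : ∀ v : Node b k, ∃ j : ℤ, |∑ l, vec md k c v l * β l - j| < η
  swap
  · push Not at hv
    obtain ⟨v, hv⟩ := hv
    obtain ⟨i, hi, hcos⟩ := dyadic J _ hv
    have := hsingle (Sum.inl (v, ⟨i, by omega⟩))
    rw [hinl, wt_inl] at this
    linarith
  obtain ⟨j, hj⟩ := hv (root b k)
  simp only [vec_root, Int.cast_natCast, ← Finset.mul_sum] at hj
  by_cases hd : (md k c : ℤ) ∣ j
  · obtain ⟨n, rfl⟩ := hd
    have h1 := hsingle (Sum.inl (root b k, 0))
    rw [hinl] at h1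
    simp only [vec_root, Int.cast_natCast, ← Finset.mul_sum, wt_inl, Fin.val_zero, pow_zero,
      Nat.cast_one, one_mul] at h1
    rw [cos_round _ n] at h1
    have h2 := cos_round (∑ l, β l) n 1
    simp only [Nat.cast_one, one_mul, Int.cast_one] at h2 ⊢
    rw [h2]
    have hm1 : (1 : ℝ) ≤ md k c := by exact_mod_cast hpos k c
    have h3 : (md k c : ℝ) * |∑ l, β l - n| < η := by
      push_cast at hj
      rwa [← mul_sub, abs_mul, Nat.abs_cast] at hj
    have h4 : η ≤ 1 / 4 := by
      rw [hη]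
      apply one_div_le_one_div_of_le (by norm_num)
      have : (1 : ℝ) ≤ 2 ^ J := one_le_pow₀ (by norm_num)
      rw [pow_add]; linarith
    have h5 : Real.cos (2 * Real.pi * (md k c * |∑ l, β l - n|)) ≤
        Real.cos (2 * Real.pi * |∑ l, β l - n|) := by
      have h0 := abs_nonneg (∑ l, β l - n)
      apply Real.cos_le_cos_of_nonneg_of_le_pi (by positivity)
      · nlinarith [Real.pi_pos]
      · apply mul_le_mul_of_nonneg_left _ (by positivity)
        nlinarith
    linarith [Real.cos_le_one (2 * Real.pi * (md k c * |∑ l, β l - n|))]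
  · have h2J : (0 : ℝ) < 2 ^ (J + 2) := by positivity
    have hact := active md hi g η hη0 hpos hm' hcop (by
      have : ((b : ℝ) + 1) * hi ^ g ≤ 2 ^ (J + 2) := by exact_mod_cast hη1
      rw [hη, mul_right_comm, mul_one_div, div_le_one h2J]; exact this) (by
      have : (2 : ℝ) * hi ≤ 2 ^ (J + 2) := by exact_mod_cast hη2
      rw [hη, mul_right_comm, mul_one_div, div_le_one h2J]; exact this) k c β hv j hj hd
    set B := univ.filter (fun l => ∀ n : ℤ, η ≤ |β l - n|) with hB
    have hgk : (0 : ℝ) < g ^ k := by positivity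
    have h1 : ∀ l ∈ B, 2 / (g : ℝ) ^ k ≤ ∑ i : Fin (J + 1), wt b k J g (Sum.inr (l, i)) *
        (1 - Real.cos (2 * Real.pi * ∑ l', move md k J c (Sum.inr (l, i)) l' * β l')) := by
      intro l hl
      obtain ⟨i, hi, hcos⟩ := dyadic J _ (Finset.mem_filter.1 hl).2
      refine le_trans ?_ (Finset.single_le_sum (fun i _ => hterm (Sum.inr (l, i)))
        (Finset.mem_univ (⟨i, by omega⟩ : Fin (J + 1))))
      rw [hinr]
      simp only [wt]
      exact le_mul_of_one_le_right (by positivity) (by linarith)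
    have h2 := Finset.sum_le_sum h1
    rw [Finset.sum_const, nsmul_eq_mul] at h2
    have h3 : (2 : ℝ) ≤ B.card * (2 / g ^ k) := by
      have : (g : ℝ) ^ k ≤ B.card := by exact_mod_cast hact
      rw [mul_div_assoc', le_div_iff₀ hgk]
      linarith
    rw [Fintype.sum_sum_type, Fintype.sum_prod_type (α₁ := Leaf b k)]
    have h4 := Finset.sum_le_sum_of_subset_of_nonneg (Finset.subset_univ B)
      (f := fun l => ∑ i : Fin (J + 1), wt b k J g (Sum.inr (l, i)) *
        (1 - Real.cos (2 * Real.pi * ∑ l', move md k J c (Sum.inr (l, i)) l' * β l')))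
      (fun l _ _ => Finset.sum_nonneg fun i _ => hterm _)
    have h5 : 0 ≤ ∑ s : Node b k × Fin (J + 1), wt b k J g (Sum.inl s) *
        (1 - Real.cos (2 * Real.pi * ∑ l, move md k J c (Sum.inl s) l * β l)) :=
      Finset.sum_nonneg fun s _ => hterm _
    linarith

theorem final_algebra (G s L D w J γ τ : ℝ) (hG : 0 < G) (hs : 0 < s) (hL : 0 < L) (hγ : 0 < γ)
    (hτ : 0 < τ) (h : G * (s * (L / (3 * τ))) ≤ G * (D * s * (4 * w)) * (J * (L / γ))) :
    γ ≤ 12 * τ * w * J * D := by
  have h1 : G * s * L * γ ≤ G * s * L * (12 * τ * w * J * D) := by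
    have := mul_le_mul_of_nonneg_right h (by positivity : (0 : ℝ) ≤ 3 * τ * γ)
    refine le_of_eq_of_le ?_ (this.trans (le_of_eq ?_))
    · field_simp
    · field_simp; ring
  exact le_of_mul_le_mul_left h1 (by positivity)

theorem core {b : ℕ} [NeZero b] (md : ℕ → Fin b → ℕ) (q lo hi g g' J k r : ℕ)
    (hg : 0 < g) (hb : 2 ≤ b) (hg' : 4 * g' ≤ b) (hlo : 2 ≤ lo)
    (hm : ∀ h c, lo ≤ md h c) (hm' : ∀ h c, md h c ≤ hi)
    (hcop : ∀ h c c', c ≠ c' → Nat.Coprime (md h c) (md h c'))
    (hcop' : ∀ h c c', Nat.Coprime (md (h + 1) c) (md h c'))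
    (hη1 : (b + 1) * hi ^ g ≤ 2 ^ (J + 2)) (hη2 : 2 * hi ≤ 2 ^ (J + 2))
    (hq : (k + 1) * 2 ^ (J + 1) * g ^ k ≤ q) (hZ : 1 + k * (hi * q) < lo ^ (g' + 1))
    (hr : b ^ k * hi ≤ 2 ^ r)
    (f : List Bool → lp (fun _ : ℕ => ℝ) 1) (s D : ℝ) (hs : 0 < s)
    (hf : ∀ x y : List Bool, x.length = (q * b) ^ k * (2 * r + 3) →
      y.length = (q * b) ^ k * (2 * r + 3) → x ≠ y →
      s * (editDist x y : ℝ) ≤ ‖f x - f y‖ ∧ ‖f x - f y‖ ≤ D * s * (editDist x y : ℝ)) :
    (g : ℝ) ^ k ≤ 12 * 2 ^ k * (2 * r + 3) * (J + 2) * D := by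
  classical
  let c₀ : Fin b := 0
  have hpos : ∀ h c, 1 ≤ md h c := fun h c => (by omega : 1 ≤ lo).trans (hm h c)
  have hhi : 0 < hi := (hpos 0 c₀).trans (hm' 0 c₀)
  have : NeZero hi := ⟨hhi.ne'⟩
  have hq0 : 0 < q := lt_of_lt_of_le (by positivity) hq
  have hqJ : ∀ i : Fin (J + 1), 2 ^ (i : ℕ) ≤ q := by
    intro i
    calc 2 ^ (i : ℕ) ≤ 1 * 2 ^ (J + 1) * 1 := by
          simpa using Nat.pow_le_pow_right (by norm_num) i.2.le
      _ ≤ (k + 1) * 2 ^ (J + 1) * g ^ k := by
          gcongr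
          · omega
          · exact Nat.one_le_pow _ _ hg
      _ ≤ q := hq
  let sy : Fin b → ℤ → Fin hi := fun c y => Fin.ofNat hi (y % md 0 c).toNat
  have hsy1 : ∀ c y y', (md 0 c : ℤ) ∣ y - y' → sy c y = sy c y' := by
    intro c y y' h
    simp only [sy]
    rw [(Int.emod_emod_of_dvd y (dvd_refl _)).symm, Int.emod_emod_of_dvd _ (dvd_refl _),
      (Int.modEq_iff_dvd.2 ((dvd_neg.2 h).trans (by simp)) : y % md 0 c = y' % md 0 c)]
  have hsy2 : ∀ c y y', sy c y = sy c y' → (md 0 c : ℤ) ∣ y - y' := by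
    intro c y y' h
    have h0 : (0 : ℤ) < md 0 c := by exact_mod_cast hpos 0 c
    have h1 := Int.emod_nonneg y h0.ne'
    have h2 := Int.emod_nonneg y' h0.ne'
    have h3 := Int.emod_lt_of_pos y h0
    have h4 := Int.emod_lt_of_pos y' h0
    have h5 := hm' 0 c
    have h6 := congrArg Fin.val h
    simp only [sy, Fin.val_ofNat] at h6
    rw [Nat.mod_eq_of_lt (by omega), Nat.mod_eq_of_lt (by omega)] at h6
    exact Int.ModEq.dvd (show y' % md 0 c = y % md 0 c by omega)
  obtain ⟨e⟩ : Nonempty ((Leaf b k × Fin hi) ↪ (Fin r → Bool)) :=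
    Function.Embedding.nonempty_of_card_le (by simpa [card_leaf] using hr)
  let bit : Leaf b k × Fin hi → ℕ → Bool := fun x j => if h : j < r then e x ⟨j, h⟩ else false
  have hbit : ∀ x x', (∀ j < r, bit x j = bit x' j) → x = x' := by
    intro x x' h
    apply e.injective
    funext j
    simpa [bit, j.2] using h j j.2
  set P : ℕ := ∏ c, md 0 c with hP
  have hP0 : NeZero P := ⟨(Finset.prod_pos fun c _ => hpos 0 c).ne'⟩
  set L := (q * b) ^ k with hL
  have hL0 : 0 < L := by have : 0 < b := by omega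
                         positivity
  set w := 2 * r + 3 with hw
  let W : (Leaf b k → ℤ) → List Bool := fun y => (str md sy q k c₀ y).flatMap (cfCode r bit)
  have hWlen : ∀ y, (W y).length = L * w := fun y => by
    simp only [W]
    rw [length_flatMap_const _ _ w (fun _ _ => cfCode_length r bit _), str_length]
  let F : (Leaf b k → ZMod P) → List Bool := fun x => W (fun l => ((x l).val : ℤ))
  have hF : ∀ (x : Leaf b k → ZMod P) (a : Leaf b k → ℤ),
      F (x + fun l => (a l : ZMod P)) = W (fun l => ((x l).val : ℤ) + a l) := by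
    intro x a
    simp only [F, W]
    rw [str_congr md sy q P (fun c y y' h => hsy1 c y y'
      ((Int.natCast_dvd_natCast.2 (Finset.dvd_prod_of_mem _ (Finset.mem_univ c))).trans h))
      k c₀ _ (fun l => ((x l).val : ℤ) + a l)]
    intro l
    rw [← ZMod.intCast_zmod_eq_zero_iff_dvd]
    simp
  have hfar : ∀ y : Leaf b k → ℤ, L ≤ 2 ^ k * (3 * editDist (W (fun l => y l + 1)) (W y)) := by
    intro y
    obtain ⟨t, h1, h2, h3⟩ := exists_common r bit hbit (str md sy q k c₀ (fun l => y l + 1))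
      (str md sy q k c₀ y)
    obtain ⟨M, hM, hMc⟩ := exists_match h1 h2
    have h4 := match_bound md sy q lo hi g' hq0 hb hg' (by omega) hm hm' hcop hsy2 k c₀ y 1 M
      (by
        intro h
        have := Int.le_of_dvd one_pos h
        have := hm k c₀
        omega) (by exact_mod_cast hZ) hM
    rw [str_length] at h3
    rw [hMc] at h4
    have h5 := Nat.mul_le_mul_left (2 ^ k) h3
    rw [mul_add] at h5
    simp only [W]
    omega
  have hfar' : ∀ y : Leaf b k → ℤ, s * editDist (W (fun l => y l + 1)) (W y) ≤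
      ‖f (W (fun l => y l + 1)) - f (W y)‖ ∧ 1 ≤ D := by
    intro y
    have h1 := hfar y
    have h2 : 0 < editDist (W (fun l => y l + 1)) (W y) := by
      by_contra h
      have : editDist (W (fun l => y l + 1)) (W y) = 0 := by omega
      rw [this] at h1
      omega
    have h3 : W (fun l => y l + 1) ≠ W y := by
      intro h
      rw [h, editDist, SimpleGraph.dist_self] at h2
      exact lt_irrefl _ h2
    obtain ⟨h4, h5⟩ := hf _ _ (hWlen _) (hWlen _) h3
    refine ⟨h4, ?_⟩
    have h6 : (0 : ℝ) < s * editDist (W (fun l => y l + 1)) (W y) :=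
      mul_pos hs (by exact_mod_cast h2)
    by_contra h7
    nlinarith
  have hD : 1 ≤ D := (hfar' 0).2
  have hup : ∀ (y y' : Leaf b k → ℤ) (e : ℕ), Close e (str md sy q k c₀ y) (str md sy q k c₀ y') →
      ‖f (W y) - f (W y')‖ ≤ D * s * (2 * w * e) := by
    intro y y' e he
    by_cases h : W y = W y'
    · rw [h, sub_self, norm_zero]; positivity
    · refine (hf _ _ (hWlen _) (hWlen _) h).2.trans ?_
      have := he.editDist_flatMap (cfCode r bit) w (cfCode_length r bit)
      exact mul_le_mul_of_nonneg_left (by exact_mod_cast this) (by positivity)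
  choose cn hcn1 hcn2 using fun i : Fin (J + 1) => node_cost md sy q hsy1 (2 ^ (i : ℕ)) (hqJ i) k
  obtain ⟨cl, hcl1, hcl2⟩ := leaf_cost md sy q k
  have hpoin := poincare_l1 P (fun _ => 1) (move md k J c₀) (wt b k J g)
    (angle md hi g J k hg hpos hm' hcop' hη1 hη2 c₀) (fun x => f (F x))
  simp only [hF] at hpoin
  set G : ℝ := (Fintype.card (Leaf b k → ZMod P) : ℝ) with hG
  have hG0 : 0 < G := by rw [hG]; exact_mod_cast Fintype.card_pos
  have hlhs : G * (s * (L / (3 * 2 ^ k))) ≤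
      ∑ x : Leaf b k → ZMod P, ‖f (W (fun l => ((x l).val : ℤ) + 1)) - f (F x)‖ := by
    rw [hG, ← nsmul_eq_mul, ← Finset.card_univ, ← Finset.sum_const]
    refine Finset.sum_le_sum fun x _ => le_trans ?_ (hfar' _).1
    apply mul_le_mul_of_nonneg_left _ hs.le
    rw [div_le_iff₀ (by positivity)]
    have : (L : ℝ) ≤ 2 ^ k * (3 * editDist (W (fun l => ((x l).val : ℤ) + 1))
        (W (fun l => ((x l).val : ℤ)))) := by
      have := hfar (fun l => ((x l).val : ℤ))
      generalize editDist (W (fun l => ((x l).val : ℤ) + 1)) (W (fun l => ((x l).val : ℤ))) = E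
        at this ⊢
      exact_mod_cast this
    linarith
  have hgk : (0 : ℝ) < g ^ k := by positivity
  have hrhs1 : ∑ p : Node b k × Fin (J + 1), wt b k J g (Sum.inl p) * ∑ x : Leaf b k → ZMod P,
      ‖f (W (fun l => ((x l).val : ℤ) + move md k J c₀ (Sum.inl p) l)) - f (F x)‖ ≤
      G * (D * s * (4 * w)) * (L / g ^ k) := by
    calc _ ≤ ∑ p : Node b k × Fin (J + 1), G * (D * s * (4 * w)) * cn p.2 p.1 := by
          refine Finset.sum_le_sum fun p _ => ?_
          have := Finset.sum_le_sum fun (x : Leaf b k → ZMod P) (_ : x ∈ univ) =>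
            hup _ _ _ (hcn2 p.2 c₀ p.1 (fun l => ((x l).val : ℤ)))
          rw [Finset.sum_const, Finset.card_univ, nsmul_eq_mul, ← hG] at this
          simp only [wt, move]
          linarith
      _ = G * (D * s * (4 * w)) * ∑ i : Fin (J + 1), ((∑ v, cn i v : ℕ) : ℝ) := by
          rw [← Finset.mul_sum, Fintype.sum_prod_type_right]
          push_cast
          rfl
      _ ≤ _ := by
          apply mul_le_mul_of_nonneg_left _ (by positivity)
          rw [le_div_iff₀ hgk]
          have h1 : q * ∑ i : Fin (J + 1), ∑ v, cn i v ≤ k * 2 ^ (J + 1) * L := by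
            rw [Finset.mul_sum]
            refine (Finset.sum_le_sum fun i _ => hcn1 i).trans ?_
            rw [← Finset.sum_mul, ← Finset.mul_sum]
            gcongr
            rw [Fin.sum_univ_eq_sum_range (fun i => 2 ^ i) (J + 1)]
            exact (Nat.geomSum_lt le_rfl (fun i hi => Finset.mem_range.1 hi)).le
          have h2 : (∑ i : Fin (J + 1), ∑ v, cn i v) * g ^ k ≤ L := by
            apply Nat.le_of_mul_le_mul_left _ hq0
            calc q * ((∑ i : Fin (J + 1), ∑ v, cn i v) * g ^ k)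
                = (q * ∑ i : Fin (J + 1), ∑ v, cn i v) * g ^ k := by ring
              _ ≤ k * 2 ^ (J + 1) * L * g ^ k := Nat.mul_le_mul_right _ h1
              _ ≤ (k + 1) * 2 ^ (J + 1) * L * g ^ k := by gcongr; omega
              _ = (k + 1) * 2 ^ (J + 1) * g ^ k * L := by ring
              _ ≤ q * L := Nat.mul_le_mul_right _ hq
          exact_mod_cast h2
  have hrhs2 : ∑ p : Leaf b k × Fin (J + 1), wt b k J g (Sum.inr p) * ∑ x : Leaf b k → ZMod P,
      ‖f (W (fun l => ((x l).val : ℤ) + move md k J c₀ (Sum.inr p) l)) - f (F x)‖ ≤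
      G * (D * s * (4 * w)) * ((J + 1) * (L / g ^ k)) := by
    calc _ ≤ ∑ p : Leaf b k × Fin (J + 1), G * (D * s * (4 * w)) * (1 / g ^ k) * cl p.1 := by
          refine Finset.sum_le_sum fun p _ => ?_
          have := Finset.sum_le_sum fun (x : Leaf b k → ZMod P) (_ : x ∈ univ) =>
            hup _ _ _ (hcl2 c₀ p.1 (fun l => ((x l).val : ℤ)) ((2 ^ (p.2 : ℕ) : ℕ) : ℤ))
          rw [Finset.sum_const, Finset.card_univ, nsmul_eq_mul, ← hG] at this
          simp only [wt, move]
          refine (mul_le_mul_of_nonneg_left this (by positivity)).trans (le_of_eq ?_)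
          ring
      _ = G * (D * s * (4 * w)) * (1 / g ^ k) * ((J + 1) * ((∑ v, cl v : ℕ) : ℝ)) := by
          rw [← Finset.mul_sum, Fintype.sum_prod_type_right]
          simp
      _ ≤ G * (D * s * (4 * w)) * (1 / g ^ k) * ((J + 1) * L) := by
          gcongr
      _ = _ := by ring
  rw [Fintype.sum_sum_type] at hpoin
  have hfin : G * (s * (L / (3 * 2 ^ k))) ≤ G * (D * s * (4 * w)) * ((J + 2) * (L / g ^ k)) := by
    linarith
  have h2 := final_algebra G s L D w (J + 2) (g ^ k) (2 ^ k) hG0 hs (by exact_mod_cast hL0) hgk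
    (by positivity) hfin
  rw [hw] at h2
  push_cast at h2
  exact h2

end Crest.Agent.H8EL
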