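import Mathlib
import Crest.Agent.H8.EdD

set_option autoImplicit false

namespace Crest.Agent.H8EL

open Finset Crest.GeometryTopology.EditDistance

theorem coprime_lin (B N i j : ℕ) (hB : ∀ x, 0 < x → x ≤ N → x ∣ B) (hi : i < N) (hj : j < N)
    (hij : i ≠ j) : Nat.Coprime ((i + 1) * B + 1) ((j + 1) * B + 1) := by
  wlog h : i < j generalizing i j
  · exact (this j i hj hi hij.symm (by omega)).symm
  apply Nat.coprime_of_dvd
  intro p hp h1 h2
  have h3 : p ∣ (j - i) * B := by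
    have := Nat.dvd_sub h2 h1
    have e : (j + 1) * B + 1 - ((i + 1) * B + 1) = (j - i) * B := by
      obtain ⟨t, rfl⟩ := Nat.exists_eq_add_of_lt h
      have : i + t + 1 - i = t + 1 := by omega
      rw [this]
      have : (i + t + 1 + 1) * B = (i + 1) * B + (t + 1) * B := by ring
      omega
    rwa [e] at this
  have h4 : p ∣ B := by
    rcases (Nat.Prime.dvd_mul hp).1 h3 with h5 | h5
    · exact h5.trans (hB _ (by omega) (by omega))
    · exact h5
  have h5 : p ∣ 1 := (Nat.dvd_add_right (h4.mul_left (i + 1))).1 h1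
  exact hp.one_lt.ne' (Nat.dvd_one.1 h5)

theorem param (g : ℕ) (hg : 32 ≤ g) : ∃ n : ℕ, n ≤ g ^ (261 * g ^ 4) ∧
    ∀ (f : List Bool → lp (fun _ : ℕ => ℝ) 1) (s D : ℝ), 0 < s →
      (∀ x y : List Bool, x.length = n → y.length = n → x ≠ y →
        s * (editDist x y : ℝ) ≤ ‖f x - f y‖ ∧ ‖f x - f y‖ ≤ D * s * (editDist x y : ℝ)) →
      0 < D ∧ (g : ℝ) ^ (g ^ 2) ≤ D ^ 2 := by
  set B := (32 * g).factorial * g ^ g with hB
  have hg0 : 0 < g := by omega
  have hg1 : 1 ≤ g := hg0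
  have hgB : g ^ g ≤ B := Nat.le_mul_of_pos_left _ (Nat.factorial_pos _)
  have hg3 : g ^ 3 ≤ B := (Nat.pow_le_pow_right hg0 (by omega)).trans hgB
  have hg2 : 32 * g ≤ g ^ 2 := by nlinarith
  have hg3' : 32 * g ^ 2 ≤ g ^ 3 := by nlinarith
  have hB1 : g ^ 2 + 1 ≤ B := by nlinarith
  have hB2 : 32 * g + 2 ≤ B := by nlinarith
  have hB0 : 0 < B := by omega
  have hBup : B ≤ g ^ (65 * g) := by
    have h1 : (32 * g).factorial ≤ (g ^ 2) ^ (32 * g) :=
      (Nat.factorial_le_pow _).trans (Nat.pow_le_pow_left hg2 _)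
    calc B ≤ (g ^ 2) ^ (32 * g) * g ^ g := Nat.mul_le_mul_right _ h1
      _ = g ^ (65 * g) := by rw [← pow_mul, ← pow_add]; congr 1; ring
  have hg2pow : g ≤ 2 ^ g := Nat.lt_two_pow_self.le
  have hdvd : ∀ x, 0 < x → x ≤ 32 * g → x ∣ B := fun x h1 h2 =>
    (Nat.dvd_factorial h1 h2).mul_right _
  have : NeZero (16 * g) := ⟨by omega⟩
  let md : ℕ → Fin (16 * g) → ℕ := fun h c => (c + 16 * g * (h % 2) + 1) * B + 1
  have hidx : ∀ (h : ℕ) (c : Fin (16 * g)), (c : ℕ) + 16 * g * (h % 2) < 32 * g := by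
    intro h c
    have := c.2
    rcases Nat.mod_two_eq_zero_or_one h with h' | h' <;> rw [h'] <;> omega
  set X := (16 * g + 1) * (B ^ 2) ^ g with hX
  have hX0 : 0 < X := by positivity
  set J := Nat.log 2 X with hJ
  have hJ1 : 2 ^ J ≤ X := Nat.pow_log_le_self 2 hX0.ne'
  have hJ2 : X < 2 ^ (J + 1) := Nat.lt_pow_succ_log_self (by norm_num) X
  set k := g ^ 2 with hk
  set q := (k + 1) * 2 ^ (J + 1) * g ^ k with hq
  set r := 16 * g ^ 3 + 130 * g ^ 2 with hr
  have hqup : q ≤ B ^ (3 * g + 2) := by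
    have h1 : 2 ^ (J + 1) ≤ B * (B ^ 2) ^ g := by
      calc 2 ^ (J + 1) = 2 * 2 ^ J := by ring
        _ ≤ 2 * X := by omega
        _ = (32 * g + 2) * (B ^ 2) ^ g := by rw [hX]; ring
        _ ≤ _ := Nat.mul_le_mul_right _ hB2
    have h2 : g ^ k ≤ B ^ g := by
      rw [hk, pow_two, pow_mul]
      exact Nat.pow_le_pow_left hgB _
    calc q ≤ B * (B * (B ^ 2) ^ g) * B ^ g := by rw [hq]; gcongr
      _ = B ^ (3 * g + 2) := by ring
  have hw : 2 * r + 3 ≤ g ^ 5 := by
    have : g ^ 5 = g ^ 2 * g ^ 3 := by ring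
    nlinarith
  have hJ3 : J + 2 ≤ g ^ 5 := by
    have h1 : X ≤ 2 ^ (195 * g ^ 3) := by
      calc X ≤ B * (B ^ 2) ^ g := Nat.mul_le_mul_right _ (by omega)
        _ = B ^ (2 * g + 1) := by ring
        _ ≤ B ^ (3 * g) := Nat.pow_le_pow_right hB0 (by omega)
        _ ≤ ((2 ^ g) ^ (65 * g)) ^ (3 * g) :=
            Nat.pow_le_pow_left (hBup.trans (Nat.pow_le_pow_left hg2pow _)) _
        _ = 2 ^ (195 * g ^ 3) := by rw [← pow_mul, ← pow_mul]; congr 1; ring
    have h2 : J ≤ 195 * g ^ 3 := (Nat.pow_le_pow_iff_right (by norm_num)).1 (hJ1.trans h1)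
    have : g ^ 5 = g ^ 2 * g ^ 3 := by ring
    nlinarith
  refine ⟨(q * (16 * g)) ^ k * (2 * r + 3), ?_, fun f s D hs hf => ?_⟩
  · have h1 : q * (16 * g) ≤ g ^ (260 * g ^ 2) := by
      calc q * (16 * g) ≤ B ^ (3 * g + 2) * B := Nat.mul_le_mul hqup (by omega)
        _ = B ^ (3 * g + 3) := by ring
        _ ≤ B ^ (4 * g) := Nat.pow_le_pow_right hB0 (by omega)
        _ ≤ (g ^ (65 * g)) ^ (4 * g) := Nat.pow_le_pow_left hBup _
        _ = g ^ (260 * g ^ 2) := by rw [← pow_mul]; congr 1; ring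
    have h2 : g ^ 5 ≤ g ^ (g ^ 4) := Nat.pow_le_pow_right hg0 (by
      have : g ^ 4 = g ^ 2 * g ^ 2 := by ring
      nlinarith)
    calc (q * (16 * g)) ^ k * (2 * r + 3) ≤ (g ^ (260 * g ^ 2)) ^ k * g ^ (g ^ 4) :=
          Nat.mul_le_mul (Nat.pow_le_pow_left h1 _) (hw.trans h2)
      _ = g ^ (261 * g ^ 4) := by rw [← pow_mul, ← pow_add, hk]; congr 1; ring
  · have hcore := core md q B (B ^ 2) g (4 * g) J k r hg0 (by omega) (by omega) (by omega)
      (fun h c => by
        simp only [md]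
        nlinarith [Nat.zero_le (((c : ℕ) + 16 * g * (h % 2)) * B)])
      (fun h c => by
        simp only [md]
        have h1 := hidx h c
        have h2 : (c + 16 * g * (h % 2) + 1) * B ≤ 32 * g * B := Nat.mul_le_mul_right _ h1
        nlinarith)
      (fun h c c' hcc => coprime_lin B (32 * g) _ _ hdvd (hidx h c) (hidx h c')
        (fun e => hcc (Fin.ext (by omega))))
      (fun h c c' => coprime_lin B (32 * g) _ _ hdvd (hidx (h + 1) c) (hidx h c') (by
        have := c.2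
        have := c'.2
        rcases Nat.mod_two_eq_zero_or_one h with h' | h'
        · have h'' : (h + 1) % 2 = 1 := by omega
          rw [h', h'']; omega
        · have h'' : (h + 1) % 2 = 0 := by omega
          rw [h', h'']; omega))
      (by rw [← hX, pow_succ]; omega)
      (by
        have h1 : B ^ 2 ≤ (B ^ 2) ^ g := Nat.le_self_pow (by omega) _
        have h2 : 2 * (B ^ 2) ^ g ≤ X := Nat.mul_le_mul_right _ (by omega)
        rw [pow_succ 2 (J + 1)]
        omega)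
      le_rfl
      (by
        have h1 : k * (B ^ 2 * q) ≤ B ^ (3 * g + 5) := by
          calc k * (B ^ 2 * q) ≤ B * (B ^ 2 * B ^ (3 * g + 2)) := by
                gcongr; omega
            _ = B ^ (3 * g + 5) := by ring
        have h2 : B ^ (3 * g + 5) < B ^ (3 * g + 6) := Nat.pow_lt_pow_right (by omega) (by omega)
        have h3 : B ^ (3 * g + 6) < B ^ (4 * g + 1) := Nat.pow_lt_pow_right (by omega) (by omega)
        omega)
      (by
        have h1 : (16 * g) ^ k ≤ (2 ^ (16 * g)) ^ k :=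
          Nat.pow_le_pow_left Nat.lt_two_pow_self.le _
        have h2 : B ^ 2 ≤ ((2 ^ g) ^ (65 * g)) ^ 2 :=
          Nat.pow_le_pow_left (hBup.trans (Nat.pow_le_pow_left hg2pow _)) _
        refine (Nat.mul_le_mul h1 h2).trans (le_of_eq ?_)
        rw [← pow_mul, ← pow_mul, ← pow_mul, ← pow_add, hr, hk]
        congr 1; ring)
      f s D hs hf
    have hC : (12 * 2 ^ k * (2 * r + 3) * (J + 2)) ^ 2 ≤ g ^ k := by
      have h1 : 12 * 2 ^ k * (2 * r + 3) * (J + 2) ≤ g * 2 ^ k * g ^ 5 * g ^ 5 := by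
        gcongr; omega
      have h2 : g ^ 22 ≤ 8 ^ k := by
        calc g ^ 22 ≤ (2 ^ g) ^ 22 := Nat.pow_le_pow_left hg2pow _
          _ = 2 ^ (g * 22) := by rw [← pow_mul]
          _ ≤ 2 ^ (3 * k) := Nat.pow_le_pow_right (by norm_num) (by omega)
          _ = 8 ^ k := by rw [pow_mul]; norm_num
      calc _ ≤ (g * 2 ^ k * g ^ 5 * g ^ 5) ^ 2 := Nat.pow_le_pow_left h1 _
        _ = g ^ 22 * (2 ^ k * 2 ^ k) := by ring
        _ ≤ 8 ^ k * (2 ^ k * 2 ^ k) := Nat.mul_le_mul_right _ h2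
        _ = 32 ^ k := by rw [← mul_pow, ← mul_pow]; norm_num
        _ ≤ g ^ k := Nat.pow_le_pow_left hg _
    have hC' : (12 * 2 ^ k * (2 * r + 3) * (J + 2) : ℝ) ^ 2 ≤ (g : ℝ) ^ k := by exact_mod_cast hC
    generalize hCdef : (12 * 2 ^ k * (2 * r + 3) * (J + 2) : ℝ) = C at hcore hC'
    have hC0 : 0 < C := by rw [← hCdef]; positivity
    have hγ : (0 : ℝ) < (g : ℝ) ^ k := by positivity
    generalize (g : ℝ) ^ k = γ at hcore hC' hγ
    have hD : 0 < D := by
      by_contra h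
      nlinarith
    refine ⟨hD, ?_⟩
    have h1 : γ ^ 2 ≤ (C * D) ^ 2 := pow_le_pow_left₀ hγ.le hcore 2
    have h2 : γ * γ ≤ γ * D ^ 2 := by nlinarith [sq_nonneg D]
    exact le_of_mul_le_mul_left h2 hγ

theorem final_est (g d : ℕ) (hg : 32 ≤ g) (hd2 : 2 ≤ d) (hd : d < (g + 1) ^ (261 * (g + 1) ^ 4))
    (D : ℝ) (hD : 0 < D) (hD' : (g : ℝ) ^ (g ^ 2) ≤ D ^ 2) :
    Real.exp (1 / 518 * Real.sqrt (Real.log d * Real.log (Real.log d))) ≤ D := by
  have hg' : (32 : ℝ) ≤ g := by exact_mod_cast hg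
  have hg0 : (0 : ℝ) < g := by linarith
  have hd' : (2 : ℝ) ≤ d := by exact_mod_cast hd2
  have hlg : 0 < Real.log g := Real.log_pos (by linarith)
  have hld : 0 < Real.log d := Real.log_pos (by linarith)
  have h1 : Real.log d ≤ 8352 * g ^ 4 * Real.log g := by
    have h2 : (d : ℝ) ≤ ((g : ℝ) ^ 2) ^ (261 * (2 * g) ^ 4) := by
      have : d ≤ (g ^ 2) ^ (261 * (2 * g) ^ 4) := by
        have h0 : g + 1 ≤ g ^ 2 := by clear hd; nlinarith
        refine hd.le.trans ((Nat.pow_le_pow_left h0 _).trans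
          (Nat.pow_le_pow_right (by positivity) ?_))
        exact Nat.mul_le_mul_left _ (Nat.pow_le_pow_left (by clear hd; omega) _)
      exact_mod_cast this
    refine (Real.log_le_log (by linarith) h2).trans (le_of_eq ?_)
    rw [Real.log_pow, Real.log_pow]
    push_cast
    ring
  have h2 : Real.log (Real.log d) ≤ 8 * Real.log g := by
    have h3 : Real.log g ≤ g := (Real.log_le_sub_one_of_pos hg0).trans (by linarith)
    have h4 : (8352 : ℝ) ≤ g ^ 3 := le_trans (by norm_num) (pow_le_pow_left₀ (by norm_num) hg' 3)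
    have h5 : Real.log d ≤ (g : ℝ) ^ 8 := by
      calc Real.log d ≤ 8352 * g ^ 4 * Real.log g := h1
        _ ≤ g ^ 3 * g ^ 4 * g := by gcongr
        _ = g ^ 8 := by ring
    refine (Real.log_le_log hld h5).trans (le_of_eq ?_)
    rw [Real.log_pow]; norm_num
  have h3 : Real.sqrt (Real.log d * Real.log (Real.log d)) ≤ 259 * (g ^ 2 * Real.log g) := by
    rw [Real.sqrt_le_iff]
    refine ⟨by positivity, ?_⟩
    calc Real.log d * Real.log (Real.log d) ≤ Real.log d * (8 * Real.log g) :=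
          mul_le_mul_of_nonneg_left h2 hld.le
      _ ≤ 8352 * g ^ 4 * Real.log g * (8 * Real.log g) :=
          mul_le_mul_of_nonneg_right h1 (by positivity)
      _ = 66816 * (g ^ 2 * Real.log g) ^ 2 := by ring
      _ ≤ 67081 * (g ^ 2 * Real.log g) ^ 2 := by gcongr; norm_num
      _ = _ := by ring
  have h4 : (g : ℝ) ^ 2 * Real.log g ≤ 2 * Real.log D := by
    have := Real.log_le_log (by positivity) hD'
    rw [Real.log_pow, Real.log_pow] at this
    exact_mod_cast this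
  rw [← Real.le_log_iff_exp_le hD]
  linarith

theorem exists_scale (φ : ℕ → ℕ) (hφ : ∀ x, x ≤ φ x) (g₀ d : ℕ) (hd : φ g₀ ≤ d) :
    ∃ g, g₀ ≤ g ∧ φ g ≤ d ∧ d < φ (g + 1) := by
  classical
  have hex : ∃ j, d < φ (g₀ + j + 1) := ⟨d, lt_of_lt_of_le (by omega) (hφ _)⟩
  refine ⟨g₀ + Nat.find hex, by omega, ?_, Nat.find_spec hex⟩
  rcases h : Nat.find hex with _ | j
  · exact hd
  · exact not_lt.1 (Nat.find_min hex (m := j) (by omega))

theorem exists_phi : ∃ φ : ℕ → ℕ, (∀ x, x ≤ φ x) ∧ ∀ g, φ g = g ^ (261 * g ^ 4) := by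
  refine ⟨fun g => g ^ (261 * g ^ 4), fun x => ?_, fun _ => rfl⟩
  rcases Nat.eq_zero_or_pos x with h | h
  · omega
  · exact Nat.le_self_pow (by positivity) _

end Crest.Agent.H8EL
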