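import Mathlib

set_option autoImplicit false

namespace Crest.Agent.H8ES

open Finset
open scoped BigOperators Classical

/-- Uniform average on a finite type. -/
noncomputable def Ex {Ω : Type} [Fintype Ω] (f : Ω → ℝ) : ℝ := (∑ ω, f ω) / Fintype.card Ω

/-- Uniform probability on a finite type. -/
noncomputable def Pr {Ω : Type} [Fintype Ω] (A : Ω → Prop) : ℝ :=
  Ex (fun ω => if A ω then (1 : ℝ) else 0)

section
variable {Ω : Type} [Fintype Ω]

lemma Ex_mono {f g : Ω → ℝ} (h : ∀ ω, f ω ≤ g ω) : Ex f ≤ Ex g := by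
  unfold Ex
  exact div_le_div_of_nonneg_right (Finset.sum_le_sum fun ω _ => h ω) (Nat.cast_nonneg _)

lemma Ex_add (f g : Ω → ℝ) : Ex (fun ω => f ω + g ω) = Ex f + Ex g := by
  unfold Ex
  rw [Finset.sum_add_distrib, add_div]

lemma Ex_sum {ι : Type} [Fintype ι] (f : ι → Ω → ℝ) :
    Ex (fun ω => ∑ i, f i ω) = ∑ i, Ex (f i) := by
  unfold Ex
  rw [Finset.sum_comm, Finset.sum_div]

lemma Ex_const [Nonempty Ω] (c : ℝ) : Ex (fun _ : Ω => c) = c := by
  unfold Ex
  have : (Fintype.card Ω : ℝ) ≠ 0 := by exact_mod_cast Fintype.card_ne_zero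
  simp only [Finset.sum_const, Finset.card_univ, nsmul_eq_mul]
  field_simp

lemma Ex_const_mul (c : ℝ) (f : Ω → ℝ) : Ex (fun ω => c * f ω) = c * Ex f := by
  unfold Ex
  rw [← Finset.mul_sum, mul_div_assoc]

lemma Ex_nonneg {f : Ω → ℝ} (h : ∀ ω, 0 ≤ f ω) : 0 ≤ Ex f := by
  unfold Ex
  exact div_nonneg (Finset.sum_nonneg fun ω _ => h ω) (Nat.cast_nonneg _)

lemma exists_le_Ex [Nonempty Ω] (f : Ω → ℝ) : ∃ ω, f ω ≤ Ex f := by
  by_contra h
  push Not at h
  have hc : (0 : ℝ) < Fintype.card Ω := by exact_mod_cast Fintype.card_pos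
  have h1 : ∑ _ω : Ω, Ex f < ∑ ω, f ω :=
    Finset.sum_lt_sum_of_nonempty Finset.univ_nonempty fun ω _ => h ω
  simp only [Finset.sum_const, Finset.card_univ, nsmul_eq_mul] at h1
  unfold Ex at h1
  rw [mul_div_cancel₀ _ hc.ne'] at h1
  exact lt_irrefl _ h1

lemma Ex_pi_prod {κ α : Type} [Fintype κ] [DecidableEq κ] [Fintype α] (f : κ → α → ℝ) :
    Ex (fun ω : κ → α => ∏ d, f d (ω d)) = ∏ d, Ex (f d) := by
  unfold Ex
  rw [Finset.prod_div_distrib, Finset.prod_univ_sum]
  simp [Fintype.piFinset_univ]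

lemma Ex_eval {κ α : Type} [Fintype κ] [DecidableEq κ] [Fintype α] [Nonempty α] (d : κ) (f : α → ℝ) :
    Ex (fun ω : κ → α => f (ω d)) = Ex f := by
  have h := Ex_pi_prod (κ := κ) (fun e a => if e = d then f a else 1)
  have h1 : ∀ ω : κ → α, (∏ e, if e = d then f (ω e) else 1) = f (ω d) := by
    intro ω
    rw [Finset.prod_ite_eq' Finset.univ d (fun e => f (ω e))]
    simp
  have h2 : (∏ e : κ, Ex (fun a : α => if e = d then f a else 1)) = Ex f := by
    have : ∀ e : κ, Ex (fun a : α => if e = d then f a else 1) = if e = d then Ex f else 1 := by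
      intro e
      by_cases he : e = d
      · simp [he]
      · simp [he, Ex_const]
    simp_rw [this]
    rw [Finset.prod_ite_eq' Finset.univ d (fun _ => Ex f)]
    simp
  simp_rw [h1] at h
  rw [h, h2]

lemma Ex_mix {α β : Type} [Fintype α] [Fintype β] [Nonempty α] [Nonempty β]
    (f : α → ℝ) (g : β → ℝ) :
    Ex (fun a : Bool × α × β => if a.1 then f a.2.1 else g a.2.2) = (Ex f + Ex g) / 2 := by
  unfold Ex
  have ha : (Fintype.card α : ℝ) ≠ 0 := by exact_mod_cast Fintype.card_ne_zero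
  have hb : (Fintype.card β : ℝ) ≠ 0 := by exact_mod_cast Fintype.card_ne_zero
  rw [Fintype.sum_prod_type]
  simp only [Fintype.univ_bool, Finset.mem_singleton, Bool.true_eq_false, not_false_eq_true,
    Finset.sum_insert, Finset.sum_singleton, if_true, Bool.false_eq_true, if_false,
    Fintype.sum_prod_type, Finset.sum_const, Finset.card_univ, nsmul_eq_mul, Fintype.card_prod,
    Fintype.card_bool]
  rw [← Finset.mul_sum]
  push_cast
  field_simp

lemma Pr_mono {A B : Ω → Prop} (h : ∀ ω, A ω → B ω) : Pr A ≤ Pr B := by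
  unfold Pr
  apply Ex_mono
  intro ω
  by_cases hA : A ω
  · simp [hA, h ω hA]
  · simp only [hA, if_false]
    split_ifs <;> norm_num

lemma Pr_nonneg (A : Ω → Prop) : 0 ≤ Pr A := by
  unfold Pr
  apply Ex_nonneg
  intro ω
  split_ifs <;> norm_num

lemma Pr_le_one [Nonempty Ω] (A : Ω → Prop) : Pr A ≤ 1 := by
  unfold Pr
  refine le_trans (Ex_mono (g := fun _ => 1) ?_) (Ex_const (Ω := Ω) 1).le
  intro ω
  split_ifs <;> norm_num

lemma Pr_false : Pr (fun _ : Ω => False) = 0 := by
  simp [Pr, Ex]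

lemma Pr_or (A B : Ω → Prop) : Pr (fun ω => A ω ∨ B ω) ≤ Pr A + Pr B := by
  unfold Pr
  rw [← Ex_add]
  apply Ex_mono
  intro ω
  by_cases hA : A ω <;> by_cases hB : B ω <;> simp [hA, hB]

lemma Pr_exists {ι : Type} [Fintype ι] (A : ι → Ω → Prop) :
    Pr (fun ω => ∃ i, A i ω) ≤ ∑ i, Pr (A i) := by
  unfold Pr
  rw [← Ex_sum]
  apply Ex_mono
  intro ω
  by_cases h : ∃ i, A i ω
  · obtain ⟨i, hi⟩ := h
    rw [if_pos ⟨i, hi⟩]
    calc (1 : ℝ) = if A i ω then 1 else 0 := by simp [hi]
      _ ≤ ∑ j, if A j ω then (1 : ℝ) else 0 :=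
        Finset.single_le_sum (f := fun j => if A j ω then (1 : ℝ) else 0)
          (fun j _ => by split_ifs <;> norm_num) (Finset.mem_univ i)
  · rw [if_neg h]
    exact Finset.sum_nonneg fun j _ => by split_ifs <;> norm_num

lemma Pr_eval {κ α : Type} [Fintype κ] [DecidableEq κ] [Fintype α] [Nonempty α] (d : κ) (A : α → Prop) :
    Pr (fun ω : κ → α => A (ω d)) = Pr A := by
  unfold Pr
  exact Ex_eval d (fun a => if A a then (1 : ℝ) else 0)

/-- The mixed event. -/
def mixP {α β : Type} (A : α → Prop) (B : β → Prop) (a : Bool × α × β) : Prop :=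
  if a.1 then A a.2.1 else B a.2.2

lemma Pr_mix {α β : Type} [Fintype α] [Fintype β] [Nonempty α] [Nonempty β]
    (A : α → Prop) (B : β → Prop) : Pr (mixP A B) = (Pr A + Pr B) / 2 := by
  unfold Pr
  rw [← Ex_mix]
  congr 1
  funext a
  unfold mixP
  cases a.1 <;> simp

lemma Pr_pi {κ α : Type} [Fintype κ] [DecidableEq κ] [Fintype α] (A : κ → α → Prop) :
    Pr (fun ω : κ → α => ∀ d, A d (ω d)) = ∏ d, Pr (A d) := by
  unfold Pr
  rw [← Ex_pi_prod]
  congr 1
  funext ω
  by_cases h : ∀ d, A d (ω d)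
  · simp [h]
  · rw [if_neg h]
    push Not at h
    obtain ⟨d, hd⟩ := h
    symm
    exact Finset.prod_eq_zero (Finset.mem_univ d) (by simp [hd])

lemma Pr_inj {ι κ α : Type} [Fintype ι] [Fintype κ] [DecidableEq κ] [Fintype α] [Nonempty α]
    (e : ι → κ) (he : Function.Injective e) (A : ι → α → Prop) :
    Pr (fun ω : κ → α => ∀ i, A i (ω (e i))) = ∏ i, Pr (A i) := by
  have h := Pr_pi (κ := κ) (fun d a => ∀ i, e i = d → A i a)
  have h1 : (fun ω : κ → α => ∀ i, A i (ω (e i))) =
      (fun ω : κ → α => ∀ d, ∀ i, e i = d → A i (ω d)) := by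
    funext ω
    apply propext
    constructor
    · rintro h d i rfl
      exact h i
    · intro h i
      exact h (e i) i rfl
  rw [h1, h]
  rw [← Finset.prod_subset (Finset.subset_univ (Finset.univ.image e))]
  · rw [Finset.prod_image (fun a _ b _ hab => he hab)]
    apply Finset.prod_congr rfl
    intro i _
    congr 1
    funext a
    apply propext
    constructor
    · intro h
      exact h i rfl
    · intro h j hj
      rw [he hj]
      exact h
  · intro d _ hd
    have : (fun a : α => ∀ i, e i = d → A i a) = fun _ => True := by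
      funext a
      apply propext
      simp only [iff_true]
      intro i hi
      exact absurd (Finset.mem_image.2 ⟨i, Finset.mem_univ i, hi⟩) hd
    rw [this]
    unfold Pr
    simp [Ex_const]

end

end Crest.Agent.H8ES
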