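import Crest.Agent.H8.ErdosSimA

set_option autoImplicit false

namespace Crest.Agent.H8ES

open MeasureTheory Set
open scoped BigOperators Classical

/-- A random bounded open set, on a finite uniform probability space. -/
structure Gad where
  Ω : Type
  fin : Fintype Ω
  ne : Nonempty Ω
  G : Ω → Set ℝ
  isOpen : ∀ ω, IsOpen (G ω)
  bdd : ∀ ω, G ω ⊆ Ioo (-1) 2

instance (Γ : Gad) : Fintype Γ.Ω := Γ.fin
instance (Γ : Gad) : Nonempty Γ.Ω := Γ.ne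

/-- the affine chart of the `d`-th child -/
def ch (B : ℕ) (d : Fin B) (y : ℝ) : ℝ := B * y - d

/-- the set placed in a child -/
def sub (Γ Δ : Gad) (a : Bool × Γ.Ω × Δ.Ω) : Set ℝ := if a.1 then Γ.G a.2.1 else Δ.G a.2.2

lemma sub_open (Γ Δ : Gad) (a : Bool × Γ.Ω × Δ.Ω) : IsOpen (sub Γ Δ a) := by
  unfold sub; split_ifs
  · exact Γ.isOpen _
  · exact Δ.isOpen _

lemma sub_bdd (Γ Δ : Gad) (a : Bool × Γ.Ω × Δ.Ω) : sub Γ Δ a ⊆ Ioo (-1) 2 := by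
  unfold sub; split_ifs
  · exact Γ.bdd _
  · exact Δ.bdd _

lemma ch_cont (B : ℕ) (d : Fin B) : Continuous (ch B d) := by
  unfold ch; fun_prop

noncomputable def split (B : ℕ) (Γ Δ : Gad) : Gad where
  Ω := Fin B → Bool × Γ.Ω × Δ.Ω
  fin := inferInstance
  ne := inferInstance
  G := fun ω => ⋃ d : Fin B, ch B d ⁻¹' sub Γ Δ (ω d)
  isOpen := fun ω => isOpen_iUnion fun d => (sub_open Γ Δ _).preimage (ch_cont B d)
  bdd := by
    intro ω y hy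
    obtain ⟨d, hd⟩ := mem_iUnion.1 hy
    have h := sub_bdd Γ Δ _ hd
    unfold ch at h
    have hd1 : (d : ℝ) + 1 ≤ B := by exact_mod_cast d.2
    have hd0 : (0 : ℝ) ≤ d := Nat.cast_nonneg _
    obtain ⟨h1, h2⟩ := h
    constructor
    · by_contra hc
      push Not at hc
      nlinarith
    · by_contra hc
      push Not at hc
      nlinarith

lemma vol_ch (B : ℕ) (hB : 1 ≤ B) (d : Fin B) (S : Set ℝ) :
    volume (ch B d ⁻¹' S) = ENNReal.ofReal (1 / B) * volume S := by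
  have hB0 : (0 : ℝ) < B := by exact_mod_cast hB
  have : ch B d ⁻¹' S = (fun y : ℝ => (B : ℝ) * y) ⁻¹' ((fun y : ℝ => y + (-(d : ℝ))) ⁻¹' S) := by
    ext y; simp [ch, sub_eq_add_neg]
  rw [this, Real.volume_preimage_mul_left hB0.ne', measure_preimage_add_right]
  congr 2
  rw [abs_of_pos (inv_pos.2 hB0), one_div]

lemma vol_iUnion_ch (B : ℕ) (hB : 1 ≤ B) (S : Set ℝ) :
    volume (⋃ d : Fin B, ch B d ⁻¹' S) ≤ volume S := by
  have hB0 : (0 : ℝ) < B := by exact_mod_cast hB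
  calc volume (⋃ d : Fin B, ch B d ⁻¹' S) ≤ ∑ d : Fin B, volume (ch B d ⁻¹' S) :=
        measure_iUnion_fintype_le _ _
    _ = ∑ _d : Fin B, ENNReal.ofReal (1 / B) * volume S := by simp_rw [vol_ch B hB]
    _ = volume S := by
        rw [Finset.sum_const, Finset.card_univ, Fintype.card_fin, nsmul_eq_mul, ← mul_assoc,
          ← ENNReal.ofReal_natCast, ← ENNReal.ofReal_mul hB0.le, mul_one_div_cancel hB0.ne']
        simp

lemma exists_child (B : ℕ) (hB : 1 ≤ B) {y : ℝ} (hy : y ∈ Ico (0 : ℝ) 1) :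
    ∃ d : Fin B, ch B d y ∈ Ico (0 : ℝ) 1 := by
  have hB0 : (0 : ℝ) < B := by exact_mod_cast hB
  have h0 : 0 ≤ (B : ℝ) * y := mul_nonneg hB0.le hy.1
  have h1 : (B : ℝ) * y < B := by nlinarith [hy.2]
  refine ⟨⟨⌊(B : ℝ) * y⌋₊, (Nat.floor_lt h0).2 h1⟩, ?_⟩
  unfold ch
  constructor
  · simp only [sub_nonneg]; exact Nat.floor_le h0
  · have := Nat.lt_floor_add_one ((B : ℝ) * y)
    simp only
    linarith

lemma child_unique (B : ℕ) {y : ℝ} {d e : Fin B} (hd : ch B d y ∈ Ico (0 : ℝ) 1)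
    (he : ch B e y ∈ Ico (0 : ℝ) 1) : d = e := by
  unfold ch at hd he
  obtain ⟨h1, h2⟩ := hd
  obtain ⟨h3, h4⟩ := he
  have h5 : ((d : ℕ) : ℝ) < (e : ℕ) + 1 := by linarith
  have h6 : ((e : ℕ) : ℝ) < (d : ℕ) + 1 := by linarith
  have h7 : (d : ℕ) < (e : ℕ) + 1 := by exact_mod_cast h5
  have h8 : (e : ℕ) < (d : ℕ) + 1 := by exact_mod_cast h6
  apply Fin.ext; omega

lemma ball_sub_ch (B : ℕ) (hB : 1 ≤ B) (d : Fin B) {S : Set ℝ} {y ℓ ℓ' : ℝ}
    (h : Metric.ball (ch B d y) ℓ ⊆ S) (hℓ : ℓ' * B ≤ ℓ) :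
    Metric.ball y ℓ' ⊆ ch B d ⁻¹' S := by
  have hB0 : (0 : ℝ) < B := by exact_mod_cast hB
  intro z hz
  apply h
  rw [Metric.mem_ball, Real.dist_eq] at hz ⊢
  have : ch B d z - ch B d y = B * (z - y) := by unfold ch; ring
  rw [this, abs_mul, abs_of_pos hB0]
  nlinarith

/-- expected volume bound -/
def Vol (Γ : Gad) (c : ℝ) : Prop := Ex (fun ω => volume.real (Γ.G ω)) ≤ c

/-- every point of the unit cell is robustly covered with probability at least `p` -/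
def Rob (Γ : Gad) (p ℓ : ℝ) : Prop :=
  ∀ y ∈ Ico (0 : ℝ) 1, Pr (fun ω => ¬ Metric.ball y ℓ ⊆ Γ.G ω) ≤ 1 - p

lemma Rob.mono {Γ : Gad} {p ℓ ℓ' : ℝ} (h : Rob Γ p ℓ) (hℓ : ℓ' ≤ ℓ) : Rob Γ p ℓ' := by
  intro y hy
  refine le_trans (Pr_mono ?_) (h y hy)
  intro ω h1 h2
  exact h1 ((Metric.ball_subset_ball hℓ).trans h2)

lemma split_vol (B : ℕ) (hB : 1 ≤ B) {Γ Δ : Gad} {c : ℝ} (h1 : Vol Γ c) (h2 : Vol Δ c) :
    Vol (split B Γ Δ) c := by
  have hB0 : (0 : ℝ) < B := by exact_mod_cast hB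
  unfold Vol at *
  have key : ∀ ω : Fin B → Bool × Γ.Ω × Δ.Ω, volume.real ((split B Γ Δ).G ω) ≤
      ∑ d : Fin B, (1 / (B : ℝ)) * volume.real (sub Γ Δ (ω d)) := by
    intro ω
    refine le_trans (measureReal_iUnion_fintype_le _) (le_of_eq ?_)
    apply Finset.sum_congr rfl
    intro d _
    unfold Measure.real
    rw [vol_ch B hB, ENNReal.toReal_mul, ENNReal.toReal_ofReal (by positivity)]
  refine le_trans (Ex_mono key) ?_
  rw [Ex_sum]
  have h3 : ∀ d : Fin B, Ex (fun ω : Fin B → Bool × Γ.Ω × Δ.Ω =>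
      (1 / (B : ℝ)) * volume.real (sub Γ Δ (ω d))) ≤ (1 / (B : ℝ)) * c := by
    intro d
    rw [Ex_const_mul, Ex_eval d (fun a => volume.real (sub Γ Δ a))]
    apply mul_le_mul_of_nonneg_left _ (by positivity)
    have : (fun a : Bool × Γ.Ω × Δ.Ω => volume.real (sub Γ Δ a)) =
        fun a => if a.1 then volume.real (Γ.G a.2.1) else volume.real (Δ.G a.2.2) := by
      funext a; unfold sub; split_ifs <;> rfl
    rw [this, Ex_mix (fun a => volume.real (Γ.G a)) (fun a => volume.real (Δ.G a))]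
    linarith
  refine le_trans (Finset.sum_le_sum fun d _ => h3 d) (le_of_eq ?_)
  rw [Finset.sum_const, Finset.card_univ, Fintype.card_fin, nsmul_eq_mul]
  field_simp

lemma split_rob (B : ℕ) (hB : 1 ≤ B) {Γ Δ : Gad} {p ℓ : ℝ} (h1 : Rob Γ p ℓ) (h2 : Rob Δ p ℓ) :
    Rob (split B Γ Δ) p (ℓ / B) := by
  have hB0 : (0 : ℝ) < B := by exact_mod_cast hB
  intro y hy
  obtain ⟨d, hd⟩ := exists_child B hB hy
  have h3 := h1 _ hd
  have h4 := h2 _ hd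
  have h5 := Pr_mix (fun a => ¬ Metric.ball (ch B d y) ℓ ⊆ Γ.G a)
    (fun a => ¬ Metric.ball (ch B d y) ℓ ⊆ Δ.G a)
  rw [← Pr_eval d] at h5
  have h6 := h5.le.trans (show _ ≤ 1 - p by linarith)
  refine le_trans (Pr_mono ?_) h6
  intro ω hω
  have : ¬ Metric.ball (ch B d y) ℓ ⊆ sub Γ Δ (ω d) := by
    intro h
    apply hω
    refine (ball_sub_ch B hB d h (le_of_eq (by field_simp))).trans ?_
    exact subset_iUnion (fun d : Fin B => ch B d ⁻¹' sub Γ Δ (ω d)) d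
  unfold sub at this
  unfold mixP
  split_ifs at this ⊢ <;> exact this

/-- `x` fails: some admissible geometric progression towards `x` misses `G`. -/
def fail (q σ : ℝ) (G : Set ℝ) (x : ℝ) : Prop := ∃ s : ℝ, σ ≤ |s| ∧ ∀ n : ℕ, x + s * q ^ n ∉ G

/-- robust kill -/
def RK (q ρ : ℝ) (G : Set ℝ) (x s : ℝ) : Prop :=
  ∃ n : ℕ, Metric.ball (x + s * q ^ n) (ρ * |s| * q ^ n) ⊆ G

def Fl (q σ : ℝ) (Γ : Gad) (u : ℝ) (Z : Set ℝ) : Prop :=
  ∀ x ∈ Ico (0 : ℝ) 1, x ∉ Z → Pr (fun ω => fail q σ (Γ.G ω) x) ≤ u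

lemma fail_child {q σ : ℝ} (hσ : 0 ≤ σ) (B : ℕ) (hB : 1 ≤ B) (Γ Δ : Gad)
    (ω : Fin B → Bool × Γ.Ω × Δ.Ω) (d : Fin B) {x : ℝ}
    (h : fail q σ ((split B Γ Δ).G ω) x) : fail q σ (sub Γ Δ (ω d)) (ch B d x) := by
  have hB1 : (1 : ℝ) ≤ B := by exact_mod_cast hB
  obtain ⟨s, hs, h⟩ := h
  refine ⟨B * s, ?_, ?_⟩
  · rw [abs_mul, abs_of_pos (by linarith : (0 : ℝ) < B)]
    nlinarith
  · intro n hn
    apply h n
    refine mem_iUnion.2 ⟨d, ?_⟩
    show ch B d (x + s * q ^ n) ∈ sub Γ Δ (ω d)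
    have : ch B d (x + s * q ^ n) = ch B d x + B * s * q ^ n := by unfold ch; ring
    rw [this]; exact hn

lemma RK_parent {q ρ : ℝ} (B : ℕ) (hB : 1 ≤ B) (Γ Δ : Gad)
    (ω : Fin B → Bool × Γ.Ω × Δ.Ω) (d : Fin B) {x s : ℝ}
    (h : RK q ρ (sub Γ Δ (ω d)) (ch B d x) (B * s)) : RK q ρ ((split B Γ Δ).G ω) x s := by
  have hB0 : (0 : ℝ) < B := by exact_mod_cast hB
  obtain ⟨n, hn⟩ := h
  refine ⟨n, ?_⟩
  have : ch B d x + B * s * q ^ n = ch B d (x + s * q ^ n) := by unfold ch; ring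
  rw [this] at hn
  refine (ball_sub_ch B hB d hn (le_of_eq ?_)).trans
    (subset_iUnion (fun d : Fin B => ch B d ⁻¹' sub Γ Δ (ω d)) d)
  rw [abs_mul, abs_of_pos hB0]; ring

lemma exists_scale {q r t : ℝ} (hq0 : 0 < q) (hq1 : q < 1) (hr : 0 < r) (hrt : r ≤ t) :
    ∃ n : ℕ, q * r < t * q ^ n ∧ t * q ^ n ≤ r := by
  have ht : 0 < t := lt_of_lt_of_le hr hrt
  have hex : ∃ n : ℕ, t * q ^ n ≤ r := by
    obtain ⟨n, hn⟩ := exists_pow_lt_of_lt_one (div_pos hr ht) hq1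
    refine ⟨n, ?_⟩
    rw [lt_div_iff₀ ht] at hn
    linarith
  refine ⟨Nat.find hex, ?_, Nat.find_spec hex⟩
  rcases h : Nat.find hex with _ | m
  · simp only [pow_zero, mul_one]; nlinarith
  · have := Nat.find_min hex (m := m) (by omega)
    push Not at this
    rw [pow_succ]
    nlinarith

end Crest.Agent.H8ES
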