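import Crest.Agent.H8.ErdosSimB

set_option autoImplicit false

namespace Crest.Agent.H8ES

open MeasureTheory Set
open scoped BigOperators Classical

/-- offsets of the trial points -/
def off (q : ℝ) (J : ℕ) : Option (Fin J) → ℝ
  | none => 0
  | some j => q ^ (j : ℕ)

lemma off_sep {q : ℝ} (hq0 : 0 < q) (hq1 : q < 1) (J : ℕ) (i i' : Option (Fin J)) (h : i ≠ i') :
    q ^ J * (1 - q) ≤ q * |off q J i - off q J i'| := by
  have key0 : ∀ j : Fin J, q ^ J ≤ q * q ^ (j : ℕ) := by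
    intro j
    rw [← pow_succ']
    exact pow_le_pow_of_le_one hq0.le hq1.le j.2
  have hJ : 0 < q ^ J := pow_pos hq0 J
  have key1 : ∀ j : Fin J, q ^ J * (1 - q) ≤ q * q ^ (j : ℕ) := by
    intro j
    have := key0 j
    nlinarith
  have key2 : ∀ j j' : Fin J, j < j' → q ^ J * (1 - q) ≤ q * (q ^ (j : ℕ) - q ^ (j' : ℕ)) := by
    intro j j' hjj
    have h1 : q ^ (j' : ℕ) ≤ q ^ ((j : ℕ) + 1) := pow_le_pow_of_le_one hq0.le hq1.le hjj
    have h2 := key0 j
    rw [pow_succ] at h1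
    have h3 : q ^ J * (1 - q) ≤ q * q ^ (j : ℕ) * (1 - q) :=
      mul_le_mul_of_nonneg_right h2 (by linarith)
    nlinarith
  rcases i with _ | j <;> rcases i' with _ | j'
  · exact absurd rfl h
  · simp only [off, zero_sub, abs_neg]
    rw [abs_of_pos (pow_pos hq0 _)]; exact key1 j'
  · simp only [off, sub_zero]
    rw [abs_of_pos (pow_pos hq0 _)]; exact key1 j
  · simp only [off]
    have hne : j ≠ j' := fun e => h (by rw [e])
    rcases lt_or_gt_of_ne hne with h1 | h1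
    · exact (key2 j j' h1).trans (mul_le_mul_of_nonneg_left (le_abs_self _) hq0.le)
    · rw [abs_sub_comm]
      exact (key2 j' j h1).trans (mul_le_mul_of_nonneg_left (le_abs_self _) hq0.le)

lemma off_mem {q : ℝ} (hq0 : 0 < q) (hq1 : q < 1) (J : ℕ) (i : Option (Fin J)) :
    0 ≤ off q J i ∧ off q J i ≤ 1 := by
  rcases i with _ | j
  · simp [off]
  · exact ⟨(pow_pos hq0 _).le, pow_le_one₀ hq0.le hq1.le⟩

/-- the invariant maintained along the levels of a round -/
def Inv (q σ ρ : ℝ) (Δ : Gad) (a b : ℝ) (Z : Set ℝ) : Prop :=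
  ∃ C : ℝ → Δ.Ω → Prop, ∀ x ∈ Ico (0 : ℝ) 1, x ∉ Z →
    Pr (fun ω => ¬ C x ω ∧ fail q σ (Δ.G ω) x) ≤ a ∧
    ∀ s : ℝ, σ ≤ |s| → Pr (fun ω => C x ω ∧ ¬ RK q ρ (Δ.G ω) x s) ≤ b

lemma step {q σ r ρ p ℓ u a b : ℝ} {B J : ℕ} (hq0 : 0 < q) (hq1 : q < 1) (hr0 : 0 < r)
    (hrσ : r ≤ σ) (hr1 : r ≤ 1) (hB1 : 1 ≤ B) (hB : 1 ≤ B * r * (q ^ J * (1 - q)))
    (hρ0 : 0 ≤ ρ) (hρ : ρ * B ≤ ℓ)
    {Γ Δ : Gad} {Z Z' : Set ℝ} (hR : Rob Γ p ℓ) (hF : Fl q σ Γ u Z) (hI : Inv q σ ρ Δ a b Z') :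
    Inv q σ ρ (split B Γ Δ) ((u + a) / 2) (b / 2 * (1 - p / 2) ^ J)
      (Ico 0 r ∪ Ico (1 - r) 1 ∪ ⋃ d : Fin B, ch B d ⁻¹' (Z ∪ Z')) := by
  have hB0 : (0 : ℝ) < B := by exact_mod_cast hB1
  have hB1' : (1 : ℝ) ≤ B := by exact_mod_cast hB1
  have hσ : 0 ≤ σ := by linarith
  obtain ⟨C, hC⟩ := hI
  refine ⟨fun x ω => ∃ d : Fin B, ch B d x ∈ Ico (0 : ℝ) 1 ∧ (ω d).1 = false ∧
    C (ch B d x) (ω d).2.2, ?_⟩
  intro x hx hxZ
  obtain ⟨d0, hd0⟩ := exists_child B hB1 hx
  have hxr : r ≤ x := by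
    by_contra h
    exact hxZ (Or.inl (Or.inl ⟨hx.1, lt_of_not_ge h⟩))
  have hxr' : x < 1 - r := by
    by_contra h
    exact hxZ (Or.inl (Or.inr ⟨le_of_not_gt h, hx.2⟩))
  have hZ1 : ch B d0 x ∉ Z := fun h => hxZ (Or.inr (mem_iUnion.2 ⟨d0, Or.inl h⟩))
  have hZ2 : ch B d0 x ∉ Z' := fun h => hxZ (Or.inr (mem_iUnion.2 ⟨d0, Or.inr h⟩))
  obtain ⟨hc, hd⟩ := hC _ hd0 hZ2
  constructor
  · have h1 := hF _ hd0 hZ1
    have h5 := Pr_mix (fun a => fail q σ (Γ.G a) (ch B d0 x))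
      (fun a => ¬ C (ch B d0 x) a ∧ fail q σ (Δ.G a) (ch B d0 x))
    rw [← Pr_eval d0] at h5
    have h6 := h5.le.trans (show _ ≤ (u + a) / 2 by linarith)
    refine le_trans (Pr_mono ?_) h6
    rintro ω ⟨hω1, hω2⟩
    have h7 := fail_child hσ B hB1 Γ Δ ω d0 hω2
    unfold sub at h7
    unfold mixP
    split_ifs at h7 ⊢ with h8
    · exact h7
    · refine ⟨fun h9 => hω1 ⟨d0, hd0, by simpa using h8, h9⟩, h7⟩
  · intro s hs
    obtain ⟨n0, hn1, hn2⟩ := exists_scale hq0 hq1 hr0 (hrσ.trans hs)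
    have hqn : 0 < q ^ n0 := pow_pos hq0 _
    set y : Option (Fin J) → ℝ := fun i => x + s * q ^ n0 * off q J i with hy
    have hymem : ∀ i, y i ∈ Ico (0 : ℝ) 1 := by
      intro i
      obtain ⟨h0, h1⟩ := off_mem hq0 hq1 J i
      have h2 : |s * q ^ n0 * off q J i| ≤ r := by
        rw [abs_mul, abs_mul, abs_of_pos hqn, abs_of_nonneg h0]
        have : 0 ≤ |s| * q ^ n0 := by positivity
        nlinarith
      obtain ⟨h3, h4⟩ := abs_le.1 h2
      simp only [hy]
      constructor <;> linarith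
    choose e he using fun i => exists_child B hB1 (hymem i)
    have hy0 : y none = x := by simp [hy, off]
    have he0 : e none = d0 := child_unique B (by rw [← hy0]; exact he none) hd0
    have hinj : Function.Injective e := by
      intro i i' hii
      by_contra hne
      have h1 := off_sep hq0 hq1 J i i' hne
      have h2 := he i
      have h3 := he i'
      rw [← hii] at h3
      have h4 : |ch B (e i) (y i) - ch B (e i) (y i')| < 1 := by
        rw [abs_lt]; constructor <;> linarith [h2.1, h2.2, h3.1, h3.2]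
      have h5 : ch B (e i) (y i) - ch B (e i) (y i') =
          B * (s * q ^ n0 * (off q J i - off q J i')) := by
        simp only [ch, hy]; ring
      rw [h5, abs_mul, abs_mul, abs_mul, abs_of_pos hB0, abs_of_pos hqn] at h4
      have h6 : 0 ≤ |off q J i - off q J i'| := abs_nonneg _
      have h7 : q * r * |off q J i - off q J i'| ≤ |s| * q ^ n0 * |off q J i - off q J i'| :=
        mul_le_mul_of_nonneg_right hn1.le h6
      have h8 : r * (q ^ J * (1 - q)) ≤ r * (q * |off q J i - off q J i'|) :=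
        mul_le_mul_of_nonneg_left h1 hr0.le
      have h9 : (B : ℝ) * (r * (q ^ J * (1 - q))) ≤
          B * (|s| * q ^ n0 * |off q J i - off q J i'|) :=
        mul_le_mul_of_nonneg_left (by linarith) hB0.le
      linarith
    let A : Option (Fin J) → Bool × Γ.Ω × Δ.Ω → Prop := fun i =>
      match i with
      | none => mixP (fun _ => False)
          (fun a => C (ch B d0 x) a ∧ ¬ RK q ρ (Δ.G a) (ch B d0 x) (B * s))
      | some j => mixP (fun a => ¬ Metric.ball (ch B (e (some j)) (y (some j))) ℓ ⊆ Γ.G a)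
          (fun _ => True)
    have hP := Pr_inj e hinj A
    have hBs : σ ≤ |(B : ℝ) * s| := by
      rw [abs_mul, abs_of_pos hB0]
      nlinarith [abs_nonneg s]
    have hA0 : Pr (A none) ≤ b / 2 := by
      have := hd _ hBs
      simp only [A]
      rw [Pr_mix, Pr_false]
      linarith
    have hA1 : ∀ j : Fin J, Pr (A (some j)) ≤ 1 - p / 2 := by
      intro j
      have h1 := hR _ (he (some j))
      have h2 := Pr_le_one (fun _ : Δ.Ω => True)
      simp only [A]
      rw [Pr_mix]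
      linarith
    have hprod : ∏ i, Pr (A i) ≤ b / 2 * (1 - p / 2) ^ J := by
      rw [Fintype.prod_option]
      apply mul_le_mul hA0 _ (Finset.prod_nonneg fun j _ => Pr_nonneg _)
        ((Pr_nonneg _).trans hA0)
      calc ∏ j : Fin J, Pr (A (some j)) ≤ ∏ _j : Fin J, (1 - p / 2) :=
            Finset.prod_le_prod (fun j _ => Pr_nonneg _) (fun j _ => hA1 j)
        _ = (1 - p / 2) ^ J := by simp
    have h6 := hP.le.trans hprod
    refine le_trans (Pr_mono ?_) h6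
    rintro ω ⟨⟨d, hd1, hd2, hd3⟩, hω⟩ i
    have hdd : d = d0 := child_unique B hd1 hd0
    subst hdd
    rcases i with _ | j
    · simp only [A]
      rw [he0]
      unfold mixP
      rw [if_neg (by simp [hd2])]
      refine ⟨hd3, fun h => hω (RK_parent B hB1 Γ Δ ω d ?_)⟩
      unfold sub
      rw [if_neg (by simp [hd2])]
      exact h
    · simp only [A]
      unfold mixP
      split_ifs with h8
      · intro h9
        apply hω
        refine ⟨n0 + j, ?_⟩
        have h10 : x + s * q ^ (n0 + (j : ℕ)) = y (some j) := by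
          simp only [hy, off]; ring
        rw [h10]
        have h11 : Metric.ball (ch B (e (some j)) (y (some j))) ℓ ⊆ sub Γ Δ (ω (e (some j))) := by
          unfold sub; rw [if_pos h8]; exact h9
        refine (ball_sub_ch B hB1 (e (some j)) h11 ?_).trans
          (subset_iUnion (fun d : Fin B => ch B d ⁻¹' sub Γ Δ (ω d)) (e (some j)))
        have h12 : q ^ (j : ℕ) ≤ 1 := pow_le_one₀ hq0.le hq1.le
        have h13 : |s| * q ^ (n0 + (j : ℕ)) ≤ 1 := by
          rw [pow_add, ← mul_assoc]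
          have : 0 ≤ |s| * q ^ n0 := by positivity
          nlinarith
        have h14 : 0 ≤ ρ * B := by positivity
        calc ρ * |s| * q ^ (n0 + (j : ℕ)) * B = (ρ * B) * (|s| * q ^ (n0 + (j : ℕ))) := by ring
          _ ≤ (ρ * B) * 1 := mul_le_mul_of_nonneg_left h13 h14
          _ ≤ ℓ := by linarith
      · trivial

lemma levels {q σ r ρ p ℓ u c z : ℝ} {B J : ℕ} (hq0 : 0 < q) (hq1 : q < 1) (hr0 : 0 < r)
    (hrσ : r ≤ σ) (hr1 : r ≤ 1) (hB1 : 1 ≤ B) (hB : 1 ≤ B * r * (q ^ J * (1 - q)))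
    (hρ0 : 0 ≤ ρ) (hρ : ρ * B ≤ ℓ) (hℓ : 0 < ℓ) (hz : 0 ≤ z)
    {Γ : Gad} {Z : Set ℝ} (hV : Vol Γ c) (hR : Rob Γ p ℓ) (hF : Fl q σ Γ u Z)
    (hZ : volume Z ≤ ENNReal.ofReal z) (k : ℕ) :
    ∃ (Δ : Gad) (Z' : Set ℝ) (ℓ' : ℝ), 0 < ℓ' ∧ Vol Δ c ∧ Rob Δ p ℓ' ∧
      volume Z' ≤ ENNReal.ofReal (k * (2 * r + z)) ∧
      Inv q σ ρ Δ ((1 - (1 / 2) ^ k) * u) (((1 - p / 2) ^ J / 2) ^ k) Z' := by
  have hB0 : (0 : ℝ) < B := by exact_mod_cast hB1
  induction k with
  | zero =>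
    refine ⟨Γ, ∅, ℓ, hℓ, hV, hR, by simp, fun _ _ => True, ?_⟩
    intro x _ _
    constructor
    · simp [Pr_false]
    · intro s _
      simpa using Pr_le_one _
  | succ k ih =>
    obtain ⟨Δ, Z', ℓ', h1, h2, h3, h4, h5⟩ := ih
    have h6 := step hq0 hq1 hr0 hrσ hr1 hB1 hB hρ0 hρ hR hF h5
    refine ⟨split B Γ Δ, Ico 0 r ∪ Ico (1 - r) 1 ∪ ⋃ d : Fin B, ch B d ⁻¹' (Z ∪ Z'),
      min ℓ ℓ' / B, by positivity, split_vol B hB1 hV h2,
      split_rob B hB1 (hR.mono (min_le_left _ _)) (h3.mono (min_le_right _ _)), ?_, ?_⟩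
    swap
    · convert h6 using 1
      · ring
      · ring
    · refine le_trans (measure_union_le _ _) ?_
      refine le_trans (add_le_add (measure_union_le _ _) (vol_iUnion_ch B hB1 _)) ?_
      refine le_trans (add_le_add le_rfl (measure_union_le _ _)) ?_
      refine le_trans (add_le_add le_rfl (add_le_add hZ h4)) ?_
      rw [Real.volume_Ico, Real.volume_Ico, ← ENNReal.ofReal_add (by linarith) (by linarith),
        ← ENNReal.ofReal_add hz (by positivity),
        ← ENNReal.ofReal_add (by linarith) (by positivity)]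
      apply ENNReal.ofReal_le_ofReal
      push_cast
      apply le_of_eq
      ring

end Crest.Agent.H8ES
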