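import Crest.Agent.H8.ErdosSimC

set_option autoImplicit false

namespace Crest.Agent.H8ES

open MeasureTheory Set
open scoped BigOperators Classical

lemma fail_norm {q σ : ℝ} (hq0 : 0 < q) (hq1 : q < 1) (hσ : 0 < σ) {G : Set ℝ} {x : ℝ}
    (h : fail q σ G x) : ∃ s : ℝ, σ ≤ |s| ∧ |s| ≤ σ / q ∧ ∀ n : ℕ, x + s * q ^ n ∉ G := by
  obtain ⟨s, hs, h⟩ := h
  by_cases h1 : |s| ≤ σ / q
  · exact ⟨s, hs, h1, h⟩
  · push Not at h1
    obtain ⟨n0, hn1, hn2⟩ := exists_scale hq0 hq1 (div_pos hσ hq0) h1.le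
    have hqn : 0 < q ^ n0 := pow_pos hq0 _
    refine ⟨s * q ^ n0, ?_, ?_, ?_⟩
    · rw [abs_mul, abs_of_pos hqn]
      rw [mul_div_cancel₀ _ hq0.ne'] at hn1
      exact hn1.le
    · rw [abs_mul, abs_of_pos hqn]; exact hn2
    · intro n
      rw [mul_assoc, ← pow_add]
      exact h _

/-- grid of dilation parameters -/
noncomputable def grid (σ ρ : ℝ) (L : ℕ) (i : Bool × Fin L) : ℝ :=
  (if i.1 then 1 else -1) * (σ + (i.2 : ℕ) * (ρ * σ))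

lemma grid_abs {σ ρ : ℝ} (hσ : 0 < σ) (hρ : 0 < ρ) (L : ℕ) (i : Bool × Fin L) :
    σ ≤ |grid σ ρ L i| := by
  unfold grid
  have h : 0 ≤ ((i.2 : ℕ) : ℝ) * (ρ * σ) := by positivity
  rw [abs_mul, abs_of_pos (by linarith : 0 < σ + (i.2 : ℕ) * (ρ * σ))]
  split_ifs <;> simp <;> linarith

lemma grid_approx {q σ ρ : ℝ} (hq0 : 0 < q) (hσ : 0 < σ) (hρ : 0 < ρ) {L : ℕ}
    (hL : 1 ≤ L * (ρ * q)) {s : ℝ} (h1 : σ ≤ |s|) (h2 : |s| ≤ σ / q) :
    ∃ i : Bool × Fin L, |s - grid σ ρ L i| < ρ * σ := by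
  have hρσ : 0 < ρ * σ := by positivity
  have h0 : 0 ≤ (|s| - σ) / (ρ * σ) := div_nonneg (by linarith) hρσ.le
  have h3 : (|s| - σ) / (ρ * σ) < L := by
    rw [div_lt_iff₀ hρσ]
    rw [le_div_iff₀ hq0] at h2
    have h4 : σ * 1 ≤ σ * (L * (ρ * q)) := mul_le_mul_of_nonneg_left hL hσ.le
    have h5 : |s| * q ≤ (L * (ρ * σ)) * q := by nlinarith
    have h6 : |s| ≤ L * (ρ * σ) := le_of_mul_le_mul_right h5 hq0
    linarith
  set k := ⌊(|s| - σ) / (ρ * σ)⌋₊ with hk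
  have hk1 : (k : ℝ) ≤ (|s| - σ) / (ρ * σ) := Nat.floor_le h0
  have hk2 : (|s| - σ) / (ρ * σ) < k + 1 := Nat.lt_floor_add_one _
  rw [le_div_iff₀ hρσ] at hk1
  rw [div_lt_iff₀ hρσ] at hk2
  have hkL : k < L := (Nat.floor_lt h0).2 h3
  by_cases hs : 0 ≤ s
  · refine ⟨(true, ⟨k, hkL⟩), ?_⟩
    rw [abs_of_nonneg hs] at hk1 hk2
    simp only [grid, if_true, one_mul]
    rw [abs_lt]; constructor <;> nlinarith
  · push Not at hs
    refine ⟨(false, ⟨k, hkL⟩), ?_⟩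
    rw [abs_of_neg hs] at hk1 hk2
    simp only [grid, Bool.false_eq_true, if_false]
    rw [abs_lt]; constructor <;> nlinarith

lemma Inv.fl {q σ ρ a b : ℝ} (hq0 : 0 < q) (hq1 : q < 1) (hσ : 0 < σ) (hρ : 0 < ρ) {L : ℕ}
    (hL : 1 ≤ L * (ρ * q)) {Δ : Gad} {Z : Set ℝ} (h : Inv q σ ρ Δ a b Z) :
    Fl q σ Δ (a + 2 * L * b) Z := by
  obtain ⟨C, hC⟩ := h
  intro x hx hxZ
  obtain ⟨h1, h2⟩ := hC x hx hxZ
  have h3 := Pr_exists (fun (i : Bool × Fin L) (ω : Δ.Ω) =>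
    C x ω ∧ ¬ RK q ρ (Δ.G ω) x (grid σ ρ L i))
  have h4 : ∑ i : Bool × Fin L, Pr (fun ω : Δ.Ω => C x ω ∧ ¬ RK q ρ (Δ.G ω) x (grid σ ρ L i))
      ≤ 2 * L * b := by
    refine le_trans (Finset.sum_le_sum fun i _ => h2 _ (grid_abs hσ hρ L i)) (le_of_eq ?_)
    simp
  have h5 := Pr_or (fun ω : Δ.Ω => ¬ C x ω ∧ fail q σ (Δ.G ω) x)
    (fun ω => ∃ i : Bool × Fin L, C x ω ∧ ¬ RK q ρ (Δ.G ω) x (grid σ ρ L i))
  have h6 := h5.trans (add_le_add h1 (h3.trans h4))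
  refine le_trans (Pr_mono ?_) h6
  intro ω hω
  by_cases hc : C x ω
  · right
    obtain ⟨s, hs1, hs2, hs3⟩ := fail_norm hq0 hq1 hσ hω
    obtain ⟨i, hi⟩ := grid_approx hq0 hσ hρ hL hs1 hs2
    refine ⟨i, hc, ?_⟩
    rintro ⟨n, hn⟩
    apply hs3 n
    apply hn
    have hqn : 0 < q ^ n := pow_pos hq0 _
    rw [Metric.mem_ball, Real.dist_eq]
    have : x + s * q ^ n - (x + grid σ ρ L i * q ^ n) = (s - grid σ ρ L i) * q ^ n := by ring
    rw [this, abs_mul, abs_of_pos hqn]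
    apply mul_lt_mul_of_pos_right _ hqn
    exact lt_of_lt_of_le hi (mul_le_mul_of_nonneg_left (grid_abs hσ hρ L i) hρ.le)
  · exact Or.inl ⟨hc, hω⟩

def Good (q σ p u z : ℝ) : Prop :=
  ∃ (Γ : Gad) (ℓ : ℝ) (Z : Set ℝ), 0 < ℓ ∧ Vol Γ (3 * p) ∧ Rob Γ p ℓ ∧ Fl q σ Γ u Z ∧
    volume Z ≤ ENNReal.ofReal z

lemma Good.mono {q σ p u z u' z' : ℝ} (h : Good q σ p u z) (hu : u ≤ u') (hz : z ≤ z') :
    Good q σ p u' z' := by
  obtain ⟨Γ, ℓ, Z, h1, h2, h3, h4, h5⟩ := h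
  exact ⟨Γ, ℓ, Z, h1, h2, h3, fun x hx hxZ => (h4 x hx hxZ).trans hu,
    h5.trans (ENNReal.ofReal_le_ofReal hz)⟩

lemma round {q σ p u z : ℝ} (hq0 : 0 < q) (hq1 : q < 1) (hσ : 0 < σ) (hp1 : p ≤ 1) (hz : 0 ≤ z)
    {N : ℕ} (hN : (1 - p / 2) ^ N ≤ q ^ 2) (h : Good q σ p u z) {ε : ℝ} (hε : 0 < ε) :
    Good q σ p ((1 - (1 / 2) ^ N) * u + ε) (N * z + ε) := by
  obtain ⟨Γ, ℓ, Z, hℓ, hV, hR, hF, hZ⟩ := h
  set r : ℝ := min (min σ 1) (ε / (2 * (N + 1))) with hr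
  have hr0 : 0 < r := by positivity
  have hrσ : r ≤ σ := (min_le_left _ _).trans (min_le_left _ _)
  have hr1 : r ≤ 1 := (min_le_left _ _).trans (min_le_right _ _)
  have hrε : r ≤ ε / (2 * (N + 1)) := min_le_right _ _
  have h1q : 0 < 1 - q := by linarith
  set c1 : ℝ := 1 / (r * (1 - q)) + 1 with hc1
  set c2 : ℝ := c1 / (ℓ * q) + 1 with hc2
  have hc10 : 0 < c1 := by positivity
  have hc20 : 0 < c2 := by positivity
  obtain ⟨J, hJ⟩ := exists_pow_lt_of_lt_one (show 0 < ε / (2 * c2) by positivity) hq1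
  have hqJ : 0 < q ^ J := pow_pos hq0 J
  have hqJ1 : q ^ J ≤ 1 := pow_le_one₀ hq0.le hq1.le
  set B : ℕ := ⌈1 / (r * (q ^ J * (1 - q)))⌉₊ with hBdef
  have hpos : 0 < r * (q ^ J * (1 - q)) := by positivity
  have hB1 : 1 ≤ B := Nat.ceil_pos.2 (by positivity)
  have hB0 : (0 : ℝ) < B := by exact_mod_cast hB1
  have hB : 1 ≤ B * r * (q ^ J * (1 - q)) := by
    have := Nat.le_ceil (1 / (r * (q ^ J * (1 - q))))
    rw [div_le_iff₀ hpos] at this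
    rw [mul_assoc]; exact this
  have hBup : (B : ℝ) * q ^ J ≤ c1 := by
    have h1 : (B : ℝ) ≤ 1 / (r * (q ^ J * (1 - q))) + 1 :=
      (Nat.ceil_lt_add_one (by positivity)).le
    have h2 : 1 / (r * (q ^ J * (1 - q))) * q ^ J = 1 / (r * (1 - q)) := by field_simp
    have h3 := mul_le_mul_of_nonneg_right h1 hqJ.le
    rw [add_mul, h2] at h3
    linarith
  set ρ : ℝ := ℓ / B with hρdef
  have hρ0 : 0 < ρ := by positivity
  have hρ : ρ * B ≤ ℓ := le_of_eq (by rw [hρdef]; field_simp)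
  set L : ℕ := ⌈1 / (ρ * q)⌉₊ with hLdef
  have hL : 1 ≤ L * (ρ * q) := by
    have := Nat.le_ceil (1 / (ρ * q))
    rwa [div_le_iff₀ (by positivity)] at this
  have hLup : (L : ℝ) * q ^ J ≤ c2 := by
    have h1 : (L : ℝ) ≤ 1 / (ρ * q) + 1 := (Nat.ceil_lt_add_one (by positivity)).le
    have h2 : 1 / (ρ * q) * q ^ J = (B * q ^ J) / (ℓ * q) := by rw [hρdef]; field_simp
    have h3 := mul_le_mul_of_nonneg_right h1 hqJ.le
    rw [add_mul, h2] at h3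
    have h4 : (B * q ^ J) / (ℓ * q) ≤ c1 / (ℓ * q) :=
      div_le_div_of_nonneg_right hBup (by positivity)
    linarith
  obtain ⟨Δ, Z', ℓ', h1, h2, h3, h4, h5⟩ :=
    levels hq0 hq1 hr0 hrσ hr1 hB1 hB hρ0.le hρ hℓ hz hV hR hF hZ N
  have h6 := h5.fl hq0 hq1 hσ hρ0 hL
  have hgood : Good q σ p _ _ := ⟨Δ, ℓ', Z', h1, h2, h3, h6, h4⟩
  refine hgood.mono ?_ ?_
  · have hp2 : 0 ≤ 1 - p / 2 := by linarith
    have h7 : ((1 - p / 2) ^ J / 2) ^ N ≤ q ^ J * q ^ J := by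
      calc ((1 - p / 2) ^ J / 2) ^ N ≤ ((1 - p / 2) ^ J) ^ N := by
            apply pow_le_pow_left₀ (by positivity)
            have : 0 ≤ (1 - p / 2) ^ J := by positivity
            linarith
        _ = ((1 - p / 2) ^ N) ^ J := by rw [← pow_mul, ← pow_mul, mul_comm]
        _ ≤ (q ^ 2) ^ J := pow_le_pow_left₀ (by positivity) hN J
        _ = q ^ J * q ^ J := by rw [← pow_mul, ← pow_add]; congr 1; ring
    have h8 : 2 * (L : ℝ) * ((1 - p / 2) ^ J / 2) ^ N ≤ 2 * (L : ℝ) * (q ^ J * q ^ J) :=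
      mul_le_mul_of_nonneg_left h7 (by positivity)
    have h9 : (L : ℝ) * q ^ J * q ^ J ≤ c2 * q ^ J := mul_le_mul_of_nonneg_right hLup hqJ.le
    rw [lt_div_iff₀ (by positivity)] at hJ
    nlinarith
  · rw [le_div_iff₀ (by positivity)] at hrε
    have : (0 : ℝ) ≤ N := Nat.cast_nonneg _
    nlinarith

noncomputable def baseG (m : ℕ) (ω : Fin (m + 1)) : Set ℝ := if ω = 0 then Ioo (-1) 2 else ∅

noncomputable def base (m : ℕ) : Gad where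
  Ω := Fin (m + 1)
  fin := inferInstance
  ne := inferInstance
  G := baseG m
  isOpen := fun ω => by unfold baseG; split_ifs; exacts [isOpen_Ioo, isOpen_empty]
  bdd := fun ω => by unfold baseG; split_ifs; exacts [subset_rfl, empty_subset _]

lemma Ex_fin_zero (m : ℕ) (a b : ℝ) :
    Ex (fun ω : Fin (m + 1) => if ω = 0 then a else b) = (a + m * b) / (m + 1) := by
  unfold Ex
  rw [Fin.sum_univ_succ]
  simp [Fin.succ_ne_zero]

lemma base_vol (m : ℕ) :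
    Ex (fun ω : Fin (m + 1) => volume.real (baseG m ω)) ≤ 3 * (1 / (m + 1)) := by
  have h := Ex_fin_zero m 3 0
  have h1 : (3 + m * 0 : ℝ) / (m + 1) = 3 * (1 / (m + 1)) := by ring
  rw [h1] at h
  refine le_trans (Ex_mono ?_) h.le
  intro ω
  unfold baseG
  split_ifs
  · simp [Measure.real]; norm_num
  · simp

lemma base_rob (m : ℕ) {y : ℝ} (hy : y ∈ Ico (0 : ℝ) 1) :
    Pr (fun ω : Fin (m + 1) => ¬ Metric.ball y 1 ⊆ baseG m ω) ≤ 1 - 1 / (m + 1) := by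
  have hm : (0 : ℝ) < m + 1 := by positivity
  have h := Ex_fin_zero m 0 1
  have h1 : (0 + m * 1 : ℝ) / (m + 1) = 1 - (1 / (m + 1)) := by field_simp; ring
  rw [h1] at h
  refine le_trans (Ex_mono ?_) h.le
  intro ω
  by_cases hω : ω = 0
  · have : Metric.ball y 1 ⊆ baseG m ω := by
      unfold baseG
      rw [if_pos hω, Real.ball_eq_Ioo]
      apply Ioo_subset_Ioo <;> linarith [hy.1, hy.2]
    rw [if_pos hω]
    simp [this]
  · rw [if_neg hω]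
    split_ifs <;> norm_num

lemma good_base (q σ : ℝ) (m : ℕ) : Good q σ (1 / (m + 1)) 1 0 :=
  ⟨base m, 1, ∅, one_pos, base_vol m, fun _ hy => base_rob m hy, fun _ _ _ => Pr_le_one _,
    by simp⟩

lemma good_iter {q σ : ℝ} (hq0 : 0 < q) (hq1 : q < 1) (hσ : 0 < σ) (m : ℕ)
    {N : ℕ} (hN : (1 - (1 / (m + 1) : ℝ) / 2) ^ N ≤ q ^ 2) (R : ℕ) :
    ∀ ε : ℝ, 0 < ε → Good q σ (1 / (m + 1)) ((1 - (1 / 2) ^ N) ^ R + ε) ε := by
  have hp1 : (1 / (m + 1) : ℝ) ≤ 1 := by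
    rw [div_le_one (by positivity)]
    have : (0 : ℝ) ≤ m := Nat.cast_nonneg _
    linarith
  induction R with
  | zero =>
    intro ε hε
    exact (good_base q σ m).mono (by simp; linarith) hε.le
  | succ R ih =>
    intro ε hε
    have hN0 : (0 : ℝ) ≤ N := Nat.cast_nonneg _
    set δ : ℝ := ε / (N + 2) with hδ
    have hδ0 : 0 < δ := by positivity
    have hδε : (N + 2) * δ = ε := by rw [hδ]; field_simp
    have h := round hq0 hq1 hσ hp1 hδ0.le hN (ih δ hδ0) hδ0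
    have h1 : (0 : ℝ) < (1 / 2) ^ N := by positivity
    refine h.mono ?_ ?_
    · rw [pow_succ]
      nlinarith
    · nlinarith

lemma good_small {q σ : ℝ} (hq0 : 0 < q) (hq1 : q < 1) (hσ : 0 < σ) {ε : ℝ} (hε : 0 < ε) :
    ∃ p : ℝ, p ≤ ε ∧ Good q σ p ε ε := by
  obtain ⟨m, hm⟩ := exists_nat_one_div_lt hε
  have hp0 : (0 : ℝ) < 1 / (m + 1) := by positivity
  obtain ⟨N, hN⟩ := exists_pow_lt_of_lt_one (show 0 < q ^ 2 by positivity)
    (show (1 - (1 / (m + 1) : ℝ) / 2) < 1 by linarith)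
  have h1 : (0 : ℝ) < (1 / 2) ^ N := by positivity
  obtain ⟨R, hR⟩ := exists_pow_lt_of_lt_one (show 0 < ε / 2 by positivity)
    (show (1 - (1 / 2 : ℝ) ^ N) < 1 by linarith)
  refine ⟨_, hm.le, (good_iter hq0 hq1 hσ m hN.le R (ε / 2) (by positivity)).mono ?_ ?_⟩ <;>
    linarith

end Crest.Agent.H8ES
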