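import Crest.Agent.H8.ErdosSimD

set_option autoImplicit false

namespace Crest.Agent.H8ES

open MeasureTheory Set
open scoped BigOperators Classical

lemma fail_closed {q σ : ℝ} (hq0 : 0 < q) (hq1 : q < 1) (hσ : 0 < σ) {G : Set ℝ}
    (hG : IsOpen G) : IsClosed {x : ℝ | fail q σ G x} := by
  have hK : IsCompact {s : ℝ | σ ≤ |s| ∧ |s| ≤ σ / q} := by
    apply Metric.isCompact_of_isClosed_isBounded
    · exact (isClosed_le continuous_const continuous_abs).inter
        (isClosed_le continuous_abs continuous_const)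
    · apply (Metric.isBounded_Icc (-(σ / q)) (σ / q)).subset
      intro s hs
      exact abs_le.1 hs.2
  haveI : CompactSpace {s : ℝ | σ ≤ |s| ∧ |s| ≤ σ / q} := isCompact_iff_compactSpace.1 hK
  have hcl : IsClosed {w : ℝ × {s : ℝ | σ ≤ |s| ∧ |s| ≤ σ / q} |
      ∀ n : ℕ, w.1 + (w.2 : ℝ) * q ^ n ∉ G} := by
    rw [setOf_forall]
    apply isClosed_iInter
    intro n
    exact hG.isClosed_compl.preimage
      (show Continuous fun w : ℝ × {s : ℝ | σ ≤ |s| ∧ |s| ≤ σ / q} => w.1 + (w.2 : ℝ) * q ^ n by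
        fun_prop)
  have h := isClosedMap_fst_of_compactSpace _ hcl
  convert h using 1
  ext x
  constructor
  · intro hx
    obtain ⟨s, h1, h2, h3⟩ := fail_norm hq0 hq1 hσ hx
    exact ⟨(x, ⟨s, h1, h2⟩), h3, rfl⟩
  · rintro ⟨⟨x', s⟩, h1, rfl⟩
    exact ⟨s, s.2.1, h1⟩

lemma fubini_fail {Ω : Type} [Fintype Ω] (F : Ω → Set ℝ) (hF : ∀ ω, MeasurableSet (F ω))
    {S : Set ℝ} (hS : MeasurableSet S) (hS1 : S ⊆ Ico 0 1) {u : ℝ} (hu : 0 ≤ u)
    (h : ∀ x ∈ S, Pr (fun ω => x ∈ F ω) ≤ u) :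
    Ex (fun ω => volume.real (F ω ∩ S)) ≤ u := by
  have hfin : volume S ≤ 1 := by
    refine (measure_mono hS1).trans ?_
    simp
  have hfin' : volume S ≠ ⊤ := ne_top_of_le_ne_top ENNReal.one_ne_top hfin
  haveI : IsFiniteMeasure (volume.restrict S) := isFiniteMeasure_restrict.2 hfin'
  have h1 : ∀ ω, volume.real (F ω ∩ S) = ∫ x in S, (if x ∈ F ω then (1 : ℝ) else 0) := by
    intro ω
    have : (fun x => if x ∈ F ω then (1 : ℝ) else 0) = (F ω).indicator 1 := by
      funext x; simp [Set.indicator]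
    rw [this, integral_indicator_one (hF ω)]
    simp [Measure.real, Measure.restrict_apply (hF ω)]
  have hint : ∀ ω, Integrable (fun x => if x ∈ F ω then (1 : ℝ) else 0) (volume.restrict S) := by
    intro ω
    have : (fun x => if x ∈ F ω then (1 : ℝ) else 0) = (F ω).indicator 1 := by
      funext x; simp [Set.indicator]
    rw [this]
    exact (integrable_const (1 : ℝ)).indicator (hF ω)
  have h2 : Ex (fun ω => volume.real (F ω ∩ S)) = ∫ x in S, Pr (fun ω => x ∈ F ω) := by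
    simp_rw [h1]
    unfold Pr Ex
    rw [integral_div, integral_finsetSum _ (fun ω _ => hint ω)]
  rw [h2]
  have hint2 : IntegrableOn (fun x => Pr (fun ω => x ∈ F ω)) S := by
    unfold Pr Ex
    exact (integrable_finsetSum _ (fun ω _ => hint ω)).div_const _
  calc ∫ x in S, Pr (fun ω => x ∈ F ω) ≤ ∫ _x in S, u :=
        setIntegral_mono_on hint2 (integrable_const u) hS h
    _ = volume.real S * u := by simp
    _ ≤ 1 * u := by
        apply mul_le_mul_of_nonneg_right _ hu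
        unfold Measure.real
        exact ENNReal.toReal_le_of_le_ofReal zero_le_one (by simpa using hfin)
    _ = u := one_mul u

lemma exists_open {q σ : ℝ} (hq0 : 0 < q) (hq1 : q < 1) (hσ : 0 < σ) {ε : ℝ} (hε : 0 < ε) :
    ∃ O : Set ℝ, IsOpen O ∧ volume O ≤ ENNReal.ofReal ε ∧
      ∀ x ∈ Icc (0 : ℝ) 1, x ∉ O → ∀ s : ℝ, σ ≤ |s| → ∃ n : ℕ, x + s * q ^ n ∈ O := by
  have hδ : 0 < ε / 10 := by positivity
  obtain ⟨p, hp, Γ, ℓ, Z, -, hV, -, hF, hZ⟩ := good_small hq0 hq1 hσ hδ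
  set F : Γ.Ω → Set ℝ := fun ω => {x | fail q σ (Γ.G ω) x} with hFdef
  have hFm : ∀ ω, MeasurableSet (F ω) := fun ω =>
    (fail_closed hq0 hq1 hσ (Γ.isOpen ω)).measurableSet
  set S : Set ℝ := Ico 0 1 \ toMeasurable volume Z with hSdef
  have hS : MeasurableSet S := measurableSet_Ico.diff (measurableSet_toMeasurable _ _)
  have h1 := fubini_fail F hFm hS diff_subset hδ.le (fun x hx =>
    hF x hx.1 (fun h => hx.2 (subset_toMeasurable _ _ h)))
  obtain ⟨ω, hω⟩ := exists_le_Ex (fun ω => volume.real (Γ.G ω) + volume.real (F ω ∩ S))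
  rw [Ex_add] at hω
  unfold Vol at hV
  have h2 : 0 ≤ volume.real (Γ.G ω) := measureReal_nonneg
  have h3 : 0 ≤ volume.real (F ω ∩ S) := measureReal_nonneg
  have hG : volume (Γ.G ω) ≤ ENNReal.ofReal (4 * (ε / 10)) := by
    have : volume (Γ.G ω) ≠ ⊤ :=
      ne_top_of_le_ne_top (by simp) (measure_mono (Γ.bdd ω))
    rw [← ofReal_measureReal this]
    apply ENNReal.ofReal_le_ofReal
    linarith
  have hFS : volume (F ω ∩ S) ≤ ENNReal.ofReal (4 * (ε / 10)) := by
    have : volume (F ω ∩ S) ≠ ⊤ :=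
      ne_top_of_le_ne_top (b := volume (Ico (0 : ℝ) 1)) (by simp)
        (measure_mono (inter_subset_right.trans diff_subset))
    rw [← ofReal_measureReal this]
    apply ENNReal.ofReal_le_ofReal
    linarith
  have hW : volume ((F ω ∩ S) ∪ toMeasurable volume Z ∪ {1}) < ENNReal.ofReal (6 * (ε / 10)) := by
    refine lt_of_le_of_lt (measure_union_le _ _) ?_
    rw [Real.volume_singleton, add_zero]
    refine lt_of_le_of_lt (measure_union_le _ _) ?_
    rw [measure_toMeasurable]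
    refine lt_of_le_of_lt (add_le_add hFS hZ) ?_
    rw [← ENNReal.ofReal_add (by positivity) hδ.le]
    apply (ENNReal.ofReal_lt_ofReal_iff (by positivity)).2
    linarith
  obtain ⟨U, hU1, hU2, hU3⟩ := Set.exists_isOpen_lt_of_lt _ _ hW
  refine ⟨Γ.G ω ∪ U, (Γ.isOpen ω).union hU2, ?_, ?_⟩
  · refine (measure_union_le _ _).trans ((add_le_add hG hU3.le).trans ?_)
    rw [← ENNReal.ofReal_add (by positivity) (by positivity)]
    apply ENNReal.ofReal_le_ofReal
    linarith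
  · intro x hx hxO s hs
    have hxU : x ∉ U := fun h => hxO (Or.inr h)
    have hx1 : x ≠ 1 := fun h => hxU (hU1 (Or.inr h))
    have hxZ : x ∉ toMeasurable volume Z := fun h => hxU (hU1 (Or.inl (Or.inr h)))
    have hxS : x ∈ S := ⟨⟨hx.1, lt_of_le_of_ne hx.2 hx1⟩, hxZ⟩
    have hxF : x ∉ F ω := fun h => hxU (hU1 (Or.inl (Or.inl ⟨h, hxS⟩)))
    by_contra hcon
    push Not at hcon
    exact hxF ⟨s, hs, fun n hn => hcon n (Or.inl hn)⟩

theorem main (q η : ℝ) (hq : q ∈ Set.Ioo 0 1) (hη : η ∈ Set.Ioo 0 1) :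
    ∃ E : Set ℝ, IsCompact E ∧ E ⊆ Set.Icc 0 1 ∧
      ENNReal.ofReal (1 - η) < MeasureTheory.volume E ∧
      ∀ x s : ℝ, s ≠ 0 → ∃ n : ℕ, 1 ≤ n ∧ x + s * q ^ n ∉ E := by
  obtain ⟨hq0, hq1⟩ := hq
  obtain ⟨hη0, hη1⟩ := hη
  have h := fun i : ℕ => exists_open hq0 hq1 (show (0 : ℝ) < 1 / (i + 1) by positivity)
    (show 0 < η / 2 / 2 / 2 ^ i by positivity)
  choose O hO1 hO2 hO3 using h
  have hOpen : IsOpen (⋃ i, O i) := isOpen_iUnion hO1
  have hcomp : IsCompact (Icc (0 : ℝ) 1 \ ⋃ i, O i) := isCompact_Icc.diff hOpen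
  have hvol : volume (⋃ i, O i) ≤ ENNReal.ofReal (η / 2) := by
    refine (measure_iUnion_le _).trans ((ENNReal.tsum_le_tsum hO2).trans ?_)
    rw [← ENNReal.ofReal_tsum_of_nonneg (fun i => by positivity) (summable_geometric_two' _),
      tsum_geometric_two']
  refine ⟨Icc 0 1 \ ⋃ i, O i, hcomp, diff_subset, ?_, ?_⟩
  · refine lt_of_lt_of_le ?_ le_measure_diff
    refine lt_of_lt_of_le ?_ (tsub_le_tsub_left hvol _)
    rw [Real.volume_Icc, ← ENNReal.ofReal_sub _ (by positivity)]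
    apply (ENNReal.ofReal_lt_ofReal_iff (by linarith)).2
    linarith
  · intro x s hs
    by_contra hcon
    push Not at hcon
    have hx : x ∈ Icc (0 : ℝ) 1 \ ⋃ i, O i := by
      have ht : Filter.Tendsto (fun n : ℕ => x + s * q ^ n) Filter.atTop (nhds (x + s * 0)) :=
        tendsto_const_nhds.add (tendsto_const_nhds.mul
          (tendsto_pow_atTop_nhds_zero_of_lt_one hq0.le hq1))
      rw [mul_zero, add_zero] at ht
      exact hcomp.isClosed.mem_of_tendsto ht (Filter.eventually_atTop.2 ⟨1, hcon⟩)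
    have hsq : 0 < |s * q| := abs_pos.2 (mul_ne_zero hs hq0.ne')
    obtain ⟨i, hi⟩ := exists_nat_one_div_lt hsq
    obtain ⟨n, hn⟩ := hO3 i x hx.1 (fun h => hx.2 (mem_iUnion.2 ⟨i, h⟩)) (s * q) hi.le
    have h1 := hcon (n + 1) (by omega)
    apply h1.2
    refine mem_iUnion.2 ⟨i, ?_⟩
    rw [pow_succ', ← mul_assoc]
    exact hn

end Crest.Agent.H8ES
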